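import Vale.Agent.P146.FreeEnergy

open MeasureTheory ProbabilityTheory Finset Function
open scoped ENNReal ComplexConjugate

namespace Vale.Agent.P146

variable {n : ℕ}

/-- A test vector field with two derivatives. -/
structure TestField (n : ℕ) where
  V : Fin n × Fin n → Disorder n → ℂ
  D : Fin n × Fin n → Fin n × Fin n → Disorder n → ℂ
  D2 : Fin n × Fin n → Fin n × Fin n → Fin n × Fin n → Disorder n → ℂ
  C : ℝ
  hV : ∀ f, Measurable (V f)
  hD : ∀ e f, Measurable (D e f)
  hD2 : ∀ e h f, Measurable (D2 e h f)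
  bV : ∀ f g, ‖V f g‖ ≤ C
  bD : ∀ e f g, ‖D e f g‖ ≤ C
  bD2 : ∀ e h f g, ‖D2 e h f g‖ ≤ C
  dV : ∀ e f g, HasDerivAt (fun t => V f (setEntry e g t)) (D e f g) (g e.1 e.2)
  dD : ∀ e h f g, HasDerivAt (fun t => D h f (setEntry e g t)) (D2 e h f g) (g e.1 e.2)
  symm : ∀ e h f g, D2 e h f g = D2 h e f g

namespace TestField

variable (T : TestField n)

/-- The Gaussian divergence of the field. -/
noncomputable def div (g : Disorder n) : ℂ := ∑ f, ((g f.1 f.2 : ℂ) * T.V f g - T.D f f g)

/-- Its derivative in the direction of the entry `e`. -/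
noncomputable def divDeriv (e : Fin n × Fin n) (g : Disorder n) : ℂ :=
  ∑ f, ((if f = e then T.V f g else 0) + (g f.1 f.2 : ℂ) * T.D e f g - T.D2 e f f g)

lemma measurable_div : Measurable T.div :=
  Finset.measurable_sum _ fun f _ =>
    (((measurable_entry f.1 f.2).complex_ofReal).mul (T.hV f)).sub (T.hD f f)

lemma memLp_entryC (e : Fin n × Fin n) :
    MemLp (fun g : Disorder n => (g e.1 e.2 : ℂ)) 2 (disorderLaw n) :=
  (memLp_entry e 2).ofReal

lemma memLp_bdd {F : Disorder n → ℂ} {C : ℝ} (hF : Measurable F) (hb : ∀ g, ‖F g‖ ≤ C) (p : ℝ≥0∞) :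
    MemLp F p (disorderLaw n) :=
  MemLp.of_bound hF.aestronglyMeasurable C (ae_of_all _ hb)

lemma memLp_div : MemLp T.div 2 (disorderLaw n) := by
  refine memLp_finset_sum _ fun f _ => MemLp.sub ?_ (memLp_bdd (T.hD f f) (T.bD f f) 2)
  exact MemLp.mul' (r := 2) (p := 2) (q := ⊤) (memLp_bdd (T.hV f) (T.bV f) ⊤) (memLp_entryC f)

lemma memLp_divDeriv (e : Fin n × Fin n) : MemLp (T.divDeriv e) 2 (disorderLaw n) := by
  refine memLp_finset_sum _ fun f _ => MemLp.sub (MemLp.add ?_ ?_) (memLp_bdd (T.hD2 e f f) (T.bD2 e f f) 2)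
  · split_ifs
    · exact memLp_bdd (T.hV f) (T.bV f) 2
    · exact memLp_const 0
  · exact MemLp.mul' (r := 2) (p := 2) (q := ⊤) (memLp_bdd (T.hD e f) (T.bD e f) ⊤) (memLp_entryC f)

lemma div_hasDerivAt (e : Fin n × Fin n) (g : Disorder n) :
    HasDerivAt (fun t => T.div (setEntry e g t)) (T.divDeriv e g) (g e.1 e.2) := by
  refine HasDerivAt.fun_sum fun f _ => (HasDerivAt.sub ?_ (T.dD e f f g))
  have h1 : HasDerivAt (fun t => ((setEntry e g t f.1 f.2 : ℝ) : ℂ))
      (if f = e then 1 else 0) (g e.1 e.2) := by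
    by_cases hf : f = e
    · subst hf
      simpa [setEntry_apply] using (hasDerivAt_id (g f.1 f.2)).ofReal_comp
    · simpa [setEntry_apply, hf] using hasDerivAt_const (g e.1 e.2) ((g f.1 f.2 : ℝ) : ℂ)
  refine (h1.mul (T.dV e f g)).congr_deriv ?_
  simp only [setEntry_same]
  split_ifs <;> simp

lemma integrable_mul_two {F G : Disorder n → ℂ} (hF : MemLp F 2 (disorderLaw n))
    (hG : MemLp G 2 (disorderLaw n)) : Integrable (fun g => F g * G g) (disorderLaw n) :=
  hF.integrable_mul hG

/-- Integration by parts against the divergence. -/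
lemma ibp_div {F : Disorder n → ℂ} {F' : Fin n × Fin n → Disorder n → ℂ}
    (hd : ∀ e g, HasDerivAt (fun t => F (setEntry e g t)) (F' e g) (g e.1 e.2))
    (hF : MemLp F 2 (disorderLaw n)) (hF' : ∀ e, MemLp (F' e) 2 (disorderLaw n)) :
    ∫ g, F g * T.div g ∂disorderLaw n = ∫ g, ∑ e, F' e g * T.V e g ∂disorderLaw n := by
  set μ := disorderLaw n
  have hVL := fun e => memLp_bdd (n := n) (T.hV e) (T.bV e) 2
  have hDL := fun e f => memLp_bdd (n := n) (T.hD e f) (T.bD e f) 2
  have hgV := fun e => MemLp.mul' (r := 2) (p := 2) (q := ⊤)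
    (memLp_bdd (n := n) (T.hV e) (T.bV e) ⊤) (memLp_entryC e)
  have i1 : ∀ e, Integrable (fun g => F g * ((g e.1 e.2 : ℂ) * T.V e g)) μ := fun e =>
    integrable_mul_two hF (hgV e)
  have i2 : ∀ e, Integrable (fun g => F g * T.D e e g) μ := fun e =>
    integrable_mul_two hF (hDL e e)
  have i3 : ∀ e, Integrable (fun g => F' e g * T.V e g) μ := fun e =>
    integrable_mul_two (hF' e) (hVL e)
  have hibp : ∀ e, ∫ g, F g * ((g e.1 e.2 : ℂ) * T.V e g) ∂μ
      = ∫ g, (F' e g * T.V e g + F g * T.D e e g) ∂μ := by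
    intro e
    have h := ibp e (fun g => F g * T.V e g) (fun g => F' e g * T.V e g + F g * T.D e e g)
      (fun g => by
        have h := (hd e g).mul (T.dV e e g)
        simp only [setEntry_same] at h
        exact h)
      (integrable_mul_two hF (hVL e))
      ((i1 e).congr (ae_of_all _ fun g => by ring))
      ((i3 e).add (i2 e))
    rw [← h]; exact integral_congr_ae (ae_of_all _ fun g => by ring)
  simp only [div, Finset.mul_sum, mul_sub]
  rw [integral_finset_sum _ fun e _ => (by exact (i1 e).sub (i2 e)),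
    integral_finset_sum _ fun e _ => i3 e]
  refine Finset.sum_congr rfl fun e _ => ?_
  rw [integral_sub (i1 e) (i2 e), hibp e, integral_add (i3 e) (i2 e), add_sub_cancel_right]

lemma integral_div : ∫ g, T.div g ∂disorderLaw n = 0 := by
  have h := T.ibp_div (F := fun _ => 1) (F' := fun _ _ => 0) (fun _ _ => hasDerivAt_const _ _)
    (memLp_const 1) (fun _ => memLp_const 0)
  simpa using h

/-- Second moment of the divergence. -/
lemma div_sq_le :
    ∫ g, ‖T.div g‖ ^ 2 ∂disorderLaw n
      ≤ ∫ g, ((∑ e, ‖T.V e g‖ ^ 2) + ∑ e, ∑ f, ‖T.D e f g‖ ^ 2) ∂disorderLaw n := by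
  set μ := disorderLaw n
  have hVL := fun e => memLp_bdd (n := n) (T.hV e) (T.bV e) 2
  have hDL := fun e f => memLp_bdd (n := n) (T.hD e f) (T.bD e f) 2
  have hcV : ∀ e, MemLp (fun g => conj (T.V e g)) 2 μ := fun e =>
    memLp_bdd (Complex.continuous_conj.measurable.comp (T.hV e))
      (C := T.C) (fun g => by rw [Function.comp_apply, Complex.norm_conj]; exact T.bV e g) 2
  have hcd : MemLp (fun g => conj (T.div g)) 2 μ :=
    T.memLp_div.of_le (Complex.continuous_conj.measurable.comp T.measurable_div).aestronglyMeasurable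
      (ae_of_all _ fun g => by simp)
  have hcD : ∀ e, MemLp (fun g => conj (T.divDeriv e g)) 2 μ := fun e =>
    (T.memLp_divDeriv e).of_le
      (Complex.continuous_conj.comp_aestronglyMeasurable (T.memLp_divDeriv e).aestronglyMeasurable)
      (ae_of_all _ fun g => by simp)
  have h1 := T.ibp_div (F := fun g => conj (T.div g)) (F' := fun e g => conj (T.divDeriv e g))
    (fun e g => (T.div_hasDerivAt e g).star) hcd hcD
  -- expand the derivative of the divergence
  have hgD : ∀ e f, MemLp (fun g : Disorder n => (g f.1 f.2 : ℂ) * conj (T.D e f g)) 2 μ := fun e f =>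
    MemLp.mul' (r := 2) (p := 2) (q := ⊤)
      (memLp_bdd (Complex.continuous_conj.measurable.comp (T.hD e f)) (C := T.C)
        (fun g => by rw [Function.comp_apply, Complex.norm_conj]; exact T.bD e f g) ⊤) (memLp_entryC f)
  have hcD2 : ∀ e f, MemLp (fun g => conj (T.D2 e f f g)) 2 μ := fun e f =>
    memLp_bdd (Complex.continuous_conj.measurable.comp (T.hD2 e f f))
      (C := T.C) (fun g => by rw [Function.comp_apply, Complex.norm_conj]; exact T.bD2 e f f g) 2
  have hcDD : ∀ e f, MemLp (fun g => conj (T.D e f g)) 2 μ := fun e f =>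
    memLp_bdd (Complex.continuous_conj.measurable.comp (T.hD e f))
      (C := T.C) (fun g => by rw [Function.comp_apply, Complex.norm_conj]; exact T.bD e f g) 2
  have j1 : ∀ e, Integrable (fun g => conj (T.V e g) * T.V e g) μ := fun e =>
    integrable_mul_two (hcV e) (hVL e)
  have j2 : ∀ e f, Integrable (fun g => (g f.1 f.2 : ℂ) * conj (T.D e f g) * T.V e g) μ := fun e f =>
    integrable_mul_two (hgD e f) (hVL e)
  have j3 : ∀ e f, Integrable (fun g => conj (T.D2 e f f g) * T.V e g) μ := fun e f =>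
    integrable_mul_two (hcD2 e f) (hVL e)
  have j4 : ∀ e f, Integrable (fun g => conj (T.D e f g) * T.D f e g) μ := fun e f =>
    integrable_mul_two (hcDD e f) (hDL f e)
  have hsw : ∀ e f, ∫ g, (g f.1 f.2 : ℂ) * conj (T.D e f g) * T.V e g ∂μ
      = ∫ g, (conj (T.D2 e f f g) * T.V e g + conj (T.D e f g) * T.D f e g) ∂μ := by
    intro e f
    have h := ibp f (fun g => conj (T.D e f g) * T.V e g)
      (fun g => conj (T.D2 f e f g) * T.V e g + conj (T.D e f g) * T.D f e g)
      (fun g => by
        have h := ((T.dD f e f g).star).mul (T.dV f e g)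
        simp only [setEntry_same] at h
        exact h)
      (integrable_mul_two (hcDD e f) (hVL e))
      ((j2 e f).congr (ae_of_all _ fun g => by ring))
      (((j3 e f).congr (ae_of_all _ fun g => by simp only [T.symm e f f g])).add (j4 e f))
    simp only [T.symm f e f] at h
    rw [← h]; exact integral_congr_ae (ae_of_all _ fun g => by ring)
  have hexp : ∀ e g, conj (T.divDeriv e g) * T.V e g
      = conj (T.V e g) * T.V e g
        + ∑ f, ((g f.1 f.2 : ℂ) * conj (T.D e f g) * T.V e g - conj (T.D2 e f f g) * T.V e g) := by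
    intro e g
    simp only [divDeriv, map_sum, map_sub, map_add, map_mul, Complex.conj_ofReal, Finset.sum_mul,
      apply_ite conj, map_zero, sub_mul, add_mul, ite_mul, zero_mul, add_sub_assoc,
      Finset.sum_add_distrib, Finset.sum_ite_eq', Finset.mem_univ, if_true]
  have hfin : ∫ g, conj (T.div g) * T.div g ∂μ
      = ∫ g, ((∑ e, conj (T.V e g) * T.V e g) + ∑ e, ∑ f, conj (T.D e f g) * T.D f e g) ∂μ := by
    rw [h1]
    simp only [hexp]
    have k1 : ∀ e, Integrable (fun g => ∑ f, ((g f.1 f.2 : ℂ) * conj (T.D e f g) * T.V e g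
        - conj (T.D2 e f f g) * T.V e g)) μ := fun e =>
      integrable_finset_sum _ fun f _ => (j2 e f).sub (j3 e f)
    have k2 : ∀ e, Integrable (fun g => ∑ f, conj (T.D e f g) * T.D f e g) μ := fun e =>
      integrable_finset_sum _ fun f _ => j4 e f
    rw [integral_finset_sum _ fun e _ => (by exact (j1 e).add (k1 e)),
      integral_add (integrable_finset_sum _ fun e _ => j1 e) (integrable_finset_sum _ fun e _ => k2 e),
      integral_finset_sum _ fun e _ => j1 e, integral_finset_sum _ fun e _ => k2 e,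
      ← Finset.sum_add_distrib]
    refine Finset.sum_congr rfl fun e _ => ?_
    rw [integral_add (j1 e) (k1 e), integral_finset_sum _ fun f _ => (by exact (j2 e f).sub (j3 e f)),
      integral_finset_sum _ fun f _ => j4 e f]
    congr 1
    refine Finset.sum_congr rfl fun f _ => ?_
    rw [integral_sub (j2 e f) (j3 e f), hsw e f, integral_add (j3 e f) (j4 e f), add_sub_cancel_left]
  have hnorm : ∫ g, conj (T.div g) * T.div g ∂μ = ((∫ g, ‖T.div g‖ ^ 2 ∂μ : ℝ) : ℂ) := by
    rw [← integral_complex_ofReal]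
    exact integral_congr_ae (ae_of_all _ fun g => by simp [Complex.conj_mul'])
  have hre := congrArg (‖·‖) (hnorm.symm.trans hfin)
  have hnn : 0 ≤ ∫ g, ‖T.div g‖ ^ 2 ∂μ := integral_nonneg fun g => by positivity
  simp only [Complex.norm_real, Real.norm_eq_abs, abs_of_nonneg hnn] at hre
  rw [hre]
  refine (norm_integral_le_integral_norm _).trans ?_
  refine integral_mono_of_nonneg (ae_of_all _ fun g => norm_nonneg _) ?_ (ae_of_all _ fun g => ?_)
  · refine Integrable.add (integrable_finset_sum _ fun e _ => ?_)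
      (integrable_finset_sum _ fun e _ => integrable_finset_sum _ fun f _ => ?_)
    · exact (memLp_two_iff_integrable_sq (hVL e).aestronglyMeasurable.norm).1 (hVL e).norm
    · exact (memLp_two_iff_integrable_sq (hDL e f).aestronglyMeasurable.norm).1 (hDL e f).norm
  · refine (norm_add_le _ _).trans (add_le_add ?_ ?_)
    · refine (norm_sum_le _ _).trans (le_of_eq (Finset.sum_congr rfl fun e _ => ?_))
      simp [sq]
    · refine (norm_sum_le _ _).trans ((Finset.sum_le_sum fun e _ => norm_sum_le _ _).trans ?_)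
      have : ∀ e f, ‖conj (T.D e f g) * T.D f e g‖ ≤ (‖T.D e f g‖ ^ 2 + ‖T.D f e g‖ ^ 2) / 2 := by
        intro e f
        rw [norm_mul, Complex.norm_conj]
        nlinarith [sq_nonneg (‖T.D e f g‖ - ‖T.D f e g‖)]
      refine (Finset.sum_le_sum fun e _ => Finset.sum_le_sum fun f _ => this e f).trans ?_
      simp only [← Finset.sum_div, Finset.sum_add_distrib]
      rw [Finset.sum_comm (f := fun e f => ‖T.D f e g‖ ^ 2)]
      linarith

/-- The variance inequality. -/
lemma variance_ge {F : Disorder n → ℝ} {F' : Fin n × Fin n → Disorder n → ℝ}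
    (hd : ∀ e g, HasDerivAt (fun t => F (setEntry e g t)) (F' e g) (g e.1 e.2))
    (hF : MemLp F 2 (disorderLaw n)) (hF' : ∀ e, MemLp (F' e) 2 (disorderLaw n)) {B : ℝ}
    (hB : ∫ g, ((∑ e, ‖T.V e g‖ ^ 2) + ∑ e, ∑ f, ‖T.D e f g‖ ^ 2) ∂disorderLaw n ≤ B) :
    ‖∫ g, ∑ e, (F' e g : ℂ) * T.V e g ∂disorderLaw n‖ ^ 2 ≤ variance F (disorderLaw n) * B := by
  set μ := disorderLaw n
  set m := ∫ g, F g ∂μ
  have hFm : MemLp (fun g => F g - m) 2 μ := hF.sub (memLp_const m)
  have h := T.ibp_div (F := fun g => ((F g - m : ℝ) : ℂ)) (F' := fun e g => (F' e g : ℂ))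
    (fun e g => ((hd e g).sub_const m).ofReal_comp) hFm.ofReal (fun e => (hF' e).ofReal)
  rw [← h, variance_eq_integral hF.aestronglyMeasurable.aemeasurable]
  refine le_trans ?_ (mul_le_mul_of_nonneg_left ((T.div_sq_le).trans hB)
    (integral_nonneg fun g => sq_nonneg _))
  set a : Disorder n → ℝ := fun g => |F g - m|
  set b : Disorder n → ℝ := fun g => ‖T.div g‖
  have ha : MemLp a 2 μ := hFm.abs
  have hb : MemLp b 2 μ := T.memLp_div.norm
  have hab : Integrable (fun g => a g * b g) μ := ha.integrable_mul hb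
  have ha2 := ha.integrable_sq
  have hb2 := hb.integrable_sq
  have hle : ‖∫ g, ((F g - m : ℝ) : ℂ) * T.div g ∂μ‖ ≤ ∫ g, a g * b g ∂μ := by
    refine (norm_integral_le_integral_norm _).trans (le_of_eq ?_)
    refine integral_congr_ae (ae_of_all _ fun g => ?_)
    simp only [a, b, norm_mul, Complex.norm_real, Real.norm_eq_abs]
  have hcs : (∫ g, a g * b g ∂μ) ^ 2 ≤ (∫ g, a g ^ 2 ∂μ) * ∫ g, b g ^ 2 ∂μ := by
    have hq : ∀ t : ℝ, 0 ≤ (∫ g, b g ^ 2 ∂μ) * (t * t) + (-2 * ∫ g, a g * b g ∂μ) * t
        + ∫ g, a g ^ 2 ∂μ := by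
      intro t
      have h0 : 0 ≤ ∫ g, (a g - t * b g) ^ 2 ∂μ := integral_nonneg fun g => sq_nonneg _
      have e : (fun g => (a g - t * b g) ^ 2)
          = fun g => a g ^ 2 - 2 * t * (a g * b g) + t ^ 2 * b g ^ 2 := by funext g; ring
      rw [e, integral_add (by exact ha2.sub (hab.const_mul _)) (hb2.const_mul _),
        integral_sub ha2 (hab.const_mul _), integral_const_mul, integral_const_mul] at h0
      linarith
    have := discrim_le_zero hq
    rw [discrim] at this
    linarith
  refine (pow_le_pow_left₀ (norm_nonneg _) hle 2).trans (hcs.trans (le_of_eq ?_))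
  simp only [a, b, sq_abs]; rfl

end TestField

end Vale.Agent.P146
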