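import Vale.Agent.P146.Defs

open MeasureTheory ProbabilityTheory Matrix Finset

namespace Vale.Agent.P146

variable {n : ℕ}

/-- The vector of spins. -/
def spins (σ : Fin n → Bool) : Fin n → ℝ := fun i => spin (σ i)

/-- Quadratic form. -/
def qform (A : Matrix (Fin n) (Fin n) ℝ) (x : Fin n → ℝ) : ℝ := ∑ i, ∑ j, x i * A i j * x j

@[simp] lemma spin_sq (b : Bool) : spin b * spin b = 1 := by cases b <;> simp [spin]

lemma sum_spins_exp (v : Fin n → ℝ) :
    ∑ σ : Fin n → Bool, Real.exp (∑ i, spins σ i * v i)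
      ≤ 2 ^ n * Real.exp ((∑ i, v i ^ 2) / 2) := by
  simp only [Real.exp_sum]
  have h := Fintype.prod_sum (fun i (b : Bool) => Real.exp (spin b * v i))
  rw [show (∑ σ : Fin n → Bool, ∏ i, Real.exp (spins σ i * v i))
      = ∏ i, ∑ b : Bool, Real.exp (spin b * v i) from h.symm]
  calc ∏ i, ∑ b : Bool, Real.exp (spin b * v i) ≤ ∏ i, 2 * Real.exp (v i ^ 2 / 2) := by
        refine Finset.prod_le_prod (fun i _ => by positivity) fun i _ => ?_
        rw [Fintype.sum_bool]
        have := Real.cosh_le_exp_half_sq (v i)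
        rw [Real.cosh_eq] at this
        simp only [spin, if_true, Bool.false_eq_true, if_false, one_mul, neg_mul]
        linarith
    _ = 2 ^ n * Real.exp ((∑ i, v i ^ 2) / 2) := by
        rw [Finset.prod_mul_distrib, ← Real.exp_sum, Finset.sum_div]
        simp

lemma gaussian_exp_sq {b : ℝ} (hb : b < 1 / 2) :
    ∫ x, Real.exp (b * x ^ 2) ∂gaussianReal 0 1 = (Real.sqrt (1 - 2 * b))⁻¹ := by
  rw [integral_gaussianReal_eq_integral_smul one_ne_zero]
  have e : (fun x => gaussianPDFReal 0 1 x • Real.exp (b * x ^ 2))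
      = fun x => (Real.sqrt (2 * Real.pi))⁻¹ * Real.exp (-(1 / 2 - b) * x ^ 2) := by
    funext x
    simp only [gaussianPDFReal_def, smul_eq_mul, NNReal.coe_one, mul_one, mul_assoc, ← Real.exp_add]
    congr 2; ring
  rw [e, integral_const_mul, integral_gaussian, ← Real.sqrt_inv, ← Real.sqrt_inv,
    ← Real.sqrt_mul (by positivity)]
  congr 1
  have : 1 / 2 - b ≠ 0 := by linarith
  have : 1 - 2 * b ≠ 0 := by linarith
  field_simp

lemma integrable_gaussian_exp_sq {b : ℝ} (hb : b < 1 / 2) :
    Integrable (fun x => Real.exp (b * x ^ 2)) (gaussianReal 0 1) := by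
  refine Integrable.of_integral_ne_zero ?_
  rw [gaussian_exp_sq hb]
  have : 0 < 1 - 2 * b := by linarith
  positivity

lemma exp_half_sq_eq (s : ℝ) :
    Real.exp (s ^ 2 / 2) = ∫ x, Real.exp (s * x) ∂gaussianReal 0 1 := by
  have := congrFun (mgf_id_gaussianReal (μ := 0) (v := 1)) s
  simp only [mgf, id_eq] at this
  rw [this]; simp

/-- Exponential moment of a positive semi-definite chaos, given by an orthonormal system. -/
lemma chaos_psd (U : Matrix (Fin n) (Fin n) ℝ) (hU : Uᵀ * U = 1) (b : Fin n → ℝ)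
    (hb0 : ∀ k, 0 ≤ b k) (hb : ∀ k, b k < 1 / 2) :
    ∑ σ : Fin n → Bool, Real.exp (∑ k, b k * (∑ i, spins σ i * U i k) ^ 2)
      ≤ 2 ^ n * ∏ k, (Real.sqrt (1 - 2 * b k))⁻¹ := by
  set N := gaussianReal 0 1
  set a : Fin n → ℝ := fun k => Real.sqrt (2 * b k)
  have ha : ∀ k, a k ^ 2 = 2 * b k := fun k => Real.sq_sqrt (by linarith [hb0 k])
  have step : ∀ σ : Fin n → Bool, Real.exp (∑ k, b k * (∑ i, spins σ i * U i k) ^ 2)
      = ∫ x : Fin n → ℝ, ∏ k, Real.exp ((a k * ∑ i, spins σ i * U i k) * x k)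
          ∂(Measure.pi fun _ => N) := by
    intro σ
    rw [integral_fintype_prod_eq_prod (f := fun k t => Real.exp ((a k * ∑ i, spins σ i * U i k) * t)),
      Real.exp_sum]
    refine Finset.prod_congr rfl fun k _ => ?_
    rw [← exp_half_sq_eq, mul_pow, ha]; congr 1; ring
  have hint : ∀ σ : Fin n → Bool, Integrable
      (fun x : Fin n → ℝ => ∏ k, Real.exp ((a k * ∑ i, spins σ i * U i k) * x k))
      (Measure.pi fun _ => N) := fun σ =>
    Integrable.fintype_prod (f := fun k t => Real.exp ((a k * ∑ i, spins σ i * U i k) * t))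
      fun k => integrable_exp_mul_gaussianReal _
  rw [Finset.sum_congr rfl fun σ _ => step σ, ← integral_finset_sum _ fun σ _ => hint σ]
  have hrhs : Integrable (fun x : Fin n → ℝ => 2 ^ n * ∏ k, Real.exp (b k * x k ^ 2))
      (Measure.pi fun _ => N) :=
    (Integrable.fintype_prod (f := fun k t => Real.exp (b k * t ^ 2))
      fun k => integrable_gaussian_exp_sq (hb k)).const_mul _
  refine (integral_mono (integrable_finset_sum _ fun σ _ => hint σ) hrhs fun x => ?_).trans
    (le_of_eq ?_)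
  · simp only [← Real.exp_sum]
    have e1 : ∀ σ : Fin n → Bool, ∑ k, (a k * ∑ i, spins σ i * U i k) * x k
        = ∑ i, spins σ i * (∑ k, U i k * (a k * x k)) := by
      intro σ
      simp only [Finset.mul_sum, Finset.sum_mul]
      rw [Finset.sum_comm]
      exact Finset.sum_congr rfl fun i _ => Finset.sum_congr rfl fun k _ => by ring
    simp only [e1]
    refine (sum_spins_exp _).trans (le_of_eq ?_)
    congr 2
    have hv : ∑ i, (∑ k, U i k * (a k * x k)) ^ 2 = ∑ k, (a k * x k) ^ 2 := by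
      have h1 := dotProduct_mulVec (U *ᵥ fun k => a k * x k) U (fun k => a k * x k)
      rw [← mulVec_transpose, mulVec_mulVec, hU, one_mulVec] at h1
      simpa [dotProduct, mulVec, sq] using h1
    rw [hv, Finset.sum_div]
    exact Finset.sum_congr rfl fun k _ => by rw [mul_pow, ha]; ring
  · rw [integral_const_mul, integral_fintype_prod_eq_prod (f := fun k t => Real.exp (b k * t ^ 2))]
    congr 1
    exact Finset.prod_congr rfl fun k _ => gaussian_exp_sq (hb k)

lemma inv_sqrt_le {b : ℝ} (h0 : 0 ≤ b) (h1 : b ≤ 1 / 4) :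
    (Real.sqrt (1 - 2 * b))⁻¹ ≤ Real.exp (b + 2 * b ^ 2) := by
  have hpos : 0 < 1 - 2 * b := by linarith
  rw [inv_le_iff_one_le_mul₀ (Real.sqrt_pos.2 hpos)]
  set y := 2 * b + 4 * b ^ 2 with hy
  have he : 1 + y + y ^ 2 / 2 ≤ Real.exp y := Real.quadratic_le_exp_of_nonneg (by positivity)
  have h2 : Real.exp y = Real.exp (b + 2 * b ^ 2) ^ 2 := by
    rw [pow_two (Real.exp _), ← Real.exp_add]; congr 1; rw [hy]; ring
  have h3 : 1 ≤ (1 - 2 * b) * (1 + y + y ^ 2 / 2) := by
    have : (1 - 2 * b) * (1 + y + y ^ 2 / 2)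
        = 1 + 2 * b ^ 2 * (1 - 2 * b - 4 * b ^ 2 - 8 * b ^ 3) := by rw [hy]; ring
    rw [this]
    nlinarith [sq_nonneg b, mul_nonneg (sq_nonneg b) (show (0:ℝ) ≤ 1 - 2 * b - 4 * b ^ 2 - 8 * b ^ 3
      by nlinarith [pow_le_pow_left₀ h0 h1 2, pow_le_pow_left₀ h0 h1 3])]
  have h4 : 1 ≤ (Real.exp (b + 2 * b ^ 2) * Real.sqrt (1 - 2 * b)) ^ 2 := by
    rw [mul_pow, Real.sq_sqrt hpos.le, ← h2]
    linarith [mul_le_mul_of_nonneg_left he hpos.le]
  have h5 : (1:ℝ) ^ 2 ≤ (Real.exp (b + 2 * b ^ 2) * Real.sqrt (1 - 2 * b)) ^ 2 := by simpa using h4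
  exact le_of_pow_le_pow_left₀ two_ne_zero (by positivity) h5

lemma spins_sq_sum (σ : Fin n → Bool) : ∑ i, spins σ i ^ 2 = n := by
  simp [spins, sq]

/-- Exponential moments of a Rademacher chaos of a symmetric matrix of bounded norm. -/
lemma chaos_bound (A : Matrix (Fin n) (Fin n) ℝ) (hA : A.IsSymm) {L : ℝ}
    (hop : ∀ x : Fin n → ℝ, |qform A x| ≤ L * ∑ i, x i ^ 2) (γ : ℝ) (hL : 0 ≤ L)
    (hγ : |γ| * L ≤ 1 / 16) :
    ∑ σ : Fin n → Bool, Real.exp (γ * qform A (spins σ))
      ≤ 2 ^ n * Real.exp (γ * A.trace + 8 * γ ^ 2 * L ^ 2 * n) := by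
  classical
  set c := |γ| * L with hc
  have hc0 : 0 ≤ c := mul_nonneg (abs_nonneg _) hL
  set B : Matrix (Fin n) (Fin n) ℝ := γ • A + c • 1 with hB
  have hBh : B.IsHermitian := by
    show Bᴴ = B
    rw [conjTranspose_eq_transpose_of_trivial, hB, transpose_add, transpose_smul, transpose_smul,
      hA.eq, transpose_one]
  set U : Matrix (Fin n) (Fin n) ℝ := (hBh.eigenvectorUnitary : Matrix (Fin n) (Fin n) ℝ) with hUdef
  set b := hBh.eigenvalues with hb
  have hU : Uᵀ * U = 1 := by
    have := Unitary.coe_star_mul_self hBh.eigenvectorUnitary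
    rwa [star_eq_conjTranspose, conjTranspose_eq_transpose_of_trivial] at this
  have hdec : B = U * diagonal b * Uᵀ := by
    have := hBh.spectral_theorem
    rw [Unitary.conjStarAlgAut_apply, star_eq_conjTranspose,
      conjTranspose_eq_transpose_of_trivial] at this
    simpa using this
  have hqB : ∀ x, qform B x = γ * qform A x + c * ∑ i, x i ^ 2 := by
    intro x
    simp only [qform, hB, Matrix.add_apply, Matrix.smul_apply, smul_eq_mul, mul_add, add_mul,
      Finset.sum_add_distrib, Finset.mul_sum]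
    congr 1
    · exact Finset.sum_congr rfl fun i _ => Finset.sum_congr rfl fun j _ => by ring
    · refine Finset.sum_congr rfl fun i _ => ?_
      rw [Finset.sum_eq_single i]
      · simp; ring
      · intro j _ hj; simp [Matrix.one_apply_ne hj.symm]
      · simp
  have hqd : ∀ x, qform B x = ∑ k, b k * (∑ i, x i * U i k) ^ 2 := by
    intro x
    have e : ∀ i j, B i j = ∑ k, U i k * b k * U j k := by
      intro i j
      rw [hdec]
      simp [mul_apply, diagonal_apply]
    simp only [qform, e, sq, Finset.mul_sum, Finset.sum_mul]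
    rw [Finset.sum_comm (γ := Fin n) (s := (Finset.univ : Finset (Fin n)))]
    refine (Finset.sum_congr rfl fun j _ => Finset.sum_comm).trans ?_
    rw [Finset.sum_comm]
    refine Finset.sum_congr rfl fun k _ => Finset.sum_congr rfl fun j _ =>
      Finset.sum_congr rfl fun i _ => ?_
    ring
  have hrange : ∀ k, 0 ≤ b k ∧ b k ≤ 2 * c := by
    intro k
    set u : Fin n → ℝ := fun i => U i k
    have hn : ∀ l, ∑ i, u i * U i l = if l = k then 1 else 0 := by
      intro l
      have := congrFun (congrFun hU k) l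
      simp only [mul_apply, transpose_apply, one_apply] at this
      rw [this]; simp [eq_comm]
    have h1 : qform B u = b k := by
      rw [hqd u]; simp [hn]
    have h2 : ∑ i, u i ^ 2 = 1 := by simpa [sq] using hn k
    have h3 := hop u
    rw [h2, mul_one] at h3
    have h4 : |γ * qform A u| ≤ c := by
      rw [abs_mul]; exact mul_le_mul_of_nonneg_left h3 (abs_nonneg _)
    rw [hqB, h2, mul_one] at h1
    constructor <;> linarith [abs_le.1 h4]
  have htr : ∑ k, b k = γ * A.trace + c * n := by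
    have := hBh.trace_eq_sum_eigenvalues
    simp only [RCLike.ofReal_real_eq_id, id_eq] at this
    rw [← hb] at this
    rw [← this, hB]
    simp
  have hsum : ∑ k, (b k + 2 * b k ^ 2) ≤ γ * A.trace + c * n + 8 * c ^ 2 * n := by
    rw [Finset.sum_add_distrib, htr]
    have : ∑ k, 2 * b k ^ 2 ≤ ∑ _k : Fin n, 8 * c ^ 2 :=
      Finset.sum_le_sum fun k _ => by nlinarith [hrange k]
    simp only [Finset.sum_const, Finset.card_univ, Fintype.card_fin, nsmul_eq_mul] at this
    linarith
  have hmain := chaos_psd U hU b (fun k => (hrange k).1) (fun k => by linarith [hrange k])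
  have hprod : ∏ k, (Real.sqrt (1 - 2 * b k))⁻¹ ≤ Real.exp (∑ k, (b k + 2 * b k ^ 2)) := by
    rw [Real.exp_sum]
    exact Finset.prod_le_prod (fun k _ => by positivity)
      fun k _ => inv_sqrt_le (hrange k).1 (by linarith [hrange k])
  calc ∑ σ : Fin n → Bool, Real.exp (γ * qform A (spins σ))
      = Real.exp (-(c * n)) * ∑ σ : Fin n → Bool, Real.exp (qform B (spins σ)) := by
        rw [Finset.mul_sum]
        refine Finset.sum_congr rfl fun σ _ => ?_
        rw [← Real.exp_add, hqB, spins_sq_sum]; congr 1; ring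
    _ ≤ Real.exp (-(c * n)) * (2 ^ n * Real.exp (γ * A.trace + c * n + 8 * c ^ 2 * n)) := by
        refine mul_le_mul_of_nonneg_left ?_ (Real.exp_pos _).le
        simp only [hqd]
        exact hmain.trans (mul_le_mul_of_nonneg_left
          (hprod.trans (Real.exp_le_exp.2 hsum)) (by positivity))
    _ = _ := by
        rw [mul_left_comm, ← Real.exp_add]
        congr 2
        rw [hc, mul_pow, sq_abs]; ring

end Vale.Agent.P146
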