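import Mathlib

open MeasureTheory ProbabilityTheory
open scoped ENNReal

namespace Vale.Agent.P146

/-- Disorder: a square array; only the entries `i < j` are used by the Hamiltonian. -/
abbrev Disorder (n : ℕ) : Type := Fin n → Fin n → ℝ

/-- The law of an array of iid standard Gaussians. -/
noncomputable def disorderLaw (n : ℕ) : Measure (Disorder n) :=
  Measure.pi fun _ => Measure.pi fun _ => gaussianReal 0 1

instance (n : ℕ) : IsProbabilityMeasure (disorderLaw n) := by
  unfold disorderLaw; infer_instance

/-- The spin value of a Boolean. -/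
def spin (b : Bool) : ℝ := if b then 1 else -1

/-- SK Hamiltonian without external field. -/
noncomputable def hamiltonian (n : ℕ) (g : Disorder n) (σ : Fin n → Bool) : ℝ :=
  (Real.sqrt n)⁻¹ * ∑ i, ∑ j, if i < j then g i j * spin (σ i) * spin (σ j) else 0

/-- SK free energy `log Z`. -/
noncomputable def freeEnergy (n : ℕ) (β : ℝ) (g : Disorder n) : ℝ :=
  Real.log (∑ σ : Fin n → Bool, Real.exp (β * hamiltonian n g σ))

end Vale.Agent.P146
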