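import Vale.Agent.P146.Stats
import Vale.Agent.P146.Bochner

open MeasureTheory ProbabilityTheory Matrix Finset
open scoped ENNReal ComplexConjugate

namespace Vale.Agent.P146

variable {n K : ℕ}

/-- Derivative of `dRes`. -/
noncomputable def d2Res (z : ℂ) (e h : Fin n × Fin n) (g : Disorder n) (a b : Fin n) : ℂ :=
  (entryCoef h : ℂ) *
    ((dRes z e g a h.1 * res z (coupling g) h.2 b + res z (coupling g) a h.1 * dRes z e g h.2 b)
    + (dRes z e g a h.2 * res z (coupling g) h.1 b + res z (coupling g) a h.2 * dRes z e g h.1 b))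

lemma dRes_hasDerivAt {z : ℂ} (hz : z.im ≠ 0) (e h : Fin n × Fin n) (g : Disorder n) (a b : Fin n) :
    HasDerivAt (fun t => dRes z h (setEntry e g t) a b) (d2Res z e h g a b) (g e.1 e.2) := by
  have r := fun c d => res_hasDerivAt hz e g c d
  have := (((r a h.1).mul (r h.2 b)).add ((r a h.2).mul (r h.1 b))).const_mul (entryCoef h : ℂ)
  simp only [setEntry_same] at this
  exact this

lemma d2Res_symm (z : ℂ) (e h : Fin n × Fin n) (g : Disorder n) (a b : Fin n) :
    d2Res z e h g a b = d2Res z h e g a b := by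
  simp only [d2Res, dRes]; ring

lemma measurable_d2Res {z : ℂ} (hz : z.im ≠ 0) (e h : Fin n × Fin n) (a b : Fin n) :
    Measurable fun g => d2Res z e h g a b :=
  ((((measurable_dRes hz e a h.1).mul (measurable_res hz h.2 b)).add
    ((measurable_res hz a h.1).mul (measurable_dRes hz e h.2 b))).add
    (((measurable_dRes hz e a h.2).mul (measurable_res hz h.1 b)).add
    ((measurable_res hz a h.2).mul (measurable_dRes hz e h.1 b)))).const_mul _

lemma abs_entryCoef_le (e : Fin n × Fin n) : |entryCoef e| ≤ (Real.sqrt n)⁻¹ := by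
  unfold entryCoef; split_ifs
  · rw [abs_of_nonneg (by positivity)]
  · simp

lemma norm_d2Res_le {z : ℂ} (hz : z.im ≠ 0) (e h : Fin n × Fin n) (g : Disorder n) (a b : Fin n) :
    ‖d2Res z e h g a b‖
      ≤ (Real.sqrt n)⁻¹ * (4 * ((Real.sqrt n)⁻¹ * (2 * (|z.im|⁻¹ * |z.im|⁻¹)) * |z.im|⁻¹)) := by
  have hr := fun c d => res_entry_bound (coupling_isSymm g) hz c d
  have hd := fun c d => norm_dRes_le hz e g c d
  have h0 : 0 ≤ |z.im|⁻¹ := inv_nonneg.2 (abs_nonneg _)
  rw [d2Res, norm_mul, Complex.norm_real, Real.norm_eq_abs]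
  refine mul_le_mul (abs_entryCoef_le h) ?_ (norm_nonneg _) (by positivity)
  set B := (Real.sqrt n)⁻¹ * (2 * (|z.im|⁻¹ * |z.im|⁻¹)) * |z.im|⁻¹
  have t1 : ∀ c d c' d', ‖dRes z e g c d * res z (coupling g) c' d'‖ ≤ B := fun c d c' d' => by
    rw [norm_mul]; exact mul_le_mul (hd c d) (hr c' d') (norm_nonneg _) (by positivity)
  have t2 : ∀ c d c' d', ‖res z (coupling g) c' d' * dRes z e g c d‖ ≤ B := fun c d c' d' => by
    rw [mul_comm]; exact t1 c d c' d'
  refine (norm_add_le _ _).trans ?_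
  have h1 := norm_add_le (dRes z e g a h.1 * res z (coupling g) h.2 b)
    (res z (coupling g) a h.1 * dRes z e g h.2 b)
  have h2 := norm_add_le (dRes z e g a h.2 * res z (coupling g) h.1 b)
    (res z (coupling g) a h.2 * dRes z e g h.1 b)
  linarith [t1 a h.1 h.2 b, t2 h.2 b a h.1, t1 a h.2 h.1 b, t2 h.1 b a h.2]

/-- Weight of the entry `f` in the test field. -/
noncomputable def fieldCoef (f : Fin n × Fin n) : ℂ := ((2 * entryCoef f : ℝ) : ℂ)

lemma norm_fieldCoef_le (f : Fin n × Fin n) : ‖fieldCoef f‖ ≤ 2 * (Real.sqrt n)⁻¹ := by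
  rw [fieldCoef, Complex.norm_real, Real.norm_eq_abs, abs_mul, abs_two]
  exact mul_le_mul_of_nonneg_left (abs_entryCoef_le f) zero_le_two

/-- The resolvent test field. -/
noncomputable def resField (n : ℕ) (z w : Fin K → ℂ) (hz : ∀ m, (z m).im ≠ 0) : TestField n where
  V f g := fieldCoef f * ∑ m, w m * res (z m) (coupling g) f.1 f.2
  D e f g := fieldCoef f * ∑ m, w m * dRes (z m) e g f.1 f.2
  D2 e h f g := fieldCoef f * ∑ m, w m * d2Res (z m) e h g f.1 f.2
  C := 2 * (Real.sqrt n)⁻¹ * ∑ m, ‖w m‖ *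
    (|(z m).im|⁻¹ + (Real.sqrt n)⁻¹ * (2 * (|(z m).im|⁻¹ * |(z m).im|⁻¹))
      + (Real.sqrt n)⁻¹ * (4 * ((Real.sqrt n)⁻¹ * (2 * (|(z m).im|⁻¹ * |(z m).im|⁻¹)) * |(z m).im|⁻¹)))
  hV f := (Finset.measurable_sum _ fun m _ => (measurable_res (hz m) _ _).const_mul _).const_mul _
  hD e f := (Finset.measurable_sum _ fun m _ => (measurable_dRes (hz m) e _ _).const_mul _).const_mul _
  hD2 e h f := (Finset.measurable_sum _ fun m _ => (measurable_d2Res (hz m) e h _ _).const_mul _).const_mul _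
  bV f g := by
    rw [norm_mul]
    refine mul_le_mul (norm_fieldCoef_le f) ((norm_sum_le _ _).trans (Finset.sum_le_sum fun m _ => ?_))
      (norm_nonneg _) (by positivity)
    rw [norm_mul]
    refine mul_le_mul_of_nonneg_left ?_ (norm_nonneg _)
    rw [add_assoc]
    exact (res_entry_bound (coupling_isSymm g) (hz m) _ _).trans (le_add_of_nonneg_right (by positivity))
  bD e f g := by
    rw [norm_mul]
    refine mul_le_mul (norm_fieldCoef_le f) ((norm_sum_le _ _).trans (Finset.sum_le_sum fun m _ => ?_))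
      (norm_nonneg _) (by positivity)
    rw [norm_mul]
    refine mul_le_mul_of_nonneg_left ?_ (norm_nonneg _)
    refine (norm_dRes_le (hz m) e g _ _).trans ?_
    exact le_trans (le_add_of_nonneg_left (by positivity)) (le_add_of_nonneg_right (by positivity))
  bD2 e h f g := by
    rw [norm_mul]
    refine mul_le_mul (norm_fieldCoef_le f) ((norm_sum_le _ _).trans (Finset.sum_le_sum fun m _ => ?_))
      (norm_nonneg _) (by positivity)
    rw [norm_mul]
    refine mul_le_mul_of_nonneg_left ?_ (norm_nonneg _)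
    exact (norm_d2Res_le (hz m) e h g _ _).trans (le_add_of_nonneg_left (by positivity))
  dV e f g := (HasDerivAt.fun_sum fun m _ =>
    (res_hasDerivAt (hz m) e g f.1 f.2).const_mul (w m)).const_mul _
  dD e h f g := (HasDerivAt.fun_sum fun m _ =>
    (dRes_hasDerivAt (hz m) e h g f.1 f.2).const_mul (w m)).const_mul _
  symm e h f g := by simp only [d2Res_symm]

/-- The gradient of the free energy. -/
noncomputable def gradFree (β : ℝ) (e : Fin n × Fin n) (g : Disorder n) : ℝ :=
  β * ∑ σ, gibbs n β g σ * hcoef e σ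

lemma freeEnergy_hasDerivAt (β : ℝ) (e : Fin n × Fin n) (g : Disorder n) :
    HasDerivAt (fun t => freeEnergy n β (setEntry e g t)) (gradFree β e g) (g e.1 e.2) := by
  have h1 : ∀ σ, HasDerivAt (fun t => Real.exp (β * hamiltonian n (setEntry e g t) σ))
      (Real.exp (β * hamiltonian n g σ) * (β * hcoef e σ)) (g e.1 e.2) := by
    intro σ
    have h0 : HasDerivAt (fun t => β * (hamiltonian n g σ + (t - g e.1 e.2) * hcoef e σ))
        (β * hcoef e σ) (g e.1 e.2) := by
      simpa using ((((hasDerivAt_id (g e.1 e.2)).sub_const (g e.1 e.2)).mul_const (hcoef e σ)).const_add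
        (hamiltonian n g σ)).const_mul β
    have := h0.exp
    simp only [sub_self, zero_mul, add_zero] at this
    simpa only [hamiltonian_setEntry] using this
  have h2 := HasDerivAt.fun_sum (u := (Finset.univ : Finset (Fin n → Bool))) fun σ _ => h1 σ
  have h3 := h2.log (by rw [setEntry_same]; exact (partition'_pos β g).ne')
  refine h3.congr_deriv ?_
  rw [setEntry_same, gradFree, Finset.sum_div, Finset.mul_sum]
  refine Finset.sum_congr rfl fun σ _ => ?_
  simp only [gibbs, partition']; ring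

lemma memLp_gradFree (β : ℝ) (e : Fin n × Fin n) : MemLp (gradFree β e) 2 (disorderLaw n) := by
  refine MemLp.of_bound ?_ (|β| * (Real.sqrt n)⁻¹) (ae_of_all _ fun g => ?_)
  · exact ((Finset.measurable_sum _ fun σ _ => (measurable_gibbs β σ).mul_const _).const_mul β).aestronglyMeasurable
  · rw [gradFree, Real.norm_eq_abs, abs_mul]
    refine mul_le_mul_of_nonneg_left ((Finset.abs_sum_le_sum_abs _ _).trans ?_) (abs_nonneg _)
    calc ∑ σ, |gibbs n β g σ * hcoef e σ| ≤ ∑ σ, gibbs n β g σ * (Real.sqrt n)⁻¹ :=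
          Finset.sum_le_sum fun σ _ => by
            rw [abs_mul, abs_of_nonneg (gibbs_nonneg β g σ)]
            exact mul_le_mul_of_nonneg_left (abs_hcoef_le e σ) (gibbs_nonneg β g σ)
      _ = (Real.sqrt n)⁻¹ := by rw [← Finset.sum_mul, sum_gibbs, one_mul]

/-- The pairing of the gradient with the test field. -/
lemma pairing_eq (z w : Fin K → ℂ) (hz : ∀ m, (z m).im ≠ 0) (β : ℝ) (g : Disorder n) :
    ∑ e, (gradFree β e g : ℂ) * (resField n z w hz).V e g
      = (β : ℂ) * ∑ m, w m * ∑ σ, (gibbs n β g σ : ℂ)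
          * (sumStat (z m) (gauge σ g) - trStat (z m) g) := by
  have key : ∀ (m : Fin K) (σ : Fin n → Bool),
      ∑ e : Fin n × Fin n, ((hcoef e σ : ℝ) : ℂ) * (fieldCoef e * res (z m) (coupling g) e.1 e.2)
        = sumStat (z m) (gauge σ g) - trStat (z m) g := by
    intro m σ
    rcases Nat.eq_zero_or_pos n with hn | hn
    · subst hn; simp [sumStat, trStat, Matrix.trace]
    set G := res (z m) (coupling g)
    have hs : ((((Real.sqrt n)⁻¹ : ℝ)) : ℂ) * (((Real.sqrt n)⁻¹ : ℝ) : ℂ) = (n:ℂ)⁻¹ := by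
      rw [← Complex.ofReal_mul, ← mul_inv, Real.mul_self_sqrt (Nat.cast_nonneg n)]; simp
    set s : Fin n → ℂ := fun i => (spins σ i : ℂ)
    have hss : ∀ i, s i * s i = 1 := fun i => by simp only [s, ← Complex.ofReal_mul]; simp [spins]
    set T : Fin n → Fin n → ℂ := fun a b => s a * G a b * s b
    have hsym : ∀ a b, T a b = T b a := fun a b => by
      simp only [T, G, res_symm (coupling_isSymm g) a b]; ring
    have hdiag : ∑ a, T a a = trace G := by
      simp only [trace, diag_apply, T]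
      exact Finset.sum_congr rfl fun a _ => by rw [mul_right_comm, hss, one_mul]
    have hall : ∑ a, ∑ b, T a b = 2 * (∑ a, ∑ b, if a < b then T a b else 0) + ∑ a, T a a := by
      have h3 : ∀ a b, T a b = ((if a < b then T a b else 0) + (if b < a then T b a else 0))
          + (if a = b then T a a else 0) := by
        intro a b
        rcases lt_trichotomy a b with h | h | h
        · simp [h, h.not_gt, h.ne]
        · subst h; simp
        · simp [h, h.not_gt, h.ne', hsym a b]
      rw [Finset.sum_congr rfl fun a _ => Finset.sum_congr rfl fun b _ => h3 a b]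
      simp only [Finset.sum_add_distrib, Finset.sum_ite_eq, Finset.mem_univ, if_true]
      rw [Finset.sum_comm (f := fun a b => if b < a then T b a else 0)]; ring
    rw [sumStat_gauge σ g (hz m), trStat, ← sub_div,
      show ∑ a, ∑ b, (spins σ a : ℂ) * G a b * (spins σ b : ℂ) = ∑ a, ∑ b, T a b from rfl,
      hall, hdiag, add_sub_cancel_right, div_eq_inv_mul, ← hs, Fintype.sum_prod_type]
    simp only [Finset.mul_sum]
    refine Finset.sum_congr rfl fun a _ => Finset.sum_congr rfl fun b _ => ?_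
    simp only [hcoef, fieldCoef, entryCoef, T, s]
    split_ifs <;> push_cast <;> ring
  simp only [← key, gradFree, resField, Finset.mul_sum]
  push_cast
  simp only [Finset.mul_sum, Finset.sum_mul]
  rw [Finset.sum_comm]
  refine Finset.sum_congr rfl fun m _ => ?_
  rw [Finset.sum_comm]
  refine Finset.sum_congr rfl fun σ _ => Finset.sum_congr rfl fun e _ => ?_
  ring

lemma sum_gram {ι : Type*} [Fintype ι] (w : Fin K → ℂ) (A : Fin K → ι → ℂ) :
    ∑ i, ‖∑ m, w m * A m i‖ ^ 2 ≤ ∑ m, ∑ l, ‖w m‖ * ‖w l‖ * ‖∑ i, A m i * conj (A l i)‖ := by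
  have h : ((∑ i, ‖∑ m, w m * A m i‖ ^ 2 : ℝ) : ℂ)
      = ∑ m, ∑ l, (w m * conj (w l)) * ∑ i, A m i * conj (A l i) := by
    push_cast
    simp only [← Complex.mul_conj', map_sum, map_mul, Finset.sum_mul_sum]
    rw [Finset.sum_comm]
    refine Finset.sum_congr rfl fun m _ => ?_
    rw [Finset.sum_comm]
    refine Finset.sum_congr rfl fun l _ => ?_
    rw [Finset.mul_sum]
    exact Finset.sum_congr rfl fun i _ => by ring
  have h2 := congrArg (‖·‖) h
  simp only [Complex.norm_real, Real.norm_eq_abs] at h2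
  refine (le_abs_self _).trans (h2.le.trans ((norm_sum_le _ _).trans (Finset.sum_le_sum fun m _ => ?_)))
  refine (norm_sum_le _ _).trans (le_of_eq (Finset.sum_congr rfl fun l _ => ?_))
  rw [norm_mul, norm_mul, Complex.norm_conj]

/-- Products of two resolvent entries, combined with the weights. -/
noncomputable def pairEntry (z w : Fin K → ℂ) (g : Disorder n) (p : Fin n × Fin n × Fin n × Fin n) : ℂ :=
  ∑ m, w m * (res (z m) (coupling g) p.1 p.2.1 * res (z m) (coupling g) p.2.2.1 p.2.2.2)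

lemma field_deriv_energy (hn : 0 < n) (z w : Fin K → ℂ) (hz : ∀ m, (z m).im ≠ 0) (g : Disorder n) :
    ∑ e, ∑ f, ‖(resField n z w hz).D e f g‖ ^ 2
      ≤ (16 / (n:ℝ) ^ 2) * ∑ p, ‖pairEntry z w g p‖ ^ 2 := by
  have hn' : (n:ℝ) ≠ 0 := by positivity
  have hc : ∀ f : Fin n × Fin n, ‖fieldCoef f‖ ^ 2 ≤ 4 / n := fun f => by
    refine (pow_le_pow_left₀ (norm_nonneg _) (norm_fieldCoef_le f) 2).trans (le_of_eq ?_)
    rw [mul_pow, inv_pow, Real.sq_sqrt (Nat.cast_nonneg n)]; field_simp; ring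
  have hk : ∀ e : Fin n × Fin n, ‖(entryCoef e : ℂ)‖ ^ 2 ≤ 1 / n := fun e => by
    rw [Complex.norm_real, Real.norm_eq_abs]
    refine (pow_le_pow_left₀ (abs_nonneg _) (abs_entryCoef_le e) 2).trans (le_of_eq ?_)
    rw [inv_pow, Real.sq_sqrt (Nat.cast_nonneg n), one_div]
  set G : Fin K → Fin n → Fin n → ℂ := fun m => res (z m) (coupling g)
  set X := pairEntry z w g
  have hpt : ∀ e f : Fin n × Fin n, ‖(resField n z w hz).D e f g‖ ^ 2
      ≤ (8 / (n:ℝ) ^ 2) * (‖X (f.1, e.1, e.2, f.2)‖ ^ 2 + ‖X (f.1, e.2, e.1, f.2)‖ ^ 2) := by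
    intro e f
    have e1 : (resField n z w hz).D e f g
        = fieldCoef f * ((entryCoef e : ℂ) * (X (f.1, e.1, e.2, f.2) + X (f.1, e.2, e.1, f.2))) := by
      show fieldCoef f * ∑ m, w m * dRes (z m) e g f.1 f.2 = _
      congr 1
      simp only [X, pairEntry, G, dRes, ← Finset.sum_add_distrib, Finset.mul_sum]
      exact Finset.sum_congr rfl fun m _ => by ring
    rw [e1, norm_mul, norm_mul, mul_pow, mul_pow, ← mul_assoc]
    set a := X (f.1, e.1, e.2, f.2)
    set b := X (f.1, e.2, e.1, f.2)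
    have hab : ‖a + b‖ ^ 2 ≤ 2 * (‖a‖ ^ 2 + ‖b‖ ^ 2) :=
      (pow_le_pow_left₀ (norm_nonneg _) (norm_add_le a b) 2).trans (add_sq_le)
    refine (mul_le_mul (mul_le_mul (hc f) (hk e) (sq_nonneg _) (by positivity)) hab
      (sq_nonneg _) (by positivity)).trans (le_of_eq ?_)
    field_simp; ring
  refine (Finset.sum_le_sum fun e _ => Finset.sum_le_sum fun f _ => hpt e f).trans (le_of_eq ?_)
  simp only [← Finset.mul_sum, Finset.sum_add_distrib]
  have s1 : ∀ F : Fin n × Fin n × Fin n × Fin n → ℝ,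
      ∑ e : Fin n × Fin n, ∑ f : Fin n × Fin n, F (f.1, e.1, e.2, f.2) = ∑ p, F p := by
    intro F
    simp only [Fintype.sum_prod_type]
    calc ∑ i, ∑ j, ∑ a, ∑ b, F (a, i, j, b) = ∑ i, ∑ a, ∑ j, ∑ b, F (a, i, j, b) :=
          Finset.sum_congr rfl fun i _ => Finset.sum_comm
      _ = _ := Finset.sum_comm
  have s2 : ∀ F : Fin n × Fin n × Fin n × Fin n → ℝ,
      ∑ e : Fin n × Fin n, ∑ f : Fin n × Fin n, F (f.1, e.2, e.1, f.2) = ∑ p, F p := by
    intro F
    rw [← s1 F]
    exact Fintype.sum_equiv (Equiv.prodComm _ _) _ _ fun e => rfl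
  rw [s1 (fun p => ‖X p‖ ^ 2), s2 (fun p => ‖X p‖ ^ 2)]
  ring

lemma pairEntry_energy (z w : Fin K → ℂ) (g : Disorder n) :
    ∑ p, ‖pairEntry z w g p‖ ^ 2
      ≤ ∑ m, ∑ l, ‖w m‖ * ‖w l‖ * ‖pairSum (z m) (z l) (coupling g)‖ ^ 2 := by
  set G : Fin K → Fin n → Fin n → ℂ := fun m => res (z m) (coupling g)
  refine (sum_gram w fun m (p : Fin n × Fin n × Fin n × Fin n) =>
    G m p.1 p.2.1 * G m p.2.2.1 p.2.2.2).trans (le_of_eq ?_)
  refine Finset.sum_congr rfl fun m _ => Finset.sum_congr rfl fun l _ => ?_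
  congr 1
  rw [← norm_pow]
  congr 1
  simp only [pairSum, sq, Fintype.sum_prod_type, map_mul]
  rw [Finset.sum_mul]
  refine Finset.sum_congr rfl fun a _ => ?_
  rw [Finset.sum_mul]
  refine Finset.sum_congr rfl fun i _ => ?_
  rw [Finset.mul_sum]
  refine Finset.sum_congr rfl fun j _ => ?_
  rw [Finset.mul_sum]
  exact Finset.sum_congr rfl fun b _ => by simp only [G]; ring

/-- The size of the test field. -/
lemma field_energy (hn : 0 < n) (z w : Fin K → ℂ) (hz : ∀ m, (z m).im ≠ 0) (g : Disorder n) :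
    (∑ e, ‖(resField n z w hz).V e g‖ ^ 2) + ∑ e, ∑ f, ‖(resField n z w hz).D e f g‖ ^ 2
      ≤ ∑ m, ∑ l, ‖w m‖ * ‖w l‖ *
          (4 * ‖pairSum (z m) (z l) (coupling g) / n‖
            + 16 * ‖pairSum (z m) (z l) (coupling g) / n‖ ^ 2) := by
  have hn' : (n:ℝ) ≠ 0 := by positivity
  set G : Fin K → Fin n → Fin n → ℂ := fun m => res (z m) (coupling g)
  have hc : ∀ f : Fin n × Fin n, ‖fieldCoef f‖ ^ 2 ≤ 4 / n := fun f => by
    refine (pow_le_pow_left₀ (norm_nonneg _) (norm_fieldCoef_le f) 2).trans (le_of_eq ?_)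
    rw [mul_pow, inv_pow, Real.sq_sqrt (Nat.cast_nonneg n)]; field_simp; ring
  have h1 : ∑ e, ‖(resField n z w hz).V e g‖ ^ 2
      ≤ ∑ m, ∑ l, ‖w m‖ * ‖w l‖ * (4 * ‖pairSum (z m) (z l) (coupling g) / n‖) := by
    calc ∑ e, ‖(resField n z w hz).V e g‖ ^ 2
        ≤ ∑ e : Fin n × Fin n, (4 / n) * ‖∑ m, w m * G m e.1 e.2‖ ^ 2 :=
          Finset.sum_le_sum fun e _ => by
            show ‖fieldCoef e * _‖ ^ 2 ≤ _
            rw [norm_mul, mul_pow]
            exact mul_le_mul_of_nonneg_right (hc e) (sq_nonneg _)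
      _ ≤ (4 / n) * ∑ m, ∑ l, ‖w m‖ * ‖w l‖ *
            ‖∑ e : Fin n × Fin n, G m e.1 e.2 * conj (G l e.1 e.2)‖ := by
          rw [← Finset.mul_sum]
          exact mul_le_mul_of_nonneg_left (sum_gram w (fun m (e : Fin n × Fin n) => G m e.1 e.2)) (by positivity)
      _ = _ := by
          simp only [Finset.mul_sum]
          refine Finset.sum_congr rfl fun m _ => Finset.sum_congr rfl fun l _ => ?_
          rw [norm_div, RCLike.norm_natCast, pairSum, Fintype.sum_prod_type]
          ring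
  have h2 := field_deriv_energy hn z w hz g
  have h3 := pairEntry_energy z w g
  refine (add_le_add h1 (h2.trans (mul_le_mul_of_nonneg_left h3 (by positivity)))).trans (le_of_eq ?_)
  simp only [Finset.mul_sum, ← Finset.sum_add_distrib]
  refine Finset.sum_congr rfl fun m _ => Finset.sum_congr rfl fun l _ => ?_
  rw [norm_div, RCLike.norm_natCast, div_pow]
  ring

end Vale.Agent.P146
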