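import Vale.Agent.P146.Model

open MeasureTheory ProbabilityTheory Matrix Finset
open scoped ENNReal

namespace Vale.Agent.P146

variable {n : ℕ}

/-- Partition function. -/
noncomputable def partition' (n : ℕ) (β : ℝ) (g : Disorder n) : ℝ :=
  ∑ σ : Fin n → Bool, Real.exp (β * hamiltonian n g σ)

/-- Gibbs weight. -/
noncomputable def gibbs (n : ℕ) (β : ℝ) (g : Disorder n) (σ : Fin n → Bool) : ℝ :=
  Real.exp (β * hamiltonian n g σ) / partition' n β g

lemma freeEnergy_eq (β : ℝ) (g : Disorder n) : freeEnergy n β g = Real.log (partition' n β g) := rfl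

lemma partition'_pos (β : ℝ) (g : Disorder n) : 0 < partition' n β g :=
  Finset.sum_pos (fun σ _ => Real.exp_pos _) Finset.univ_nonempty

lemma measurable_partition' (β : ℝ) : Measurable (partition' n β) :=
  Finset.measurable_sum _ fun σ _ => ((measurable_hamiltonian σ).const_mul β).exp

lemma measurable_freeEnergy (β : ℝ) : Measurable (freeEnergy n β) :=
  (measurable_partition' β).log

lemma gibbs_nonneg (β : ℝ) (g : Disorder n) (σ : Fin n → Bool) : 0 ≤ gibbs n β g σ :=
  div_nonneg (Real.exp_pos _).le (partition'_pos β g).le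

lemma sum_gibbs (β : ℝ) (g : Disorder n) : ∑ σ, gibbs n β g σ = 1 := by
  simp only [gibbs, ← Finset.sum_div]
  exact div_self (partition'_pos β g).ne'

lemma measurable_gibbs (β : ℝ) (σ : Fin n → Bool) : Measurable fun g => gibbs n β g σ :=
  ((measurable_hamiltonian σ).const_mul β).exp.div (measurable_partition' β)

lemma gibbs_le_one (β : ℝ) (g : Disorder n) (σ : Fin n → Bool) : gibbs n β g σ ≤ 1 := by
  rw [← sum_gibbs β g]
  exact Finset.single_le_sum (fun τ _ => gibbs_nonneg β g τ) (mem_univ σ)

lemma sum_spins_pair {i j : Fin n} (h : i ≠ j) :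
    ∑ σ : Fin n → Bool, spins σ i * spins σ j = 0 := by
  classical
  set f : (Fin n → Bool) → (Fin n → Bool) := fun σ => Function.update σ i (!σ i)
  have hf : Function.Involutive f := fun σ => by
    simp [f]
  have hb := Fintype.sum_equiv (Equiv.ofBijective f hf.bijective)
    (fun σ => -(spins σ i * spins σ j)) (fun σ => spins σ i * spins σ j) (fun σ => by
      simp only [Equiv.ofBijective_apply, f, spins, Function.update_self,
        Function.update_of_ne h.symm]
      cases σ i <;> cases σ j <;> simp [spin])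
  rw [Finset.sum_neg_distrib] at hb
  linarith

lemma sum_hamiltonian (g : Disorder n) : ∑ σ, hamiltonian n g σ = 0 := by
  simp only [hamiltonian_eq]
  rw [Finset.sum_comm]
  refine Finset.sum_eq_zero fun e _ => ?_
  rw [← Finset.sum_mul]
  by_cases h : e.1 < e.2
  · simp only [hcoef, if_pos h, ← Finset.mul_sum, sum_spins_pair h.ne, mul_zero, zero_mul]
  · simp [hcoef, h]

lemma two_pow_le_partition' (β : ℝ) (g : Disorder n) : 2 ^ n ≤ partition' n β g := by
  have h : ∑ σ : Fin n → Bool, (β * hamiltonian n g σ + 1) ≤ partition' n β g :=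
    Finset.sum_le_sum fun σ _ => Real.add_one_le_exp _
  rw [Finset.sum_add_distrib, ← Finset.mul_sum, sum_hamiltonian] at h
  simpa using h

lemma log_two_le_freeEnergy (β : ℝ) (g : Disorder n) : n * Real.log 2 ≤ freeEnergy n β g := by
  rw [freeEnergy_eq, ← Real.log_pow]
  exact Real.log_le_log (by positivity) (two_pow_le_partition' β g)

lemma freeEnergy_mono {b β : ℝ} (hb : 0 < b) (hbβ : b ≤ β) (g : Disorder n) :
    freeEnergy n b g ≤ freeEnergy n β g := by
  set p := β / b with hp
  have hp1 : 1 ≤ p := by rw [hp, le_div_iff₀ hb]; linarith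
  have h := Real.rpow_arith_mean_le_arith_mean_rpow (Finset.univ : Finset (Fin n → Bool))
    (fun _ => ((2:ℝ) ^ n)⁻¹) (fun σ => Real.exp (b * hamiltonian n g σ))
    (fun _ _ => by positivity) (by simp) (fun σ _ => (Real.exp_pos _).le) hp1
  have e : ∀ σ : Fin n → Bool, Real.exp (b * hamiltonian n g σ) ^ p
      = Real.exp (β * hamiltonian n g σ) := fun σ => by
    rw [← Real.exp_mul, hp]; congr 1; field_simp
  simp only [e, ← Finset.mul_sum] at h
  rw [show ∑ σ : Fin n → Bool, Real.exp (b * hamiltonian n g σ) = partition' n b g from rfl,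
    show ∑ σ : Fin n → Bool, Real.exp (β * hamiltonian n g σ) = partition' n β g from rfl] at h
  have hz := partition'_pos b g
  have hz' := partition'_pos β g
  have hge : 1 ≤ ((2:ℝ) ^ n)⁻¹ * partition' n b g := by
    rw [inv_mul_eq_div, le_div_iff₀ (by positivity), one_mul]
    exact two_pow_le_partition' b g
  have h1 : ((2:ℝ) ^ n)⁻¹ * partition' n b g ≤ ((2:ℝ) ^ n)⁻¹ * partition' n β g :=
    (Real.self_le_rpow_of_one_le hge hp1).trans h
  exact Real.log_le_log hz (le_of_mul_le_mul_left h1 (by positivity))

lemma hamiltonian_setEntry (e : Fin n × Fin n) (g : Disorder n) (t : ℝ) (σ : Fin n → Bool) :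
    hamiltonian n (setEntry e g t) σ
      = hamiltonian n g σ + (t - g e.1 e.2) * hcoef e σ := by
  simp only [hamiltonian_eq]
  have h : ∀ f : Fin n × Fin n, hcoef f σ * setEntry e g t f.1 f.2
      = hcoef f σ * g f.1 f.2 + if f = e then (t - g e.1 e.2) * hcoef e σ else 0 := by
    intro f
    rw [setEntry_apply]
    by_cases hf : f = e
    · subst hf; simp; ring
    · simp [hf]
  rw [Finset.sum_congr rfl fun f _ => h f, Finset.sum_add_distrib]
  simp

lemma freeEnergy_diff (β : ℝ) (e : Fin n × Fin n) (g : Disorder n) (a b : ℝ) :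
    |freeEnergy n β (setEntry e g a) - freeEnergy n β (setEntry e g b)|
      ≤ |β| * (Real.sqrt n)⁻¹ * |a - b| := by
  suffices H : ∀ a b, freeEnergy n β (setEntry e g a)
      ≤ freeEnergy n β (setEntry e g b) + |β| * (Real.sqrt n)⁻¹ * |a - b| by
    rw [abs_le]
    have := H a b; have := H b a; rw [abs_sub_comm b a] at this
    constructor <;> linarith
  intro a b
  set K := |β| * (Real.sqrt n)⁻¹ * |a - b|
  have h : partition' n β (setEntry e g a) ≤ Real.exp K * partition' n β (setEntry e g b) := by
    rw [partition', partition', Finset.mul_sum]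
    refine Finset.sum_le_sum fun σ _ => ?_
    rw [← Real.exp_add, Real.exp_le_exp, hamiltonian_setEntry, hamiltonian_setEntry]
    have h1 : β * ((a - b) * hcoef e σ) ≤ K := by
      refine (le_abs_self _).trans ?_
      rw [abs_mul, abs_mul, mul_comm |a - b|, ← mul_assoc]
      exact mul_le_mul_of_nonneg_right
        (mul_le_mul_of_nonneg_left (abs_hcoef_le e σ) (abs_nonneg _)) (abs_nonneg _)
    linarith [h1, mul_sub β ((a - g e.1 e.2) * hcoef e σ) ((b - g e.1 e.2) * hcoef e σ)]
  have h2 := Real.log_le_log (partition'_pos β _) h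
  rw [Real.log_mul (Real.exp_pos K).ne' (partition'_pos β _).ne', Real.log_exp] at h2
  simp only [freeEnergy_eq]; linarith

/-- A linear dominating function. -/
noncomputable def absSum (g : Disorder n) : ℝ := ∑ e : Fin n × Fin n, |g e.1 e.2|

lemma abs_hamiltonian_le (g : Disorder n) (σ : Fin n → Bool) :
    |hamiltonian n g σ| ≤ (Real.sqrt n)⁻¹ * absSum g := by
  rw [hamiltonian_eq, absSum, Finset.mul_sum]
  refine (Finset.abs_sum_le_sum_abs _ _).trans (Finset.sum_le_sum fun e _ => ?_)
  rw [abs_mul]
  exact mul_le_mul_of_nonneg_right (abs_hcoef_le e σ) (abs_nonneg _)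

lemma abs_freeEnergy_le (β : ℝ) (g : Disorder n) :
    |freeEnergy n β g| ≤ n * Real.log 2 + |β| * (Real.sqrt n)⁻¹ * absSum g := by
  have hnn : 0 ≤ freeEnergy n β g :=
    le_trans (by positivity) (log_two_le_freeEnergy β g)
  rw [abs_of_nonneg hnn]
  have h : partition' n β g ≤ 2 ^ n * Real.exp (|β| * ((Real.sqrt n)⁻¹ * absSum g)) := by
    calc partition' n β g
        ≤ ∑ _σ : Fin n → Bool, Real.exp (|β| * ((Real.sqrt n)⁻¹ * absSum g)) := by
          refine Finset.sum_le_sum fun σ _ => Real.exp_le_exp.2 ?_
          refine (le_abs_self _).trans ?_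
          rw [abs_mul]
          exact mul_le_mul_of_nonneg_left (abs_hamiltonian_le g σ) (abs_nonneg _)
      _ = _ := by simp
  have := Real.log_le_log (partition'_pos β g) h
  rw [Real.log_mul (by positivity) (Real.exp_pos _).ne', Real.log_exp, Real.log_pow] at this
  rw [freeEnergy_eq]; linarith

lemma memLp_entry (e : Fin n × Fin n) (p : NNReal) :
    MemLp (fun g : Disorder n => g e.1 e.2) p (disorderLaw n) := by
  have h1 : MeasurePreserving (fun g : Disorder n => g e.1) (disorderLaw n)
      (Measure.pi fun _ => gaussianReal 0 1) := measurePreserving_eval _ e.1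
  have h2 : MeasurePreserving (fun r : Fin n → ℝ => r e.2) (Measure.pi fun _ => gaussianReal 0 1)
      (gaussianReal 0 1) := measurePreserving_eval (μ := fun _ : Fin n => gaussianReal 0 1) e.2
  exact (memLp_id_gaussianReal p).comp_measurePreserving (h2.comp h1)

lemma memLp_absSum : MemLp (absSum (n := n)) 2 (disorderLaw n) :=
  memLp_finset_sum _ fun e _ => (memLp_entry e 2).abs

lemma memLp_freeEnergy (β : ℝ) : MemLp (freeEnergy n β) 2 (disorderLaw n) :=
  MemLp.mono' ((memLp_const ((n:ℝ) * Real.log 2)).add (memLp_absSum.const_mul _))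
    (measurable_freeEnergy β).aestronglyMeasurable (ae_of_all _ fun g => abs_freeEnergy_le β g)

lemma integrable_freeEnergy (β : ℝ) : Integrable (freeEnergy n β) (disorderLaw n) :=
  (memLp_freeEnergy β).integrable one_le_two

lemma gaussian_diff_sq :
    Integrable (fun p : ℝ × ℝ => (p.1 - p.2) ^ 2) ((gaussianReal 0 1).prod (gaussianReal 0 1)) ∧
      ∫ p : ℝ × ℝ, (p.1 - p.2) ^ 2 ∂(gaussianReal 0 1).prod (gaussianReal 0 1) = 2 := by
  set N := gaussianReal 0 1
  have h1 : Integrable (fun x : ℝ => x) N :=
    (memLp_id_gaussianReal (μ := 0) (v := 1) 1).integrable le_rfl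
  have h2 : Integrable (fun x : ℝ => x ^ 2) N :=
    (memLp_id_gaussianReal (μ := 0) (v := 1) 2).integrable_sq
  have hx : ∫ x, x ∂N = 0 := integral_id_gaussianReal
  have hx2 : ∫ x, x ^ 2 ∂N = 1 := by
    have := variance_fun_id_gaussianReal (μ := 0) (v := 1)
    rwa [variance_eq_integral measurable_id'.aemeasurable, hx,
      show (fun x : ℝ => (x - 0) ^ 2) = fun x => x ^ 2 by simp, NNReal.coe_one] at this
  have i1 : Integrable (fun p : ℝ × ℝ => p.1 ^ 2) (N.prod N) := by
    simpa using h2.mul_prod (integrable_const (1 : ℝ) (μ := N))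
  have i2 : Integrable (fun p : ℝ × ℝ => p.2 ^ 2) (N.prod N) := by
    simpa using (integrable_const (1 : ℝ) (μ := N)).mul_prod h2
  have i3 : Integrable (fun p : ℝ × ℝ => p.1 * p.2) (N.prod N) := h1.mul_prod h1
  have e : (fun p : ℝ × ℝ => (p.1 - p.2) ^ 2) = fun p => p.1 ^ 2 + p.2 ^ 2 - 2 * (p.1 * p.2) := by
    funext p; ring
  rw [e]
  refine ⟨(i1.add i2).sub (i3.const_mul 2), ?_⟩
  rw [integral_sub (by exact i1.add i2) (i3.const_mul 2), integral_add i1 i2, integral_const_mul,
    integral_prod_mul (fun a : ℝ => a) (fun a : ℝ => a)]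
  have a1 := integral_fun_fst (μ := N) (ν := N) (fun a => a ^ 2)
  have a2 := integral_fun_snd (μ := N) (ν := N) (fun a => a ^ 2)
  simp only [probReal_univ, one_smul] at a1 a2
  rw [a1, a2, hx, hx2]; norm_num

lemma expected_sq_partition' {b : ℝ} (hb : b ^ 2 < 1) :
    Integrable (fun g => partition' n b g ^ 2) (disorderLaw n) ∧
      ∫ g, partition' n b g ^ 2 ∂disorderLaw n
        ≤ (2 ^ n * Real.exp (numPairs n * b ^ 2 / (2 * n))) ^ 2 / Real.sqrt (1 - b ^ 2) := by
  classical
  rcases Nat.eq_zero_or_pos n with hn | hn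
  · subst hn
    simp [partition', hamiltonian, numPairs]
    rw [one_le_inv₀ (Real.sqrt_pos.2 (by linarith))]
    exact Real.sqrt_le_one.2 (by nlinarith [sq_nonneg b])
  set c := b * (Real.sqrt n)⁻¹
  set m : (Fin n → Bool) → (Fin n → Bool) → Fin n → Fin n → ℝ := fun σ τ i j =>
    b * (hcoef (i, j) σ + hcoef (i, j) τ)
  have e : ∀ g, partition' n b g ^ 2
      = ∑ σ, ∑ τ, Real.exp (∑ i, ∑ j, m σ τ i j * g i j) := by
    intro g
    rw [sq, partition', Finset.sum_mul_sum]
    refine Finset.sum_congr rfl fun σ _ => Finset.sum_congr rfl fun τ _ => ?_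
    rw [← Real.exp_add]; congr 1
    simp only [hamiltonian_eq, Fintype.sum_prod_type, Finset.mul_sum, m, ← Finset.sum_add_distrib]
    exact Finset.sum_congr rfl fun i _ => Finset.sum_congr rfl fun j _ => by ring
  simp only [e]
  have hi : ∀ σ τ, Integrable (fun g => Real.exp (∑ i, ∑ j, m σ τ i j * g i j)) (disorderLaw n) :=
    fun σ τ => (exp_linear _).1
  have hii : ∀ σ, Integrable (fun g => ∑ τ, Real.exp (∑ i, ∑ j, m σ τ i j * g i j)) (disorderLaw n) :=
    fun σ => integrable_finset_sum _ fun τ _ => hi σ τ
  refine ⟨integrable_finset_sum _ fun σ _ => hii σ, ?_⟩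
  rw [integral_finset_sum _ fun σ _ => hii σ,
    Finset.sum_congr rfl fun σ _ => integral_finset_sum _ fun τ _ => hi σ τ]
  simp only [(exp_linear _).2]
  -- the exponent
  set a := numPairs n * b ^ 2 / n - b ^ 2 / 2
  set J : Matrix (Fin n) (Fin n) ℝ := Matrix.of fun _ _ => 1
  have hexp : ∀ σ τ, (∑ i, ∑ j, m σ τ i j ^ 2) / 2
      = a + b ^ 2 / (2 * n) * (∑ i, spins σ i * spins τ i) ^ 2 := by
    intro σ τ
    set r : Fin n → ℝ := fun i => spins σ i * spins τ i
    have hr : ∀ i, r i * r i = 1 := fun i => by
      simp only [r, spins]; cases σ i <;> cases τ i <;> simp [spin]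
    have h1 : ∀ i j, m σ τ i j ^ 2 = if i < j then b ^ 2 / n * (2 + 2 * (r i * r j)) else 0 := by
      intro i j
      simp only [m, hcoef]
      split_ifs
      · rw [mul_pow, ← mul_add, mul_pow, inv_pow, Real.sq_sqrt (Nat.cast_nonneg n)]
        simp only [r, spins]
        cases σ i <;> cases σ j <;> cases τ i <;> cases τ j <;> simp [spin] <;> ring
      · ring
    have h2 : (∑ i, r i) ^ 2 = n + 2 * ∑ i, ∑ j, (if i < j then r i * r j else 0) := by
      have hs : ∑ i, ∑ j, (if j < i then r i * r j else 0)
          = ∑ i, ∑ j, (if i < j then r i * r j else 0) := by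
        rw [Finset.sum_comm]
        exact Finset.sum_congr rfl fun i _ => Finset.sum_congr rfl fun j _ => by rw [mul_comm]
      have h3 : ∀ i j, r i * r j = ((if i < j then r i * r j else 0)
          + (if j < i then r i * r j else 0)) + (if i = j then 1 else 0) := by
        intro i j
        rcases lt_trichotomy i j with h | h | h
        · simp [h, h.not_gt, h.ne]
        · subst h; simp [hr]
        · simp [h, h.not_gt, h.ne']
      rw [sq, Finset.sum_mul_sum,
        Finset.sum_congr rfl fun i _ => Finset.sum_congr rfl fun j _ => h3 i j]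
      simp only [Finset.sum_add_distrib, hs, Finset.sum_ite_eq, Finset.mem_univ, if_true,
        Finset.sum_const, Finset.card_univ, Fintype.card_fin, nsmul_eq_mul, mul_one]
      ring
    have h4 : ∑ i, ∑ j, m σ τ i j ^ 2
        = b ^ 2 / n * (2 * numPairs n + 2 * ∑ i, ∑ j, (if i < j then r i * r j else 0)) := by
      simp only [h1, numPairs, Finset.mul_sum, ← Finset.sum_add_distrib]
      exact Finset.sum_congr rfl fun i _ => Finset.sum_congr rfl fun j _ => by split_ifs <;> ring
    rw [h4, show (∑ i, spins σ i * spins τ i) = ∑ i, r i from rfl, h2]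
    simp only [a]
    have : (n:ℝ) ≠ 0 := by positivity
    field_simp
    ring
  simp only [hexp, Real.exp_add, ← Finset.mul_sum]
  have hinner : ∀ σ : Fin n → Bool,
      ∑ τ : Fin n → Bool, Real.exp (b ^ 2 / (2 * n) * (∑ i, spins σ i * spins τ i) ^ 2)
        ≤ 2 ^ n * (Real.sqrt (1 - b ^ 2))⁻¹ := by
    intro σ
    -- one Gaussian linearisation
    set q := b ^ 2 / (2 * n) with hq
    set N := gaussianReal 0 1
    have hq0 : 0 ≤ q := by positivity
    set s := Real.sqrt (2 * q)
    have hs : s ^ 2 = 2 * q := Real.sq_sqrt (by linarith)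
    have step : ∀ τ : Fin n → Bool, Real.exp (q * (∑ i, spins σ i * spins τ i) ^ 2)
        = ∫ x, Real.exp ((s * ∑ i, spins σ i * spins τ i) * x) ∂N := by
      intro τ
      rw [← exp_half_sq_eq, mul_pow, hs]; congr 1; ring
    rw [Finset.sum_congr rfl fun τ _ => step τ,
      ← integral_finset_sum _ fun τ _ => integrable_exp_mul_gaussianReal _]
    have hb' : b ^ 2 / 2 < 1 / 2 := by linarith
    refine (integral_mono (integrable_finset_sum _ fun τ _ => integrable_exp_mul_gaussianReal _)
      ((integrable_gaussian_exp_sq hb').const_mul ((2:ℝ) ^ n)) fun x => ?_).trans (le_of_eq ?_)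
    · have e1 : ∀ τ : Fin n → Bool, (s * ∑ i, spins σ i * spins τ i) * x
          = ∑ i, spins τ i * (s * x * spins σ i) := fun τ => by
        simp only [Finset.mul_sum, Finset.sum_mul]
        exact Finset.sum_congr rfl fun i _ => by ring
      simp only [e1]
      refine (sum_spins_exp _).trans (le_of_eq ?_)
      congr 2
      simp only [mul_pow, ← Finset.mul_sum, spins_sq_sum, hs, hq]
      have : (n:ℝ) ≠ 0 := by positivity
      field_simp
    · rw [integral_const_mul, gaussian_exp_sq hb', show 1 - 2 * (b ^ 2 / 2) = 1 - b ^ 2 by ring]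
  refine (mul_le_mul_of_nonneg_left (Finset.sum_le_sum fun σ _ => hinner σ) (Real.exp_pos _).le).trans ?_
  simp only [Finset.sum_const, Finset.card_univ, Fintype.card_fun, Fintype.card_fin,
    Fintype.card_bool, nsmul_eq_mul]
  push_cast
  have ha : Real.exp a ≤ Real.exp (numPairs n * b ^ 2 / (2 * n)) ^ 2 := by
    rw [sq (Real.exp _), ← Real.exp_add, Real.exp_le_exp]
    simp only [a]
    have : numPairs n * b ^ 2 / (2 * n) + numPairs n * b ^ 2 / (2 * n) = numPairs n * b ^ 2 / n := by
      have : (n:ℝ) ≠ 0 := by positivity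
      field_simp; ring
    rw [this]; nlinarith
  calc Real.exp a * (2 ^ n * (2 ^ n * (Real.sqrt (1 - b ^ 2))⁻¹))
      ≤ Real.exp (numPairs n * b ^ 2 / (2 * n)) ^ 2 * (2 ^ n * (2 ^ n * (Real.sqrt (1 - b ^ 2))⁻¹)) :=
        mul_le_mul_of_nonneg_right ha (by positivity)
    _ = _ := by ring

lemma expected_partition' (b : ℝ) :
    Integrable (partition' n b) (disorderLaw n) ∧
      ∫ g, partition' n b g ∂disorderLaw n = 2 ^ n * Real.exp (numPairs n * b ^ 2 / (2 * n)) := by
  have e : ∀ σ g, Real.exp (b * hamiltonian n g σ)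
      = Real.exp (∑ i, ∑ j, (b * hcoef (i, j) σ) * g i j) := fun σ g => by
    rw [hamiltonian_eq, Fintype.sum_prod_type, Finset.mul_sum]
    simp only [Finset.mul_sum, mul_assoc]
  have hi : ∀ σ, Integrable (fun g => Real.exp (b * hamiltonian n g σ)) (disorderLaw n) := fun σ => by
    simp only [e]; exact (exp_linear _).1
  refine ⟨integrable_finset_sum _ fun σ _ => hi σ, ?_⟩
  show ∫ g, ∑ σ, Real.exp (b * hamiltonian n g σ) ∂disorderLaw n = _
  rw [integral_finset_sum _ fun σ _ => hi σ]
  have e2 : ∀ σ : Fin n → Bool, ∫ g, Real.exp (b * hamiltonian n g σ) ∂disorderLaw n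
      = Real.exp (numPairs n * b ^ 2 / (2 * n)) := fun σ => by
    simp only [e, (exp_linear _).2]
    congr 1
    rw [numPairs, Finset.sum_mul, Finset.sum_div, Finset.sum_div]
    refine Finset.sum_congr rfl fun i _ => ?_
    rw [Finset.sum_mul, Finset.sum_div, Finset.sum_div]
    refine Finset.sum_congr rfl fun j _ => ?_
    simp only [hcoef, spins]
    split_ifs
    · rw [mul_pow, mul_pow, inv_pow, Real.sq_sqrt (Nat.cast_nonneg n)]
      cases σ i <;> cases σ j <;> simp [spin] <;> ring
    · simp
  simp [e2]

/-- Lower bound on the mean free energy at high temperature. -/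
lemma freeEnergy_lower {b : ℝ} (hb0 : 0 < b) (hb : b < 1) :
    n * Real.log 2 + numPairs n * b ^ 2 / (2 * n) - Real.log 2
      - Real.sqrt (8 * n * b ^ 2 / Real.sqrt (1 - b ^ 2))
      ≤ ∫ g, freeEnergy n b g ∂disorderLaw n := by
  set μ := disorderLaw n
  have hb2 : b ^ 2 < 1 := by nlinarith
  obtain ⟨hZi, hZ⟩ := expected_partition' (n := n) b
  obtain ⟨hQi, hQ⟩ := expected_sq_partition' (n := n) hb2
  set a := 2 ^ n * Real.exp (numPairs n * b ^ 2 / (2 * n)) with ha
  have ha0 : 0 < a := by positivity
  set p0 := Real.sqrt (1 - b ^ 2) / 4 with hp0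
  have hp0pos : 0 < p0 := by
    have : 0 < 1 - b ^ 2 := by linarith
    positivity
  set A : Set (Disorder n) := {g | a / 2 ≤ partition' n b g}
  have hA : MeasurableSet A := measurableSet_le measurable_const (measurable_partition' b)
  -- Paley–Zygmund
  have hp : p0 ≤ μ.real A := by
    set Q := ∫ g, partition' n b g ^ 2 ∂μ with hQdef
    set lam := a / (2 * Q) with hlamdef
    have hQpos : 0 < Q := by
      have : a ^ 2 ≤ Q := by
        have h1 : 0 ≤ ∫ g, (partition' n b g - a) ^ 2 ∂μ := integral_nonneg fun g => sq_nonneg _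
        have e : (fun g => (partition' n b g - a) ^ 2)
            = fun g => partition' n b g ^ 2 - 2 * a * partition' n b g + a ^ 2 := by funext g; ring
        rw [e, integral_add (by exact hQi.sub (hZi.const_mul _)) (integrable_const _),
          integral_sub hQi (hZi.const_mul _), integral_const_mul, hZ] at h1
        simp at h1; nlinarith
      linarith [pow_pos ha0 2]
    have hlam : 0 < lam := by positivity
    have hpt : ∀ g, partition' n b g
        ≤ a / 2 + (lam / 2 * partition' n b g ^ 2 + 1 / (2 * lam) * A.indicator (fun _ => 1) g) := by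
      intro g
      have h2 : 0 ≤ lam / 2 * partition' n b g ^ 2 := by positivity
      by_cases hg : g ∈ A
      · rw [Set.indicator_of_mem hg, mul_one]
        have h1 : partition' n b g ≤ lam / 2 * partition' n b g ^ 2 + 1 / (2 * lam) := by
          have e : lam / 2 * partition' n b g ^ 2 + 1 / (2 * lam) - partition' n b g
              = (lam * partition' n b g - 1) ^ 2 / (2 * lam) := by field_simp; ring
          have : 0 ≤ (lam * partition' n b g - 1) ^ 2 / (2 * lam) := by positivity
          linarith
        linarith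
      · rw [Set.indicator_of_notMem hg, mul_zero]
        have : partition' n b g < a / 2 := not_le.1 hg
        linarith
    have hind : Integrable (A.indicator fun _ => (1:ℝ)) μ := (integrable_const _).indicator hA
    have h := integral_mono hZi ((integrable_const _).add
      ((hQi.const_mul _).add (hind.const_mul _))) hpt
    simp only [Pi.add_apply] at h
    rw [hZ, integral_add (integrable_const _) (by exact (hQi.const_mul _).add (hind.const_mul _)),
      integral_add (hQi.const_mul _) (hind.const_mul _), integral_const_mul, integral_const_mul,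
      integral_indicator_const _ hA] at h
    simp only [integral_const, probReal_univ, one_smul, smul_eq_mul, mul_one] at h
    have e1 : lam / 2 * Q = a / 4 := by simp only [lam]; field_simp; ring
    have e2 : 1 / (2 * lam) = Q / a := by simp only [lam]; field_simp
    rw [← hQdef, e1, e2] at h
    have h3 : a / 4 ≤ Q / a * μ.real A := by linarith
    have h4 : a ^ 2 ≤ 4 * Q * μ.real A := by
      rw [div_mul_eq_mul_div, le_div_iff₀ ha0] at h3; linarith
    have h5 : Q * Real.sqrt (1 - b ^ 2) ≤ a ^ 2 := by
      rwa [le_div_iff₀ (Real.sqrt_pos.2 (by linarith))] at hQ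
    rw [hp0]
    have : Q * Real.sqrt (1 - b ^ 2) ≤ Q * (4 * μ.real A) := by linarith
    linarith [le_of_mul_le_mul_left this hQpos]
  -- concentration of the clipped free energy
  set c := Real.log a with hc
  set f : Disorder n → ℝ := fun g => min (freeEnergy n b g) c
  have hfm : Measurable f := (measurable_freeEnergy b).min measurable_const
  have hfb : ∀ g, |f g| ≤ (n * Real.log 2 + |c|) := by
    intro g
    have h1 := log_two_le_freeEnergy b g
    have h0 : (0:ℝ) ≤ n * Real.log 2 := by positivity
    rw [abs_le]; simp only [f]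
    constructor
    · refine le_min ?_ ?_ <;> linarith [neg_abs_le c, abs_nonneg c]
    · exact (min_le_right _ _).trans (by linarith [le_abs_self c])
  set L := |b| * (Real.sqrt n)⁻¹
  have hvar : ∫ g, (f g - ∫ y, f y ∂μ) ^ 2 ∂μ ≤ 2 * n * b ^ 2 := by
    have hgd := gaussian_diff_sq
    refine ((updates_entry n).efron_stein hfm hfb conn_entry (fun _ x y => L * |x - y|)
      (fun _ x y => by positivity) (fun e g x y => (abs_min_sub_min_le_max _ _ _ _).trans ?_)
      (fun e => ?_)).trans ?_
    · rw [sub_self, abs_zero]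
      exact max_le (freeEnergy_diff b e g x y) (by positivity)
    · simpa [mul_pow, sq_abs] using hgd.1.const_mul (L ^ 2)
    · simp only [mul_pow, sq_abs, integral_const_mul, hgd.2, Finset.sum_const, Finset.card_univ,
        Fintype.card_prod, Fintype.card_fin, nsmul_eq_mul]
      push_cast
      rcases Nat.eq_zero_or_pos n with hn | hn
      · subst hn; simp
      · simp only [L, mul_pow, sq_abs, inv_pow, Real.sq_sqrt (Nat.cast_nonneg n)]
        have : (n:ℝ) ≠ 0 := by positivity
        apply le_of_eq; field_simp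
  set m := ∫ y, f y ∂μ
  have hfi : Integrable f μ := integrable_of_bdd hfm.aestronglyMeasurable hfb
  have hm : c - Real.log 2 - Real.sqrt (8 * n * b ^ 2 / Real.sqrt (1 - b ^ 2)) ≤ m := by
    by_contra hneg
    push_neg at hneg
    set t := c - Real.log 2 - m with ht
    have hs0 := Real.sqrt_nonneg (8 * n * b ^ 2 / Real.sqrt (1 - b ^ 2))
    have htpos : Real.sqrt (8 * n * b ^ 2 / Real.sqrt (1 - b ^ 2)) < t := by rw [ht]; linarith
    have hge : ∀ g ∈ A, c - Real.log 2 ≤ f g := by
      intro g hg
      refine le_min ?_ (by linarith [Real.log_pos one_lt_two])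
      have := Real.log_le_log (by positivity) (show a / 2 ≤ partition' n b g from hg)
      rwa [Real.log_div ha0.ne' (by norm_num)] at this
    have hpt : ∀ g, A.indicator (fun _ => t ^ 2) g ≤ (f g - m) ^ 2 := by
      intro g
      by_cases hg : g ∈ A
      · rw [Set.indicator_of_mem hg]
        have := hge g hg
        nlinarith
      · rw [Set.indicator_of_notMem hg]; exact sq_nonneg _
    have hsq : Integrable (fun g => (f g - m) ^ 2) μ :=
      integrable_of_bdd (C := (n * Real.log 2 + |c| + |m|) ^ 2)
        ((hfm.sub_const m).pow_const 2).aestronglyMeasurable fun g => by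
        rw [Real.norm_eq_abs, abs_pow]
        exact pow_le_pow_left₀ (abs_nonneg _) ((abs_sub _ _).trans (by linarith [hfb g])) 2
    have h := integral_mono ((integrable_const _).indicator hA) hsq hpt
    rw [integral_indicator_const _ hA, smul_eq_mul] at h
    have h1 : p0 * t ^ 2 ≤ 2 * n * b ^ 2 :=
      ((mul_le_mul_of_nonneg_right hp (sq_nonneg t)).trans h).trans hvar
    have h2 : t ^ 2 ≤ 8 * n * b ^ 2 / Real.sqrt (1 - b ^ 2) := by
      rw [le_div_iff₀ (by linarith [hp0pos] : (0:ℝ) < Real.sqrt (1 - b ^ 2))]
      rw [hp0] at h1; linarith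
    have h3 : t ≤ Real.sqrt (8 * n * b ^ 2 / Real.sqrt (1 - b ^ 2)) :=
      (le_abs_self t).trans (Real.abs_le_sqrt h2)
    linarith
  have hle : m ≤ ∫ g, freeEnergy n b g ∂μ :=
    integral_mono hfi (integrable_freeEnergy b) fun g => min_le_left _ _
  have : c = n * Real.log 2 + numPairs n * b ^ 2 / (2 * n) := by
    rw [hc, ha, Real.log_mul (by positivity) (Real.exp_pos _).ne', Real.log_exp, Real.log_pow]
  linarith

lemma log_le_log_add {x a : ℝ} (hx : 0 < x) (ha : 0 < a) :
    Real.log x ≤ Real.log a + (x / a - 1) := by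
  have := Real.log_le_sub_one_of_pos (div_pos hx ha)
  rw [Real.log_div hx.ne' ha.ne'] at this
  linarith

/-- Events which are unlikely under the planted law are unlikely under the gauged Gibbs measure,
up to the annealed gap. -/
lemma transfer (β : ℝ) {c : ℝ} (hc : 0 ≤ c) {B : Set (Disorder n)} (hB : MeasurableSet B) :
    c * ∫ g, ∑ σ, gibbs n β g σ * B.indicator (fun _ => (1:ℝ)) (gauge σ g) ∂disorderLaw n
        + ∫ g, freeEnergy n β g ∂disorderLaw n
      ≤ n * Real.log 2 + numPairs n * β ^ 2 / (2 * n)
        + Real.log (1 + Real.exp c * (disorderLaw n).real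
            ((plant (β / Real.sqrt n)) ⁻¹' B)) := by
  set μ := disorderLaw n
  set p := μ.real ((plant (β / Real.sqrt n)) ⁻¹' B)
  set ind : Disorder n → ℝ := B.indicator (fun _ => (1:ℝ)) with hind
  set X : Disorder n → ℝ := fun g =>
    ∑ σ, Real.exp (β * hamiltonian n g σ) * (1 + Real.exp c * ind (gauge σ g))
  set E1 := Real.exp (numPairs n * β ^ 2 / (2 * n))
  have hind0 : ∀ g, 0 ≤ ind g := fun g => Set.indicator_nonneg (fun _ _ => zero_le_one) g
  have hindm : Measurable ind := measurable_const.indicator hB
  have hXpos : ∀ g, 0 < X g := fun g => Finset.sum_pos (fun σ _ => mul_pos (Real.exp_pos _)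
    (by have := hind0 (gauge σ g); positivity)) Finset.univ_nonempty
  have hterm : ∀ σ, Integrable (fun g => Real.exp (β * hamiltonian n g σ)
      * (1 + Real.exp c * ind (gauge σ g))) μ ∧
      ∫ g, Real.exp (β * hamiltonian n g σ) * (1 + Real.exp c * ind (gauge σ g)) ∂μ
        = E1 * (1 + Real.exp c * p) := by
    intro σ
    set Φ : Disorder n → ℝ≥0∞ := fun g => ENNReal.ofReal (1 + Real.exp c * ind g)
    have hΦ : Measurable Φ := ((hindm.const_mul _).const_add _).ennreal_ofReal
    have hval : ∫⁻ g, Φ (plant (β / Real.sqrt n) g) ∂μ = ENNReal.ofReal (1 + Real.exp c * p) := by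
      have hm := measurable_plant (n := n) (β / Real.sqrt n)
      have hi : Integrable (fun g => 1 + Real.exp c * ind (plant (β / Real.sqrt n) g)) μ := by
        refine (integrable_const (1:ℝ)).add (Integrable.const_mul ?_ _)
        exact (integrable_const (1:ℝ)).indicator (hm hB) |>.congr (ae_of_all _ fun g => rfl)
      rw [← ofReal_integral_eq_lintegral_ofReal hi
        (ae_of_all _ fun g => by have := hind0 (plant (β / Real.sqrt n) g); positivity)]
      congr 1
      have hi2 : Integrable (fun g => ind (plant (β / Real.sqrt n) g)) μ :=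
        (integrable_const (1:ℝ)).indicator (hm hB) |>.congr (ae_of_all _ fun g => rfl)
      rw [integral_add (integrable_const _) (hi2.const_mul _), integral_const_mul]
      congr 1
      · simp
      · congr 1
        show ∫ g, ((plant (β / Real.sqrt n)) ⁻¹' B).indicator (fun _ => (1:ℝ)) g ∂μ = p
        rw [integral_indicator_const _ (hm hB)]; simp [p]
    have hl : ∫⁻ g, ENNReal.ofReal (Real.exp (β * hamiltonian n g σ)
        * (1 + Real.exp c * ind (gauge σ g))) ∂μ = ENNReal.ofReal (E1 * (1 + Real.exp c * p)) := by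
      simp only [ENNReal.ofReal_mul (Real.exp_pos _).le]
      rw [show (fun g => ENNReal.ofReal (Real.exp (β * hamiltonian n g σ))
          * ENNReal.ofReal (1 + Real.exp c * ind (gauge σ g)))
        = fun g => ENNReal.ofReal (Real.exp (β * hamiltonian n g σ)) * Φ (gauge σ g) from rfl,
        lintegral_boltzmann β σ hΦ, hval, ← ENNReal.ofReal_mul (Real.exp_pos _).le]
    have hnn : ∀ g, 0 ≤ Real.exp (β * hamiltonian n g σ) * (1 + Real.exp c * ind (gauge σ g)) :=
      fun g => by have := hind0 (gauge σ g); positivity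
    have hmeas : Measurable fun g =>
        Real.exp (β * hamiltonian n g σ) * (1 + Real.exp c * ind (gauge σ g)) :=
      ((measurable_hamiltonian σ).const_mul β).exp.mul
        (((hindm.comp (measurePreserving_gauge σ).measurable).const_mul _).const_add _)
    refine ⟨⟨hmeas.aestronglyMeasurable, ?_⟩, ?_⟩
    · rw [hasFiniteIntegral_iff_ofReal (ae_of_all _ hnn), hl]; exact ENNReal.ofReal_lt_top
    · rw [integral_eq_lintegral_of_nonneg_ae (ae_of_all _ hnn) hmeas.aestronglyMeasurable, hl,
        ENNReal.toReal_ofReal]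
      have : 0 ≤ p := measureReal_nonneg
      positivity
  set a := 2 ^ n * (E1 * (1 + Real.exp c * p)) with ha
  have hp0 : 0 ≤ p := measureReal_nonneg
  have ha0 : 0 < a := by positivity
  have hXi : Integrable X μ := integrable_finset_sum _ fun σ _ => (hterm σ).1
  have hXint : ∫ g, X g ∂μ = a := by
    simp only [X]
    rw [integral_finset_sum _ fun σ _ => (hterm σ).1, Finset.sum_congr rfl fun σ _ => (hterm σ).2]
    simp [ha]
  have hpt : ∀ g, c * ∑ σ, gibbs n β g σ * ind (gauge σ g) + freeEnergy n β g
      ≤ Real.log a + (X g / a - 1) := by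
    intro g
    refine le_trans ?_ (log_le_log_add (hXpos g) ha0)
    have hY : Real.exp (c * ∑ σ, gibbs n β g σ * ind (gauge σ g)) * partition' n β g ≤ X g := by
      have hj := convexOn_exp.map_sum_le (t := (Finset.univ : Finset (Fin n → Bool)))
        (w := gibbs n β g) (p := fun σ => c * ind (gauge σ g)) (fun σ _ => gibbs_nonneg β g σ)
        (sum_gibbs β g) (fun _ _ => Set.mem_univ _)
      simp only [smul_eq_mul] at hj
      have e : ∑ σ, gibbs n β g σ * (c * ind (gauge σ g)) = c * ∑ σ, gibbs n β g σ * ind (gauge σ g) := by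
        rw [Finset.mul_sum]; exact Finset.sum_congr rfl fun σ _ => by ring
      rw [e] at hj
      refine (mul_le_mul_of_nonneg_right hj (partition'_pos β g).le).trans ?_
      rw [Finset.sum_mul]
      refine Finset.sum_le_sum fun σ _ => ?_
      have : gibbs n β g σ * Real.exp (c * ind (gauge σ g)) * partition' n β g
          = Real.exp (β * hamiltonian n g σ) * Real.exp (c * ind (gauge σ g)) := by
        simp only [gibbs]; field_simp [(partition'_pos β g).ne']
      rw [this]
      refine mul_le_mul_of_nonneg_left ?_ (Real.exp_pos _).le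
      rw [hind]
      by_cases hg : gauge σ g ∈ B
      · rw [Set.indicator_of_mem hg, mul_one, mul_one]; linarith
      · rw [Set.indicator_of_notMem hg, mul_zero, mul_zero, Real.exp_zero, add_zero]
    have := Real.log_le_log (mul_pos (Real.exp_pos _) (partition'_pos β g)) hY
    rwa [Real.log_mul (Real.exp_pos _).ne' (partition'_pos β g).ne', Real.log_exp,
      ← freeEnergy_eq] at this
  have hgi : Integrable (fun g => ∑ σ, gibbs n β g σ * ind (gauge σ g)) μ := by
    refine integrable_finset_sum _ fun σ _ => integrable_of_bdd (C := 1)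
      ((measurable_gibbs β σ).mul (hindm.comp (measurePreserving_gauge σ).measurable)).aestronglyMeasurable
      fun g => ?_
    rw [Real.norm_eq_abs, abs_mul, abs_of_nonneg (gibbs_nonneg β g σ)]
    refine mul_le_one₀ (gibbs_le_one β g σ) (abs_nonneg _) ?_
    rw [hind]; by_cases hg : gauge σ g ∈ B <;> simp [hg]
  have h := integral_mono ((hgi.const_mul c).add (integrable_freeEnergy β))
    ((integrable_const (Real.log a)).add ((hXi.div_const a).sub (integrable_const 1))) hpt
  simp only [Pi.add_apply, Pi.sub_apply] at h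
  rw [integral_add (hgi.const_mul c) (integrable_freeEnergy β), integral_const_mul,
    integral_add (integrable_const _) (by exact (hXi.div_const a).sub (integrable_const 1)),
    integral_sub (hXi.div_const a) (integrable_const 1), integral_div, hXint, div_self ha0.ne'] at h
  simp only [integral_const, probReal_univ, one_smul] at h
  rw [ha, Real.log_mul (by positivity) (by positivity), Real.log_mul (Real.exp_pos _).ne'
    (by positivity), Real.log_exp, Real.log_pow] at h
  linarith

end Vale.Agent.P146
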