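import Vale.Agent.P146.Defs

open Matrix Finset
open scoped ComplexConjugate

namespace Vale.Agent.P146

variable {n : ℕ}

/-- `z - W` for a real matrix `W`. -/
noncomputable def shiftMat (z : ℂ) (W : Matrix (Fin n) (Fin n) ℝ) : Matrix (Fin n) (Fin n) ℂ :=
  z • 1 - W.map (fun r : ℝ => (r : ℂ))

/-- The resolvent. -/
noncomputable def res (z : ℂ) (W : Matrix (Fin n) (Fin n) ℝ) : Matrix (Fin n) (Fin n) ℂ :=
  (shiftMat z W)⁻¹

variable {z z' : ℂ} {W W' : Matrix (Fin n) (Fin n) ℝ}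

lemma shiftMat_mulVec (z : ℂ) (W : Matrix (Fin n) (Fin n) ℝ) (y : Fin n → ℂ) (i : Fin n) :
    (shiftMat z W *ᵥ y) i = z * y i - ∑ j, (W i j : ℂ) * y j := by
  rw [shiftMat, sub_mulVec, smul_mulVec, one_mulVec]
  simp [mulVec, dotProduct]

lemma im_form (hW : W.IsSymm) (z : ℂ) (y : Fin n → ℂ) :
    (∑ i, conj (y i) * (shiftMat z W *ᵥ y) i).im = z.im * ∑ i, ‖y i‖ ^ 2 := by
  have h0 : (∑ i, ∑ j, conj (y i) * ((W i j : ℂ) * y j)).im = 0 := by
    rw [← Complex.conj_eq_iff_im, map_sum]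
    simp only [map_sum, map_mul, Complex.conj_conj, Complex.conj_ofReal]
    rw [Finset.sum_comm]
    refine Finset.sum_congr rfl fun i _ => Finset.sum_congr rfl fun j _ => ?_
    rw [show W j i = W i j from hW.apply i j]; ring
  have e : ∀ i, conj (y i) * (shiftMat z W *ᵥ y) i
      = z * ((‖y i‖ ^ 2 : ℝ) : ℂ) - ∑ j, conj (y i) * ((W i j : ℂ) * y j) := by
    intro i
    rw [shiftMat_mulVec, mul_sub, Finset.mul_sum]
    congr 1
    rw [mul_left_comm, Complex.conj_mul']
    norm_cast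
  simp only [e, Finset.sum_sub_distrib, Complex.sub_im, h0, sub_zero]
  rw [← Finset.mul_sum, ← Complex.ofReal_sum, Complex.im_mul_ofReal]

lemma form_bound (hW : W.IsSymm) (hz : z.im ≠ 0) (y : Fin n → ℂ) :
    z.im ^ 2 * ∑ i, ‖y i‖ ^ 2 ≤ ∑ i, ‖(shiftMat z W *ᵥ y) i‖ ^ 2 := by
  set x := shiftMat z W *ᵥ y
  set η := |z.im| with hη
  have hη0 : 0 < η := abs_pos.2 hz
  have hY0 : 0 ≤ ∑ i, ‖y i‖ ^ 2 := sum_nonneg fun i _ => by positivity
  have h1 : η * ∑ i, ‖y i‖ ^ 2 ≤ ∑ i, ‖y i‖ * ‖x i‖ := by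
    calc η * ∑ i, ‖y i‖ ^ 2 = |(∑ i, conj (y i) * x i).im| := by
          rw [im_form hW, abs_mul, abs_of_nonneg hY0]
      _ ≤ ‖∑ i, conj (y i) * x i‖ := Complex.abs_im_le_norm _
      _ ≤ ∑ i, ‖conj (y i) * x i‖ := norm_sum_le _ _
      _ = ∑ i, ‖y i‖ * ‖x i‖ := by simp [RCLike.norm_conj]
  have h2 : ∑ i, 2 * η * (‖y i‖ * ‖x i‖) ≤ ∑ i, (η ^ 2 * ‖y i‖ ^ 2 + ‖x i‖ ^ 2) :=
    Finset.sum_le_sum fun i _ => by nlinarith [sq_nonneg (η * ‖y i‖ - ‖x i‖)]
  rw [← Finset.mul_sum, Finset.sum_add_distrib, ← Finset.mul_sum] at h2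
  rw [← sq_abs, ← hη]
  nlinarith

lemma shiftMat_isUnit (hW : W.IsSymm) (hz : z.im ≠ 0) : IsUnit (shiftMat z W) := by
  rw [← mulVec_injective_iff_isUnit]
  intro y y' h
  have h0 : shiftMat z W *ᵥ (y - y') = 0 := by rw [mulVec_sub, h, sub_self]
  have := form_bound hW hz (y - y')
  rw [h0] at this
  simp only [Pi.zero_apply, norm_zero, ne_eq, OfNat.ofNat_ne_zero, not_false_eq_true, zero_pow,
    Finset.sum_const_zero] at this
  have hs : ∑ i, ‖(y - y') i‖ ^ 2 = 0 := by
    have : 0 ≤ ∑ i, ‖(y - y') i‖ ^ 2 := sum_nonneg fun i _ => by positivity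
    have : 0 < z.im ^ 2 := by positivity
    nlinarith
  funext i
  have := (Finset.sum_eq_zero_iff_of_nonneg (fun i _ => by positivity)).1 hs i (mem_univ _)
  simpa [sub_eq_zero] using this

lemma shiftMat_mul_res (hW : W.IsSymm) (hz : z.im ≠ 0) : shiftMat z W * res z W = 1 :=
  mul_nonsing_inv _ ((isUnit_iff_isUnit_det _).1 (shiftMat_isUnit hW hz))

lemma res_mul_shiftMat (hW : W.IsSymm) (hz : z.im ≠ 0) : res z W * shiftMat z W = 1 :=
  nonsing_inv_mul _ ((isUnit_iff_isUnit_det _).1 (shiftMat_isUnit hW hz))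

lemma res_isSymm (hW : W.IsSymm) : (res z W).IsSymm := by
  unfold Matrix.IsSymm res
  rw [transpose_nonsing_inv]
  congr 1
  simp only [shiftMat, transpose_sub, transpose_smul, transpose_one]
  congr 1
  ext i j
  simp [hW.apply i j]

lemma res_symm (hW : W.IsSymm) (a b : Fin n) : res z W a b = res z W b a :=
  (res_isSymm hW).apply b a

lemma res_conj : res (conj z) W = (res z W).map conj := by
  have h : shiftMat (conj z) W = (starRingEnd ℂ).mapMatrix (shiftMat z W) := by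
    ext i j
    simp [shiftMat, Matrix.one_apply, apply_ite conj]
  rw [res, h, res, RingHom.mapMatrix_apply]
  by_cases hu : IsUnit (shiftMat z W)
  · refine inv_eq_right_inv ?_
    rw [← Matrix.map_mul, mul_nonsing_inv _ ((isUnit_iff_isUnit_det _).1 hu)]
    simp
  · rw [nonsing_inv_apply_not_isUnit, nonsing_inv_apply_not_isUnit]
    · simp
    · rwa [← isUnit_iff_isUnit_det]
    · rw [show (shiftMat z W).map conj = (starRingEnd ℂ).mapMatrix (shiftMat z W) from rfl,
        ← RingHom.map_det, isUnit_iff_ne_zero, map_ne_zero, ← isUnit_iff_ne_zero,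
        ← isUnit_iff_isUnit_det]
      exact hu

lemma res_mulVec_bound (hW : W.IsSymm) (hz : z.im ≠ 0) (x : Fin n → ℂ) :
    z.im ^ 2 * ∑ i, ‖(res z W *ᵥ x) i‖ ^ 2 ≤ ∑ i, ‖x i‖ ^ 2 := by
  have := form_bound hW hz (res z W *ᵥ x)
  rwa [mulVec_mulVec, shiftMat_mul_res hW hz, one_mulVec] at this

lemma res_row_bound (hW : W.IsSymm) (hz : z.im ≠ 0) (a : Fin n) :
    z.im ^ 2 * ∑ b, ‖res z W a b‖ ^ 2 ≤ 1 := by
  have := res_mulVec_bound hW hz (Pi.single a 1)
  simp only [mulVec_single, MulOpposite.op_one, one_smul, col_apply] at this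
  calc z.im ^ 2 * ∑ b, ‖res z W a b‖ ^ 2 = z.im ^ 2 * ∑ b, ‖res z W b a‖ ^ 2 := by
        simp only [res_symm hW a]
    _ ≤ _ := this
    _ = 1 := by simp [Pi.single_apply, apply_ite (fun c : ℂ => ‖c‖ ^ 2)]

lemma res_entry_bound (hW : W.IsSymm) (hz : z.im ≠ 0) (a b : Fin n) :
    ‖res z W a b‖ ≤ |z.im|⁻¹ := by
  have h := res_row_bound hW hz a
  have h1 : ‖res z W a b‖ ^ 2 ≤ ∑ c, ‖res z W a c‖ ^ 2 :=
    Finset.single_le_sum (f := fun c => ‖res z W a c‖ ^ 2) (fun _ _ => by positivity) (mem_univ b)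
  have hp : 0 < |z.im| := abs_pos.2 hz
  have h2 : (|z.im| * ‖res z W a b‖) ^ 2 ≤ 1 := by
    rw [mul_pow, sq_abs]; nlinarith [sq_nonneg z.im]
  rw [inv_eq_one_div, le_div_iff₀ hp, mul_comm]
  nlinarith [mul_nonneg hp.le (norm_nonneg (res z W a b))]

lemma res_sub_res (hW : W.IsSymm) (hW' : W'.IsSymm) (hz : z.im ≠ 0) (hz' : z'.im ≠ 0) :
    res z W - res z' W' = res z W * (shiftMat z' W' - shiftMat z W) * res z' W' := by
  rw [mul_sub, sub_mul, mul_assoc, shiftMat_mul_res hW' hz', res_mul_shiftMat hW hz, mul_one,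
    one_mul]

lemma resolvent_identity (hW : W.IsSymm) (hz : z.im ≠ 0) (hz' : z'.im ≠ 0) :
    res z W - res z' W = (z' - z) • (res z W * res z' W) := by
  rw [res_sub_res hW hW hz hz']
  have : shiftMat z' W - shiftMat z W = (z' - z) • (1 : Matrix (Fin n) (Fin n) ℂ) := by
    simp [shiftMat, sub_smul]
  rw [this, Matrix.mul_smul, mul_one, Matrix.smul_mul]

/-- `tr G(z) G(z')^*` as a sum over entries. -/
noncomputable def pairSum (z z' : ℂ) (W : Matrix (Fin n) (Fin n) ℝ) : ℂ :=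
  ∑ a, ∑ b, res z W a b * conj (res z' W a b)

lemma pairSum_eq (hW : W.IsSymm) (hz : z.im ≠ 0) (hz' : z'.im ≠ 0) :
    (conj z' - z) * pairSum z z' W = trace (res z W) - conj (trace (res z' W)) := by
  have hc : (conj z').im ≠ 0 := by simpa using hz'
  have h := congrArg trace (resolvent_identity hW hz hc)
  rw [trace_sub, trace_smul, smul_eq_mul] at h
  have h1 : trace (res z W * res (conj z') W) = pairSum z z' W := by
    simp only [trace, diag_apply, mul_apply, res_conj, map_apply, pairSum]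
    refine Finset.sum_congr rfl fun a _ => Finset.sum_congr rfl fun b _ => ?_
    rw [res_symm hW b a]
  have h2 : trace (res (conj z') W) = conj (trace (res z' W)) := by
    simp [trace, res_conj]
  rw [h1, h2] at h
  exact h.symm

lemma im_trace (hW : W.IsSymm) (hz : z.im ≠ 0) :
    (trace (res z W)).im = -z.im * ∑ a, ∑ b, ‖res z W a b‖ ^ 2 := by
  have h := pairSum_eq (z' := z) hW hz hz
  have hp : pairSum z z W = ((∑ a, ∑ b, ‖res z W a b‖ ^ 2 : ℝ) : ℂ) := by
    simp only [pairSum, Complex.ofReal_sum]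
    refine Finset.sum_congr rfl fun a _ => Finset.sum_congr rfl fun b _ => ?_
    rw [Complex.mul_conj']; norm_cast
  rw [hp] at h
  have h' := congrArg Complex.im h
  simp only [Complex.mul_im, Complex.sub_re, Complex.conj_re, sub_self, zero_mul, Complex.sub_im,
    Complex.conj_im, Complex.ofReal_re, Complex.ofReal_im, mul_zero, zero_add] at h'
  linarith

lemma norm_trace_le (hW : W.IsSymm) (hz : z.im ≠ 0) :
    ‖trace (res z W)‖ ≤ n * |z.im|⁻¹ := by
  refine (norm_sum_le _ _).trans ?_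
  refine (Finset.sum_le_sum fun i _ => res_entry_bound hW hz i i).trans ?_
  simp

lemma bilin_bound (hW : W.IsSymm) (hz : z.im ≠ 0) (x y : Fin n → ℂ) :
    ‖∑ a, x a * (res z W *ᵥ y) a‖
      ≤ |z.im|⁻¹ * ((∑ a, ‖x a‖ ^ 2 + ∑ a, ‖y a‖ ^ 2) / 2) := by
  set η := |z.im| with hη
  have hp : 0 < η := abs_pos.2 hz
  set u := res z W *ᵥ y
  have h1 : η ^ 2 * ∑ a, ‖u a‖ ^ 2 ≤ ∑ a, ‖y a‖ ^ 2 := by
    rw [hη, sq_abs]; exact res_mulVec_bound hW hz y
  have h2 : ∑ a, 2 * η * (‖x a‖ * ‖u a‖) ≤ ∑ a, (‖x a‖ ^ 2 + η ^ 2 * ‖u a‖ ^ 2) :=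
    Finset.sum_le_sum fun a _ => by nlinarith [sq_nonneg (‖x a‖ - η * ‖u a‖)]
  rw [← Finset.mul_sum, Finset.sum_add_distrib, ← Finset.mul_sum] at h2
  refine (norm_sum_le _ _).trans ?_
  simp only [norm_mul]
  rw [inv_mul_eq_div, le_div_iff₀ hp]
  linarith

/-- Replacing one row and column changes the trace of the resolvent by `O(1/η)`. -/
lemma trace_decouple (i : Fin n) (W W0 : Matrix (Fin n) (Fin n) ℝ) (hW : W.IsSymm)
    (hWii : W i i = 0) (hW0 : ∀ a b, W0 a b = if a = i ∨ b = i then 0 else W a b)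
    (hz : z.im ≠ 0) :
    ‖trace (res z W) - trace (res z W0)‖ ≤ 2 * |z.im|⁻¹ := by
  classical
  have hW0s : W0.IsSymm := by
    refine IsSymm.ext fun a b => ?_
    rw [hW0, hW0, hW.apply a b]
    by_cases h1 : a = i <;> by_cases h2 : b = i <;> simp [h1, h2]
  have hz0 : z ≠ 0 := fun h => hz (by simp [h])
  set G0 := res z W0 with hG0
  set e : Fin n → ℂ := Pi.single i 1 with he
  set u : Fin n → ℂ := fun a => (W a i : ℂ) with hu
  set p : Fin n → ℂ := G0 *ᵥ u with hp
  set c : ℂ := z - ∑ a, u a * p a with hc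
  have hui : u i = 0 := by simp [hu, hWii]
  have hM0e : shiftMat z W0 *ᵥ e = z • e := by
    funext a
    rw [shiftMat_mulVec]
    simp [he, Pi.single_apply, hW0]
  have hG0e : G0 *ᵥ e = z⁻¹ • e := by
    have := congrArg (fun v => G0 *ᵥ v) hM0e
    simp only [mulVec_mulVec, hG0, res_mul_shiftMat hW0s hz, one_mulVec, mulVec_smul] at this
    rw [← hG0] at this
    calc G0 *ᵥ e = z⁻¹ • (z • (G0 *ᵥ e)) := by rw [smul_smul, inv_mul_cancel₀ hz0, one_smul]
      _ = z⁻¹ • e := by rw [← this]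
  have hrowi : ∀ b, G0 i b = z⁻¹ * e b := fun b => by
    have := congrFun hG0e b
    simpa [hG0, res_symm hW0s i b, mulVec, dotProduct, he, Pi.single_apply] using this
  have hpi : p i = 0 := by
    simp only [hp, mulVec, dotProduct, hrowi, he, Pi.single_apply]
    simp [hui]
  have hM0p : shiftMat z W0 *ᵥ p = u := by
    rw [hp, hG0, mulVec_mulVec, shiftMat_mul_res hW0s hz, one_mulVec]
  have hM : ∀ y : Fin n → ℂ, shiftMat z W *ᵥ y
      = shiftMat z W0 *ᵥ y - y i • u - (∑ a, u a * y a) • e := by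
    intro y
    funext a
    simp only [Pi.sub_apply, Pi.smul_apply, smul_eq_mul, shiftMat_mulVec]
    by_cases ha : a = i
    · subst ha
      have hr : ∀ b, W a b = W b a := fun b => hW.apply b a
      have h0 : ∀ j, W0 a j = 0 := fun j => by rw [hW0]; simp
      simp only [h0, Complex.ofReal_zero, zero_mul, Finset.sum_const_zero, sub_zero, hu, he,
        Pi.single_eq_same, mul_one, hWii, mul_zero]
      congr 1
      exact Finset.sum_congr rfl fun b _ => by rw [hr b]
    · have hs : ∀ j, (W a j : ℂ) * y j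
          = (W0 a j : ℂ) * y j + (if j = i then (W a i : ℂ) * y i else 0) := by
        intro j; rw [hW0]; by_cases hj : j = i
        · subst hj; simp
        · simp [ha, hj]
      rw [Finset.sum_congr rfl fun j _ => hs j]
      simp only [Finset.sum_add_distrib, Finset.sum_ite_eq', Finset.mem_univ, if_true, hu, he,
        Pi.single_eq_of_ne ha]
      ring
  have hP : 0 ≤ ∑ a, ‖p a‖ ^ 2 := sum_nonneg fun a _ => by positivity
  have him : c.im = z.im * (1 + ∑ a, ‖p a‖ ^ 2) := by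
    have h1 := im_form hW0s z p
    rw [hM0p] at h1
    have h2 : (∑ a, u a * p a).im = -(∑ a, conj (p a) * u a).im := by
      rw [← Complex.conj_im, map_sum]
      simp [hu, mul_comm]
    rw [hc, Complex.sub_im, h2, h1]; ring
  have hc0 : c ≠ 0 := by
    intro h; rw [h] at him; simp at him
    rcases him with h' | h'
    · exact hz h'
    · linarith
  -- the explicit inverse
  set C : Matrix (Fin n) (Fin n) ℂ :=
    G0 - z⁻¹ • vecMulVec e e + c⁻¹ • vecMulVec (p + e) (p + e) with hC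
  have hpe : shiftMat z W *ᵥ (p + e) = c • e := by
    rw [mulVec_add, hM p, hM e, hM0p, hM0e, hpi, hc]
    have h1 : e i = 1 := by simp [he]
    have h2 : ∑ a, u a * e a = 0 := by simp [he, Pi.single_apply, hui]
    rw [h1, h2]
    simp only [zero_smul, one_smul, sub_zero, sub_smul]
    abel
  have hprod : shiftMat z W * C = 1 := by
    refine ext_iff_mulVec.2 fun y => ?_
    rw [← mulVec_mulVec, hC, add_mulVec, sub_mulVec, smul_mulVec, smul_mulVec, vecMulVec_mulVec,
      vecMulVec_mulVec, one_mulVec]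
    simp only [op_smul_eq_smul, smul_smul]
    rw [mulVec_add, mulVec_sub, mulVec_smul, mulVec_smul, hpe, hM e, hM0e, hM (G0 *ᵥ y)]
    have h1 : e i = 1 := by simp [he]
    have h2 : ∑ a, u a * e a = 0 := by simp [he, Pi.single_apply, hui]
    have h3 : (G0 *ᵥ y) i = z⁻¹ * (e ⬝ᵥ y) := by
      simp only [mulVec, dotProduct, hrowi, Finset.mul_sum, mul_assoc]
    have h4 : shiftMat z W0 *ᵥ (G0 *ᵥ y) = y := by
      rw [hG0, mulVec_mulVec, shiftMat_mul_res hW0s hz, one_mulVec]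
    have h5 : ∑ a, u a * (G0 *ᵥ y) a = p ⬝ᵥ y := by
      simp only [hp, mulVec, dotProduct, Finset.mul_sum, Finset.sum_mul]
      rw [Finset.sum_comm]
      refine Finset.sum_congr rfl fun b _ => Finset.sum_congr rfl fun a _ => ?_
      rw [hG0, res_symm hW0s a b]; ring
    rw [h1, h2, h3, h4, h5, add_dotProduct, smul_smul]
    funext a
    simp only [Pi.add_apply, Pi.sub_apply, Pi.smul_apply, smul_eq_mul, one_smul, zero_smul,
      Pi.zero_apply]
    field_simp
    ring
  have hres : res z W = C := inv_eq_right_inv hprod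
  have htr : trace (res z W) - trace G0 = -z⁻¹ + c⁻¹ * ∑ a, (p a + e a) * (p a + e a) := by
    rw [hres, hC, trace_add, trace_sub, trace_smul, trace_smul, trace_vecMulVec, trace_vecMulVec]
    simp [dotProduct, he, Pi.single_apply]
    ring
  rw [htr]
  have hs : ‖∑ a, (p a + e a) * (p a + e a)‖ ≤ 1 + ∑ a, ‖p a‖ ^ 2 := by
    refine (norm_sum_le _ _).trans ?_
    have hbd : ∀ a, ‖(p a + e a) * (p a + e a)‖ ≤ ‖p a‖ ^ 2 + (if a = i then 1 else 0) := by
      intro a
      by_cases ha : a = i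
      · subst ha; simp [hpi, he]
      · simp [he, Pi.single_eq_of_ne ha, ha, sq]
    refine (Finset.sum_le_sum fun a _ => hbd a).trans ?_
    simp [Finset.sum_add_distrib]; linarith
  have hp' : 0 < |z.im| := abs_pos.2 hz
  have hcn : |z.im| * (1 + ∑ a, ‖p a‖ ^ 2) ≤ ‖c‖ := by
    refine le_trans (le_of_eq ?_) (Complex.abs_im_le_norm c)
    rw [him, abs_mul, abs_of_pos (show (0:ℝ) < 1 + ∑ a, ‖p a‖ ^ 2 by linarith)]
  refine (norm_add_le _ _).trans ?_
  rw [norm_neg, norm_inv, norm_mul, norm_inv]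
  have h1 : ‖z‖⁻¹ ≤ |z.im|⁻¹ := inv_anti₀ hp' (Complex.abs_im_le_norm z)
  have h2 : ‖c‖⁻¹ * ‖∑ a, (p a + e a) * (p a + e a)‖ ≤ |z.im|⁻¹ := by
    have hcp : 0 < ‖c‖ := norm_pos_iff.2 hc0
    rw [inv_mul_le_iff₀ hcp, mul_comm, inv_mul_eq_div, le_div_iff₀ hp']
    nlinarith
  linarith

/-- Entries of the resolvent along a line changing a symmetric pair of entries. -/
lemma res_entry_hasDerivAt (i j : Fin n) (κ : ℝ) (Wt : ℝ → Matrix (Fin n) (Fin n) ℝ) (t₀ : ℝ)
    (hsym : ∀ t, (Wt t).IsSymm)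
    (hWt : ∀ t a b, Wt t a b = Wt t₀ a b
      + (t - t₀) * κ * ((if a = i ∧ b = j then 1 else 0) + (if a = j ∧ b = i then 1 else 0)))
    (hz : z.im ≠ 0) (a b : Fin n) :
    HasDerivAt (fun t => res z (Wt t) a b)
      ((κ : ℂ) * (res z (Wt t₀) a i * res z (Wt t₀) j b + res z (Wt t₀) a j * res z (Wt t₀) i b))
      t₀ := by
  have hdiff : ∀ t a b, res z (Wt t) a b - res z (Wt t₀) a b = ((t - t₀ : ℝ) : ℂ) * ((κ : ℂ) *
      (res z (Wt t) a i * res z (Wt t₀) j b + res z (Wt t) a j * res z (Wt t₀) i b)) := by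
    intro t a b
    have h := congrFun (congrFun (res_sub_res (hsym t) (hsym t₀) hz hz) a) b
    rw [Matrix.sub_apply] at h
    rw [h]
    have hd : ∀ c d, (shiftMat z (Wt t₀) - shiftMat z (Wt t)) c d = ((t - t₀ : ℝ) : ℂ) * (κ : ℂ) *
        ((if c = i then (if d = j then 1 else 0) else 0)
          + (if c = j then (if d = i then 1 else 0) else 0)) := by
      intro c d
      simp only [shiftMat, Matrix.sub_apply, Matrix.map_apply, hWt t c d]
      rw [Complex.ofReal_add, Complex.ofReal_mul, Complex.ofReal_mul, Complex.ofReal_add,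
        apply_ite Complex.ofReal, apply_ite Complex.ofReal, Complex.ofReal_one, Complex.ofReal_zero,
        ite_and, ite_and]
      ring
    simp only [mul_apply, hd, Finset.sum_mul, mul_add, add_mul, Finset.sum_add_distrib,
      mul_ite, ite_mul, mul_zero, zero_mul, mul_one, Finset.sum_ite_eq', Finset.mem_univ, if_true]
    ring
  set η := |z.im|
  have hbd : ∀ t a b, ‖res z (Wt t) a b‖ ≤ η⁻¹ := fun t a b => res_entry_bound (hsym t) hz a b
  have hη : 0 ≤ η⁻¹ := inv_nonneg.2 (abs_nonneg _)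
  have hcont : ∀ a b, ContinuousAt (fun t => res z (Wt t) a b) t₀ := by
    intro a b
    rw [ContinuousAt, tendsto_iff_norm_sub_tendsto_zero]
    refine squeeze_zero (fun _ => norm_nonneg _) (fun t => ?_)
      (show Filter.Tendsto (fun t => |t - t₀| * (|κ| * (η⁻¹ * η⁻¹ + η⁻¹ * η⁻¹))) (nhds t₀)
        (nhds 0) from ?_)
    · rw [hdiff, norm_mul, norm_mul, Complex.norm_real, Complex.norm_real, Real.norm_eq_abs,
        Real.norm_eq_abs]
      refine mul_le_mul_of_nonneg_left (mul_le_mul_of_nonneg_left ?_ (abs_nonneg _)) (abs_nonneg _)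
      refine (norm_add_le _ _).trans (add_le_add ?_ ?_) <;>
        (rw [norm_mul]; exact mul_le_mul (hbd _ _ _) (hbd _ _ _) (norm_nonneg _) hη)
    · have := (continuous_abs.comp (continuous_sub_right t₀)).mul
        (continuous_const (y := |κ| * (η⁻¹ * η⁻¹ + η⁻¹ * η⁻¹)))
      simpa [Pi.mul_def, Function.comp_def] using this.tendsto t₀
  rw [hasDerivAt_iff_tendsto_slope]
  refine Filter.Tendsto.congr' ?_ (((((hcont a i).mul continuousAt_const).add
    ((hcont a j).mul continuousAt_const)).const_mul (κ : ℂ)).tendsto.mono_left nhdsWithin_le_nhds)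
  filter_upwards [self_mem_nhdsWithin] with t ht
  have : (t - t₀ : ℝ) ≠ 0 := sub_ne_zero.2 ht
  simp only [slope_def_module, hdiff t a b, Complex.real_smul, ← mul_assoc, ← Complex.ofReal_mul,
    inv_mul_cancel₀ this, Complex.ofReal_one, one_mul, Pi.add_apply, Pi.mul_apply]

end Vale.Agent.P146
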