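import Vale.Agent.P146.Gauss
import Vale.Agent.P146.Resolvent
import Vale.Agent.P146.Chaos

open MeasureTheory ProbabilityTheory Matrix Finset
open scoped ENNReal

namespace Vale.Agent.P146

variable {n : ℕ}

/-- Symmetrised strict upper triangle. -/
def sym (g : Disorder n) (i j : Fin n) : ℝ := if i < j then g i j else if j < i then g j i else 0

/-- The normalised coupling matrix. -/
noncomputable def coupling (g : Disorder n) : Matrix (Fin n) (Fin n) ℝ :=
  Matrix.of fun i j => (Real.sqrt n)⁻¹ * sym g i j

lemma sym_comm (g : Disorder n) (i j : Fin n) : sym g i j = sym g j i := by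
  unfold sym
  rcases lt_trichotomy i j with h | h | h
  · simp [h, h.not_gt]
  · simp [h]
  · simp [h, h.not_gt]

lemma sym_diag (g : Disorder n) (i : Fin n) : sym g i i = 0 := by simp [sym]

lemma coupling_isSymm (g : Disorder n) : (coupling g).IsSymm :=
  Matrix.IsSymm.ext fun i j => by simp [coupling, sym_comm g i j]

/-- Coefficient of the entry `e` in the Hamiltonian. -/
noncomputable def hcoef (e : Fin n × Fin n) (σ : Fin n → Bool) : ℝ :=
  if e.1 < e.2 then (Real.sqrt n)⁻¹ * (spins σ e.1 * spins σ e.2) else 0

lemma hamiltonian_eq (g : Disorder n) (σ : Fin n → Bool) :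
    hamiltonian n g σ = ∑ e : Fin n × Fin n, hcoef e σ * g e.1 e.2 := by
  rw [hamiltonian, Fintype.sum_prod_type, Finset.mul_sum]
  refine Finset.sum_congr rfl fun i _ => ?_
  rw [Finset.mul_sum]
  refine Finset.sum_congr rfl fun j _ => ?_
  simp only [hcoef, spins]
  split_ifs with h <;> ring

lemma measurable_hamiltonian (σ : Fin n → Bool) : Measurable fun g => hamiltonian n g σ := by
  simp only [hamiltonian_eq]
  exact Finset.measurable_sum _ fun e _ => (measurable_entry e.1 e.2).const_mul _

lemma abs_hcoef_le (e : Fin n × Fin n) (σ : Fin n → Bool) : |hcoef e σ| ≤ (Real.sqrt n)⁻¹ := by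
  unfold hcoef
  split_ifs
  · simp only [spins]
    cases σ e.1 <;> cases σ e.2 <;> simp [spin, abs_of_nonneg]
  · simp

/-- Gauge transformation. -/
def gauge (σ : Fin n → Bool) (g : Disorder n) : Disorder n :=
  fun i j => spins σ i * g i j * spins σ j

lemma measurePreserving_gauge (σ : Fin n → Bool) :
    MeasurePreserving (gauge σ) (disorderLaw n) (disorderLaw n) := by
  have h := measurePreserving_signs (n := n) (fun i j => σ i == σ j)
  refine (show gauge σ = fun (g : Disorder n) i j => spin (σ i == σ j) * g i j from ?_) ▸ h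
  funext g i j
  simp only [gauge, spins]
  cases σ i <;> cases σ j <;> simp [spin]

lemma sym_gauge (σ : Fin n → Bool) (g : Disorder n) (i j : Fin n) :
    sym (gauge σ g) i j = spins σ i * sym g i j * spins σ j := by
  unfold sym gauge
  split_ifs <;> ring

lemma res_gauge (σ : Fin n → Bool) (g : Disorder n) {z : ℂ} (hz : z.im ≠ 0) (a b : Fin n) :
    res z (coupling (gauge σ g)) a b
      = (spins σ a : ℂ) * res z (coupling g) a b * (spins σ b : ℂ) := by
  set D : Matrix (Fin n) (Fin n) ℂ := diagonal fun i => (spins σ i : ℂ) with hD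
  have hsq : ∀ i, (spins σ i : ℂ) * (spins σ i : ℂ) = 1 := fun i => by
    rw [← Complex.ofReal_mul]; simp [spins]
  have hDD : D * D = 1 := by rw [hD, diagonal_mul_diagonal]; simp [hsq]
  have hM : shiftMat z (coupling (gauge σ g)) = D * shiftMat z (coupling g) * D := by
    ext i j
    rw [hD, mul_diagonal, diagonal_mul]
    simp only [shiftMat, Matrix.sub_apply, Matrix.smul_apply, Matrix.map_apply, coupling,
      Matrix.of_apply, sym_gauge, smul_eq_mul]
    by_cases h : i = j
    · subst h; simp [sym_diag]; linear_combination -z * hsq i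
    · simp [Matrix.one_apply_ne h]; ring
  have hinv : res z (coupling (gauge σ g)) = D * res z (coupling g) * D := by
    refine inv_eq_right_inv ?_
    rw [hM]
    calc D * shiftMat z (coupling g) * D * (D * res z (coupling g) * D)
        = D * shiftMat z (coupling g) * (D * D) * res z (coupling g) * D := by
          simp only [mul_assoc]
      _ = 1 := by
          rw [hDD, mul_one, mul_assoc D, shiftMat_mul_res (coupling_isSymm g) hz, mul_one, hDD]
  rw [hinv, hD, mul_diagonal, diagonal_mul]

/-- `1ᵀ G 1 / n`. -/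
noncomputable def sumStat (z : ℂ) (g : Disorder n) : ℂ :=
  (∑ a, ∑ b, res z (coupling g) a b) / n

/-- `tr G / n`. -/
noncomputable def trStat (z : ℂ) (g : Disorder n) : ℂ := trace (res z (coupling g)) / n

lemma sumStat_gauge (σ : Fin n → Bool) (g : Disorder n) {z : ℂ} (hz : z.im ≠ 0) :
    sumStat z (gauge σ g)
      = (∑ a, ∑ b, (spins σ a : ℂ) * res z (coupling g) a b * (spins σ b : ℂ)) / n := by
  simp only [sumStat, res_gauge σ g hz]

lemma trStat_gauge (σ : Fin n → Bool) (g : Disorder n) {z : ℂ} (hz : z.im ≠ 0) :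
    trStat z (gauge σ g) = trStat z g := by
  simp only [trStat, trace, diag_apply, res_gauge σ g hz]
  congr 1
  refine Finset.sum_congr rfl fun a _ => ?_
  rw [mul_comm _ (spins σ a : ℂ), ← mul_assoc, ← Complex.ofReal_mul]
  simp [spins]

/-- Add `m` to every used entry. -/
def plant (m : ℝ) (g : Disorder n) : Disorder n :=
  fun i j => g i j + if i < j then m else 0

lemma measurable_plant (m : ℝ) : Measurable (plant (n := n) m) :=
  measurable_pi_iff.2 fun i => measurable_pi_iff.2 fun j => (measurable_entry i j).add_const _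

/-- Number of used entries. -/
def numPairs (n : ℕ) : ℝ := ∑ i : Fin n, ∑ j : Fin n, if i < j then 1 else 0

lemma two_numPairs (n : ℕ) : 2 * numPairs n = n ^ 2 - n := by
  have h1 : ∑ i : Fin n, ∑ j : Fin n, (if j < i then (1 : ℝ) else 0) = numPairs n := by
    rw [Finset.sum_comm]; rfl
  have h2 : ∀ i j : Fin n, ((if i < j then (1 : ℝ) else 0) + (if j < i then 1 else 0))
      = 1 - if i = j then 1 else 0 := by
    intro i j
    rcases lt_trichotomy i j with h | h | h
    · simp [h, h.not_gt, h.ne]
    · simp [h]
    · simp [h, h.not_gt, h.ne']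
  calc 2 * numPairs n = ∑ i : Fin n, ∑ j : Fin n,
        ((if i < j then (1 : ℝ) else 0) + (if j < i then 1 else 0)) := by
        simp only [Finset.sum_add_distrib]; rw [h1]; unfold numPairs; ring
    _ = _ := by simp [h2, Finset.sum_sub_distrib]; ring

/-- Exponential of a linear form of the disorder. -/
lemma exp_linear (m : Fin n → Fin n → ℝ) :
    Integrable (fun g => Real.exp (∑ i, ∑ j, m i j * g i j)) (disorderLaw n) ∧
      ∫ g, Real.exp (∑ i, ∑ j, m i j * g i j) ∂disorderLaw n
        = Real.exp ((∑ i, ∑ j, m i j ^ 2) / 2) := by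
  have hmeas : Measurable fun g : Disorder n => Real.exp (∑ i, ∑ j, m i j * g i j) :=
    (Finset.measurable_sum _ fun i _ => Finset.measurable_sum _ fun j _ =>
      (measurable_entry i j).const_mul _).exp
  have h := lintegral_shift m (Φ := fun _ => 1) measurable_const
  simp only [mul_one, lintegral_one, measure_univ] at h
  have e : ∀ g : Disorder n, ENNReal.ofReal (Real.exp (∑ i, ∑ j, m i j * g i j))
      = ENNReal.ofReal (Real.exp ((∑ i, ∑ j, m i j ^ 2) / 2)) *
        ENNReal.ofReal (Real.exp (∑ i, ∑ j, (m i j * g i j - m i j ^ 2 / 2))) := by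
    intro g
    rw [← ENNReal.ofReal_mul (Real.exp_pos _).le, ← Real.exp_add]
    congr 2
    simp only [Finset.sum_sub_distrib, Finset.sum_div]; ring
  have hl : ∫⁻ g, ENNReal.ofReal (Real.exp (∑ i, ∑ j, m i j * g i j)) ∂disorderLaw n
      = ENNReal.ofReal (Real.exp ((∑ i, ∑ j, m i j ^ 2) / 2)) := by
    rw [lintegral_congr e, lintegral_const_mul' _ _ ENNReal.ofReal_ne_top, h, mul_one]
  refine ⟨⟨hmeas.aestronglyMeasurable, ?_⟩, ?_⟩
  · rw [hasFiniteIntegral_iff_ofReal (ae_of_all _ fun g => (Real.exp_pos _).le), hl]
    exact ENNReal.ofReal_lt_top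
  · rw [integral_eq_lintegral_of_nonneg_ae (ae_of_all _ fun g => (Real.exp_pos _).le)
      hmeas.aestronglyMeasurable, hl, ENNReal.toReal_ofReal (Real.exp_pos _).le]

lemma hamiltonian_gauge (g : Disorder n) (σ : Fin n → Bool) :
    hamiltonian n g σ = hamiltonian n (gauge σ g) (fun _ => true) := by
  simp only [hamiltonian_eq, hcoef, gauge]
  refine Finset.sum_congr rfl fun e _ => ?_
  split_ifs with h
  · simp [spins, spin]
  · simp

/-- The Boltzmann weight turns the null law into the planted law. -/
lemma lintegral_boltzmann (β : ℝ) (σ : Fin n → Bool) {Φ : Disorder n → ℝ≥0∞} (hΦ : Measurable Φ) :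
    ∫⁻ g, ENNReal.ofReal (Real.exp (β * hamiltonian n g σ)) * Φ (gauge σ g) ∂disorderLaw n
      = ENNReal.ofReal (Real.exp (numPairs n * β ^ 2 / (2 * n))) *
        ∫⁻ g, Φ (plant (β / Real.sqrt n) g) ∂disorderLaw n := by
  set one : Fin n → Bool := fun _ => true
  have hmp := measurePreserving_gauge σ
  have hA : Measurable fun g : Disorder n =>
      ENNReal.ofReal (Real.exp (β * hamiltonian n g one)) * Φ g :=
    (((measurable_hamiltonian one).const_mul β).exp.ennreal_ofReal).mul hΦ
  calc ∫⁻ g, ENNReal.ofReal (Real.exp (β * hamiltonian n g σ)) * Φ (gauge σ g) ∂disorderLaw n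
      = ∫⁻ g, ENNReal.ofReal (Real.exp (β * hamiltonian n g one)) * Φ g ∂disorderLaw n := by
        conv_rhs => rw [← hmp.map_eq, lintegral_map hA hmp.measurable]
        exact lintegral_congr fun g => by rw [← hamiltonian_gauge]
    _ = _ := by
        set m : Fin n → Fin n → ℝ := fun i j => if i < j then β / Real.sqrt n else 0
        have e : ∀ g : Disorder n, ENNReal.ofReal (Real.exp (β * hamiltonian n g one)) * Φ g
            = ENNReal.ofReal (Real.exp (numPairs n * β ^ 2 / (2 * n))) *
              (ENNReal.ofReal (Real.exp (∑ i, ∑ j, (m i j * g i j - m i j ^ 2 / 2))) * Φ g) := by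
          intro g
          rw [← mul_assoc, ← ENNReal.ofReal_mul (Real.exp_pos _).le, ← Real.exp_add]
          congr 3
          simp only [hamiltonian, numPairs, Finset.sum_mul, Finset.sum_div, Finset.mul_sum,
            ← Finset.sum_add_distrib]
          refine Finset.sum_congr rfl fun i _ => Finset.sum_congr rfl fun j _ => ?_
          simp only [m]
          split_ifs
          · rw [div_pow,
              Real.sq_sqrt (Nat.cast_nonneg n)]
            simp [one, spin]; ring
          · ring
        rw [lintegral_congr e, lintegral_const_mul' _ _ ENNReal.ofReal_ne_top, lintegral_shift m hΦ]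
        rfl

end Vale.Agent.P146
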