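import Vale.Agent.P146.Model

open MeasureTheory ProbabilityTheory Matrix Finset
open scoped ENNReal ComplexConjugate

namespace Vale.Agent.P146

variable {n : ℕ} {z : ℂ}

lemma res_entry_lipschitz {W W' : Matrix (Fin n) (Fin n) ℝ} (hW : W.IsSymm) (hW' : W'.IsSymm)
    (hz : z.im ≠ 0) (a b : Fin n) :
    ‖res z W a b - res z W' a b‖ ≤ |z.im|⁻¹ * |z.im|⁻¹ * ∑ c, ∑ d, |W c d - W' c d| := by
  have h := congrFun (congrFun (res_sub_res hW hW' hz hz) a) b
  rw [Matrix.sub_apply] at h
  rw [h]
  simp only [mul_apply, Matrix.sub_apply, shiftMat, Matrix.map_apply, Finset.sum_mul,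
    sub_sub_sub_cancel_left]
  refine (norm_sum_le _ _).trans ((Finset.sum_le_sum fun d _ => norm_sum_le _ _).trans ?_)
  rw [Finset.sum_comm]
  simp only [Finset.mul_sum]
  refine Finset.sum_le_sum fun c _ => Finset.sum_le_sum fun d _ => ?_
  rw [norm_mul, norm_mul, ← Complex.ofReal_sub, Complex.norm_real, Real.norm_eq_abs]
  have h1 := res_entry_bound hW hz a c
  have h2 := res_entry_bound hW' hz d b
  have h0 : 0 ≤ |z.im|⁻¹ := inv_nonneg.2 (abs_nonneg _)
  calc ‖res z W a c‖ * |W c d - W' c d| * ‖res z W' d b‖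
      ≤ |z.im|⁻¹ * |W c d - W' c d| * |z.im|⁻¹ := by gcongr
    _ = _ := by ring

lemma continuous_sym (i j : Fin n) : Continuous fun g : Disorder n => sym g i j := by
  unfold sym
  split_ifs
  · exact (continuous_apply j).comp (continuous_apply i)
  · exact (continuous_apply i).comp (continuous_apply j)
  · exact continuous_const

lemma continuous_res (hz : z.im ≠ 0) (a b : Fin n) :
    Continuous fun g : Disorder n => res z (coupling g) a b := by
  rw [continuous_iff_continuousAt]
  intro g₀
  rw [ContinuousAt, tendsto_iff_norm_sub_tendsto_zero]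
  refine squeeze_zero (fun _ => norm_nonneg _)
    (fun g => res_entry_lipschitz (coupling_isSymm g) (coupling_isSymm g₀) hz a b) ?_
  have hc : Continuous fun g : Disorder n =>
      |z.im|⁻¹ * |z.im|⁻¹ * ∑ c, ∑ d, |coupling g c d - coupling g₀ c d| := by
    refine continuous_const.mul (continuous_finset_sum _ fun c _ => continuous_finset_sum _ fun d _ => ?_)
    simp only [coupling, Matrix.of_apply]
    exact ((continuous_const.mul (continuous_sym c d)).sub continuous_const).abs
  simpa using hc.tendsto g₀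

lemma measurable_res (hz : z.im ≠ 0) (a b : Fin n) :
    Measurable fun g : Disorder n => res z (coupling g) a b := (continuous_res hz a b).measurable

lemma measurable_trStat (hz : z.im ≠ 0) : Measurable (trStat (n := n) z) :=
  (Finset.measurable_sum _ fun a _ => measurable_res hz a a).div_const _

lemma measurable_sumStat (hz : z.im ≠ 0) : Measurable (sumStat (n := n) z) :=
  (Finset.measurable_sum _ fun a _ => Finset.measurable_sum _ fun b _ => measurable_res hz a b).div_const _

lemma norm_trStat_le (hz : z.im ≠ 0) (g : Disorder n) : ‖trStat z g‖ ≤ |z.im|⁻¹ := by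
  rw [trStat, norm_div, RCLike.norm_natCast]
  refine div_le_of_le_mul₀ (Nat.cast_nonneg n) (inv_nonneg.2 (abs_nonneg _)) ?_
  rw [mul_comm]
  exact norm_trace_le (coupling_isSymm g) hz

lemma norm_sumStat_le (hz : z.im ≠ 0) (g : Disorder n) : ‖sumStat z g‖ ≤ |z.im|⁻¹ := by
  rw [sumStat, norm_div, RCLike.norm_natCast]
  refine div_le_of_le_mul₀ (Nat.cast_nonneg n) (inv_nonneg.2 (abs_nonneg _)) ?_
  have h := bilin_bound (coupling_isSymm g) hz (fun _ => 1) (fun _ => 1)
  simpa [mulVec, dotProduct] using h

lemma im_trStat_nonpos (hz : 0 < z.im) (g : Disorder n) : (trStat z g).im ≤ 0 := by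
  rw [trStat, Complex.div_natCast_im, im_trace (coupling_isSymm g) hz.ne']
  have : 0 ≤ ∑ a, ∑ b, ‖res z (coupling g) a b‖ ^ 2 :=
    sum_nonneg fun a _ => sum_nonneg fun b _ => by positivity
  exact div_nonpos_of_nonpos_of_nonneg (by nlinarith) (Nat.cast_nonneg n)

lemma trStat_setRow (hz : z.im ≠ 0) (i : Fin n) (g : Disorder n) (a b : Fin n → ℝ) :
    ‖trStat z (setRow i g a) - trStat z (setRow i g b)‖ ≤ 4 * |z.im|⁻¹ / n := by
  set W0 : Matrix (Fin n) (Fin n) ℝ :=
    Matrix.of fun c d => if c = i ∨ d = i then 0 else coupling g c d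
  have hd : ∀ r : Fin n → ℝ, ‖trace (res z (coupling (setRow i g r))) - trace (res z W0)‖
      ≤ 2 * |z.im|⁻¹ := by
    intro r
    refine trace_decouple i _ W0 (coupling_isSymm _) ?_ (fun c d => ?_) hz
    · simp [coupling, sym_diag]
    · simp only [W0, Matrix.of_apply]
      by_cases h : c = i ∨ d = i
      · simp [h]
      · push_neg at h
        simp [h.1, h.2, coupling, sym, setRow, Function.update_of_ne]
  simp only [trStat, ← sub_div, norm_div, RCLike.norm_natCast]
  refine div_le_div_of_nonneg_right ?_ (Nat.cast_nonneg n)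
  have e : trace (res z (coupling (setRow i g a))) - trace (res z (coupling (setRow i g b)))
      = (trace (res z (coupling (setRow i g a))) - trace (res z W0))
        - (trace (res z (coupling (setRow i g b))) - trace (res z W0)) := by ring
  rw [e]
  exact (norm_sub_le _ _).trans (by linarith [hd a, hd b])

lemma markov_exp {f : Disorder n → ℝ} (hf : Measurable f) {C B : ℝ} (hb : ∀ g, |f g| ≤ C) {t : ℝ}
    (ht : 0 ≤ t) {e : ℝ} (h : ∫ g, Real.exp (t * f g) ∂disorderLaw n ≤ Real.exp B) :
    (disorderLaw n).real {g | e ≤ f g} ≤ Real.exp (B - t * e) := by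
  have hA : MeasurableSet {g : Disorder n | e ≤ f g} := measurableSet_le measurable_const hf
  have hi : Integrable (fun g => Real.exp (t * f g)) (disorderLaw n) :=
    integrable_of_bdd (C := Real.exp (t * C)) (hf.const_mul t).exp.aestronglyMeasurable fun g => by
      rw [Real.norm_eq_abs, Real.abs_exp, Real.exp_le_exp]
      exact mul_le_mul_of_nonneg_left ((le_abs_self _).trans (hb g)) ht
  have hpt : ∀ g, {g : Disorder n | e ≤ f g}.indicator (fun _ => Real.exp (t * e)) g
      ≤ Real.exp (t * f g) := by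
    intro g
    by_cases hg : g ∈ {g : Disorder n | e ≤ f g}
    · rw [Set.indicator_of_mem hg, Real.exp_le_exp]; exact mul_le_mul_of_nonneg_left hg ht
    · rw [Set.indicator_of_notMem hg]; exact (Real.exp_pos _).le
  have h1 := (integral_mono ((integrable_const _).indicator hA) hi hpt).trans h
  rw [integral_indicator_const _ hA, smul_eq_mul] at h1
  rw [Real.exp_sub, le_div_iff₀ (Real.exp_pos _)]
  exact h1

lemma mcdiarmid_tail {f : Disorder n → ℝ} (hf : Measurable f) {η : ℝ} (hη : 0 < η)
    (hb : ∀ g, |f g| ≤ η⁻¹) (hd : ∀ i g a b, |f (setRow i g a) - f (setRow i g b)| ≤ 4 * η⁻¹ / n)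
    {e : ℝ} (he : 0 ≤ e) :
    (disorderLaw n).real {g | e ≤ f g - ∫ x, f x ∂disorderLaw n}
      ≤ Real.exp (-(e ^ 2 * η ^ 2 * n / 64)) := by
  set t := e * η ^ 2 * n / 32
  have h := (updates_row n).mcdiarmid hf hb conn_row (by positivity) hd t
  refine (markov_exp (hf.sub_const _) (C := η⁻¹ + |∫ x, f x ∂disorderLaw n|)
    (fun g => (abs_sub _ _).trans (by linarith [hb g])) (by positivity) h).trans ?_
  rw [Real.exp_le_exp]
  simp only [t, Fintype.card_fin]
  rcases Nat.eq_zero_or_pos n with hn | hn
  · subst hn; simp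
  · have : (n:ℝ) ≠ 0 := by positivity
    apply le_of_eq; field_simp; ring

lemma integrable_trStat (hz : z.im ≠ 0) : Integrable (trStat (n := n) z) (disorderLaw n) :=
  integrable_of_bdd (measurable_trStat hz).aestronglyMeasurable (norm_trStat_le hz)

/-- Mean of the normalised trace. -/
noncomputable def trMean (n : ℕ) (z : ℂ) : ℂ := ∫ g, trStat z g ∂disorderLaw n

lemma trStat_conc (hz : 0 < z.im) {e : ℝ} (he : 0 ≤ e) :
    (disorderLaw n).real {g | 2 * e ≤ ‖trStat z g - trMean n z‖}
      ≤ 4 * Real.exp (-(e ^ 2 * z.im ^ 2 * n / 64)) := by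
  have habs : |z.im| = z.im := abs_of_pos hz
  have key : ∀ (L : ℂ →L[ℝ] ℝ), (∀ w, |L w| ≤ ‖w‖) →
      (disorderLaw n).real {g | e ≤ L (trStat z g) - L (trMean n z)}
        ≤ Real.exp (-(e ^ 2 * z.im ^ 2 * n / 64)) := by
    intro L hL
    rw [trMean, ← L.integral_comp_comm (integrable_trStat hz.ne')]
    refine mcdiarmid_tail (L.continuous.measurable.comp (measurable_trStat hz.ne')) hz
      (fun g => (hL _).trans (by rw [← habs]; exact norm_trStat_le hz.ne' g))
      (fun i g a b => ?_) he
    simp only [Function.comp]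
    rw [← map_sub]
    refine (hL _).trans ?_
    rw [← habs]; exact trStat_setRow hz.ne' i g a b
  set A : (ℂ →L[ℝ] ℝ) → Set (Disorder n) :=
    fun L => {g | e ≤ L (trStat z g) - L (trMean n z)}
  have hsub : {g : Disorder n | 2 * e ≤ ‖trStat z g - trMean n z‖}
      ⊆ (A Complex.reCLM ∪ A (-Complex.reCLM)) ∪ (A Complex.imCLM ∪ A (-Complex.imCLM)) := by
    intro g hg
    have h1 := Complex.norm_le_abs_re_add_abs_im (trStat z g - trMean n z)
    simp only [Set.mem_setOf_eq] at hg
    simp only [A, Set.mem_union, Set.mem_setOf_eq, ContinuousLinearMap.neg_apply, Complex.reCLM_apply,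
      Complex.imCLM_apply, ← sub_eq_add_neg]
    rw [Complex.sub_re, Complex.sub_im] at h1
    by_contra hcon
    push_neg at hcon
    obtain ⟨⟨a1, a2⟩, a3, a4⟩ := hcon
    have r1 : |(trStat z g).re - (trMean n z).re| < e := abs_lt.2 ⟨by linarith, a1⟩
    have r2 : |(trStat z g).im - (trMean n z).im| < e := abs_lt.2 ⟨by linarith, a3⟩
    linarith
  refine (measureReal_mono hsub).trans ?_
  refine (measureReal_union_le _ _).trans ?_
  have b1 := measureReal_union_le (μ := disorderLaw n) (A Complex.reCLM) (A (-Complex.reCLM))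
  have b2 := measureReal_union_le (μ := disorderLaw n) (A Complex.imCLM) (A (-Complex.imCLM))
  have c1 := key Complex.reCLM (fun w => Complex.abs_re_le_norm w)
  have c2 := key (-Complex.reCLM) (fun w => by simpa using Complex.abs_re_le_norm w)
  have c3 := key Complex.imCLM (fun w => Complex.abs_im_le_norm w)
  have c4 := key (-Complex.imCLM) (fun w => by simpa using Complex.abs_im_le_norm w)
  linarith

/-- Coefficient of the entry `e` in the coupling matrix. -/
noncomputable def entryCoef (e : Fin n × Fin n) : ℝ := if e.1 < e.2 then (Real.sqrt n)⁻¹ else 0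

/-- Derivative of a resolvent entry. -/
noncomputable def dRes (z : ℂ) (e : Fin n × Fin n) (g : Disorder n) (a b : Fin n) : ℂ :=
  (entryCoef e : ℂ) * (res z (coupling g) a e.1 * res z (coupling g) e.2 b
    + res z (coupling g) a e.2 * res z (coupling g) e.1 b)

lemma res_hasDerivAt (hz : z.im ≠ 0) (e : Fin n × Fin n) (g : Disorder n) (a b : Fin n) :
    HasDerivAt (fun t => res z (coupling (setEntry e g t)) a b) (dRes z e g a b) (g e.1 e.2) := by
  have h := res_entry_hasDerivAt (z := z) e.1 e.2 (entryCoef e)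
    (fun t => coupling (setEntry e g t)) (g e.1 e.2) (fun t => coupling_isSymm _) (fun t c d => ?_)
    hz a b
  · simpa [setEntry_same, dRes] using h
  · obtain ⟨i, j⟩ := e
    simp only [setEntry_same, coupling, Matrix.of_apply, sym, entryCoef, setEntry_apply, Prod.ext_iff]
    by_cases hij : i < j
    · rcases lt_trichotomy c d with h | h | h
      · have h' : ¬(c = j ∧ d = i) := fun ⟨x, y⟩ => by subst x; subst y; exact lt_asymm h hij
        by_cases h2 : c = i ∧ d = j
        · obtain ⟨x, y⟩ := h2; subst x; subst y; simp [h, hij.ne]; ring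
        · simp [hij, h, h', h2]
      · subst h
        have h1 : ¬(c = i ∧ c = j) := fun ⟨x, y⟩ => hij.ne (x.symm.trans y)
        have h2 : ¬(c = j ∧ c = i) := fun ⟨x, y⟩ => hij.ne (y.symm.trans x)
        simp [h1, h2]
      · have h' : ¬(c = i ∧ d = j) := fun ⟨x, y⟩ => by subst x; subst y; exact lt_asymm h hij
        by_cases h2 : c = j ∧ d = i
        · obtain ⟨x, y⟩ := h2; subst x; subst y; simp [hij, h.not_gt, hij.ne']; ring
        · have h3 : ¬(d = i ∧ c = j) := fun ⟨x, y⟩ => h2 ⟨y, x⟩
          simp [hij, h, h.not_gt, h', h2, h3]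
    · simp only [hij, if_false, mul_zero, zero_mul, add_zero]
      congr 1
      split_ifs with a1 a2 a3 a4 <;> first
        | rfl
        | (exfalso; exact hij (a2.1 ▸ a2.2 ▸ a1))
        | (exfalso; exact hij (a3.1 ▸ a3.2 ▸ a2))
        | (exfalso; exact hij (a4.1 ▸ a4.2 ▸ a3))

lemma norm_dRes_le (hz : z.im ≠ 0) (e : Fin n × Fin n) (g : Disorder n) (a b : Fin n) :
    ‖dRes z e g a b‖ ≤ (Real.sqrt n)⁻¹ * (2 * (|z.im|⁻¹ * |z.im|⁻¹)) := by
  have hb := fun c d => res_entry_bound (coupling_isSymm g) hz c d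
  have h0 : 0 ≤ |z.im|⁻¹ := inv_nonneg.2 (abs_nonneg _)
  rw [dRes, norm_mul, Complex.norm_real, Real.norm_eq_abs]
  refine mul_le_mul ?_ ?_ (norm_nonneg _) (by positivity)
  · unfold entryCoef; split_ifs
    · rw [abs_of_nonneg (by positivity)]
    · simp
  · refine (norm_add_le _ _).trans ?_
    rw [two_mul, norm_mul, norm_mul]
    exact add_le_add (mul_le_mul (hb _ _) (hb _ _) (norm_nonneg _) h0)
      (mul_le_mul (hb _ _) (hb _ _) (norm_nonneg _) h0)

lemma measurable_dRes (hz : z.im ≠ 0) (e : Fin n × Fin n) (a b : Fin n) :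
    Measurable fun g => dRes z e g a b :=
  (((measurable_res hz a e.1).mul (measurable_res hz e.2 b)).add
    ((measurable_res hz a e.2).mul (measurable_res hz e.1 b))).const_mul _

lemma integrable_entry_mul {F : Disorder n → ℂ} {C : ℝ} (hF : Measurable F) (hb : ∀ g, ‖F g‖ ≤ C)
    (e : Fin n × Fin n) : Integrable (fun g => (g e.1 e.2 : ℂ) * F g) (disorderLaw n) := by
  have h1 : MeasurePreserving (fun g : Disorder n => g e.1) (disorderLaw n)
      (Measure.pi fun _ => gaussianReal 0 1) := measurePreserving_eval _ e.1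
  have h2 : MeasurePreserving (fun r : Fin n → ℝ => r e.2) (Measure.pi fun _ => gaussianReal 0 1)
      (gaussianReal 0 1) := measurePreserving_eval (μ := fun _ : Fin n => gaussianReal 0 1) e.2
  have hi : Integrable (fun g : Disorder n => g e.1 e.2) (disorderLaw n) :=
    (h2.comp h1).integrable_comp_of_integrable
      ((memLp_id_gaussianReal (μ := 0) (v := 1) 1).integrable le_rfl)
  exact hi.ofReal.mul_bdd hF.aestronglyMeasurable (ae_of_all _ hb)

/-- The self-consistent equation for the mean trace. -/
lemma trMean_equation (hz : z.im ≠ 0) (hn : 0 < n) :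
    ‖z * trMean n z - 1 - ∫ g, trStat z g ^ 2 ∂disorderLaw n‖
      ≤ 3 * (|z.im|⁻¹ * |z.im|⁻¹) / n := by
  set μ := disorderLaw n
  set G : Disorder n → Fin n → Fin n → ℂ := fun g a b => res z (coupling g) a b
  set η := |z.im|⁻¹ with hη
  have hη0 : 0 ≤ η := inv_nonneg.2 (abs_nonneg _)
  have hns : (Real.sqrt n : ℝ) ≠ 0 := (Real.sqrt_pos.2 (by exact_mod_cast hn)).ne'
  have hG : ∀ a b, Measurable fun g => G g a b := fun a b => measurable_res hz a b
  have hGb : ∀ g a b, ‖G g a b‖ ≤ η := fun g a b => res_entry_bound (coupling_isSymm g) hz a b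
  -- pointwise identity
  have hid : ∀ g, (2 * ((Real.sqrt n)⁻¹ : ℝ) : ℂ) *
      (∑ e : Fin n × Fin n, if e.1 < e.2 then (g e.1 e.2 : ℂ) * G g e.1 e.2 else 0)
        = z * trace (res z (coupling g)) - n := by
    intro g
    have h := congrArg trace (shiftMat_mul_res (coupling_isSymm g) hz)
    rw [trace_one, Fintype.card_fin, shiftMat, sub_mul, trace_sub, smul_mul, one_mul, trace_smul,
      smul_eq_mul] at h
    rw [← h, sub_sub_cancel]
    simp only [trace, diag_apply, mul_apply, Matrix.map_apply, coupling, Matrix.of_apply]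
    have hsw : ∑ a, ∑ b, (((Real.sqrt n)⁻¹ * sym g a b : ℝ) : ℂ) * G g b a
        = ∑ a, ∑ b, ((if a < b then (((Real.sqrt n)⁻¹ : ℝ) : ℂ) * ((g a b : ℂ) * G g a b) else 0)
          + (if b < a then (((Real.sqrt n)⁻¹ : ℝ) : ℂ) * ((g b a : ℂ) * G g b a) else 0)) := by
      refine Finset.sum_congr rfl fun a _ => Finset.sum_congr rfl fun b _ => ?_
      simp only [G, sym]
      rcases lt_trichotomy a b with hab | hab | hab
      · simp [hab, hab.not_gt, res_symm (coupling_isSymm g) b a]; ring
      · subst hab; simp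
      · simp [hab, hab.not_gt]; ring
    refine Eq.trans ?_ hsw.symm
    simp only [Finset.sum_add_distrib]
    rw [Finset.sum_comm (f := fun a b => if b < a then _ else _), ← two_mul,
      Fintype.sum_prod_type, mul_assoc]
    congr 1
    simp only [Finset.mul_sum, mul_ite, mul_zero]
  have hibp : ∀ e : Fin n × Fin n, ∫ g, (g e.1 e.2 : ℂ) * G g e.1 e.2 ∂μ
      = ∫ g, dRes z e g e.1 e.2 ∂μ := fun e =>
    ibp e (fun g => G g e.1 e.2) (fun g => dRes z e g e.1 e.2) (fun g => res_hasDerivAt hz e g _ _)
      (integrable_of_bdd (hG _ _).aestronglyMeasurable fun g => hGb g _ _)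
      (integrable_entry_mul (hG _ _) (fun g => hGb g _ _) e)
      (integrable_of_bdd (measurable_dRes hz e _ _).aestronglyMeasurable fun g => norm_dRes_le hz e g _ _)
  -- take expectations
  have hterm : ∀ e : Fin n × Fin n, Integrable
      (fun g => if e.1 < e.2 then (g e.1 e.2 : ℂ) * G g e.1 e.2 else 0) μ := by
    intro e; by_cases he : e.1 < e.2
    · simpa [he] using integrable_entry_mul (hG _ _) (fun g => hGb g _ _) e
    · simp [he]
  have hstep : ∫ g, (z * trace (res z (coupling g)) - n) ∂μ
      = ∫ g, (1 / n : ℂ) * ((∑ a, G g a a) ^ 2 + ∑ a, ∑ b, G g a b ^ 2 - 2 * ∑ a, G g a a ^ 2) ∂μ := by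
    have hd2 : ∀ g, (2 * ((Real.sqrt n)⁻¹ : ℝ) : ℂ) *
        (∑ e : Fin n × Fin n, if e.1 < e.2 then dRes z e g e.1 e.2 else 0)
          = (1 / n : ℂ) * ((∑ a, G g a a) ^ 2 + ∑ a, ∑ b, G g a b ^ 2 - 2 * ∑ a, G g a a ^ 2) := by
      intro g
      have hcoef : ((((Real.sqrt n)⁻¹ : ℝ) : ℂ)) * (((Real.sqrt n)⁻¹ : ℝ) : ℂ) = 1 / n := by
        rw [← Complex.ofReal_mul, ← mul_inv, Real.mul_self_sqrt (Nat.cast_nonneg n)]
        simp
      set T : Fin n → Fin n → ℂ := fun a b => G g a a * G g b b + G g a b ^ 2 with hT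
      have e1 : ∀ e : Fin n × Fin n, (if e.1 < e.2 then dRes z e g e.1 e.2 else 0)
          = (((Real.sqrt n)⁻¹ : ℝ) : ℂ) * (if e.1 < e.2 then T e.1 e.2 else 0) := by
        intro e
        by_cases he : e.1 < e.2
        · simp only [he, if_true, dRes, entryCoef, hT, G, sq]
        · simp [he]
      rw [Finset.sum_congr rfl fun e _ => e1 e, ← Finset.mul_sum, Fintype.sum_prod_type]
      have hsym : ∀ a b, T a b = T b a := fun a b => by
        simp only [hT, G, res_symm (coupling_isSymm g) a b]; ring
      have hall : ∑ a, ∑ b, T a b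
          = 2 * (∑ a, ∑ b, if a < b then T a b else 0) + ∑ a, T a a := by
        have h3 : ∀ a b, T a b = ((if a < b then T a b else 0) + (if b < a then T b a else 0))
            + (if a = b then T a a else 0) := by
          intro a b
          rcases lt_trichotomy a b with h | h | h
          · simp [h, h.not_gt, h.ne]
          · subst h; simp
          · simp [h, h.not_gt, h.ne', hsym a b]
        rw [Finset.sum_congr rfl fun a _ => Finset.sum_congr rfl fun b _ => h3 a b]
        simp only [Finset.sum_add_distrib, Finset.sum_ite_eq, Finset.mem_univ, if_true]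
        rw [Finset.sum_comm (f := fun a b => if b < a then T b a else 0)]; ring
      have hsum : ∑ a, ∑ b, T a b = (∑ a, G g a a) ^ 2 + ∑ a, ∑ b, G g a b ^ 2 := by
        simp only [hT, Finset.sum_add_distrib, sq (∑ a, G g a a), Finset.sum_mul_sum]
      have hdiag : ∑ a, T a a = 2 * ∑ a, G g a a ^ 2 := by
        rw [Finset.mul_sum]; exact Finset.sum_congr rfl fun a _ => by simp only [hT]; ring
      rw [← hsum, ← hdiag, hall, add_sub_cancel_right, ← hcoef]; ring
    simp only [← hid, ← hd2]
    rw [integral_const_mul, integral_const_mul, integral_finset_sum _ fun e _ => hterm e,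
      integral_finset_sum _ fun e _ => ?_]
    · congr 1
      refine Finset.sum_congr rfl fun e _ => ?_
      by_cases he : e.1 < e.2
      · simpa [he] using hibp e
      · simp [he]
    · by_cases he : e.1 < e.2
      · simpa [he] using integrable_of_bdd (m := μ) (measurable_dRes hz e e.1 e.2).aestronglyMeasurable
          fun g => norm_dRes_le hz e g _ _
      · simp [he]
  have hnC : (n : ℂ) ≠ 0 := by exact_mod_cast hn.ne'
  have htr : ∀ g, trace (res z (coupling g)) = n * trStat z g := fun g => by
    rw [trStat]; field_simp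
  set R : Disorder n → ℂ := fun g =>
    (1 / (n:ℂ) ^ 2) * (∑ a, ∑ b, G g a b ^ 2 - 2 * ∑ a, G g a a ^ 2)
  have hR : ∀ g, ‖R g‖ ≤ 3 * (η * η) / n := by
    intro g
    have h1 : ∀ a, ‖∑ b, G g a b ^ 2‖ ≤ η * η := by
      intro a
      refine (norm_sum_le _ _).trans ?_
      simp only [norm_pow]
      have := res_row_bound (coupling_isSymm g) hz a
      rw [hη, ← mul_inv, abs_mul_abs_self, inv_eq_one_div, le_div_iff₀ (mul_self_pos.2 hz)]
      rw [mul_comm]; simpa [sq] using this
    have h2 : ∀ a, ‖G g a a ^ 2‖ ≤ η * η := fun a => by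
      rw [norm_pow, sq]; exact mul_le_mul (hGb g a a) (hGb g a a) (norm_nonneg _) hη0
    simp only [R, norm_mul, norm_div, norm_one, norm_pow, RCLike.norm_natCast]
    have h3 : ‖∑ a, ∑ b, G g a b ^ 2 - 2 * ∑ a, G g a a ^ 2‖ ≤ n * (η * η) + 2 * (n * (η * η)) := by
      refine (norm_sub_le _ _).trans (add_le_add ((norm_sum_le _ _).trans ?_) ?_)
      · exact (Finset.sum_le_sum fun a _ => h1 a).trans (by simp)
      · rw [norm_mul, RCLike.norm_ofNat]
        refine mul_le_mul_of_nonneg_left ((norm_sum_le _ _).trans ?_) (by norm_num)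
        exact (Finset.sum_le_sum fun a _ => h2 a).trans (by simp)
    refine (mul_le_mul_of_nonneg_left h3 (by positivity)).trans (le_of_eq ?_)
    have : (n:ℝ) ≠ 0 := by positivity
    field_simp; ring
  have hsq : Integrable (fun g => trStat z g ^ 2) μ :=
    integrable_of_bdd ((measurable_trStat hz).pow_const 2).aestronglyMeasurable
      fun g => by rw [norm_pow]; exact pow_le_pow_left₀ (norm_nonneg _) (norm_trStat_le hz g) 2
  have hRm : Measurable R := by
    refine Measurable.const_mul (Measurable.sub ?_ ?_) _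
    · exact Finset.measurable_sum _ fun a _ => Finset.measurable_sum _ fun b _ => (hG a b).pow_const 2
    · exact (Finset.measurable_sum _ fun a _ => (hG a a).pow_const 2).const_mul _
  have hRi : Integrable R μ := integrable_of_bdd hRm.aestronglyMeasurable hR
  have hs := integrable_trStat (n := n) hz
  have hz1 : Integrable (fun g => z * trStat z g) μ := hs.const_mul z
  have hid2 : z * trMean n z - 1 - ∫ g, trStat z g ^ 2 ∂μ = ∫ g, R g ∂μ := by
    have hstep' : ∫ g, (z * trStat z g - 1) ∂μ = ∫ g, (trStat z g ^ 2 + R g) ∂μ := by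
      have e1 : (fun g : Disorder n => z * trStat z g - 1)
          = fun g => (1 / (n:ℂ)) * (z * trace (res z (coupling g)) - n) := by
        funext g; rw [htr]; field_simp
      have e2 : (fun g : Disorder n => trStat z g ^ 2 + R g) = fun g => (1 / (n:ℂ)) * ((1 / (n:ℂ)) *
          ((∑ a, G g a a) ^ 2 + ∑ a, ∑ b, G g a b ^ 2 - 2 * ∑ a, G g a a ^ 2)) := by
        funext g
        have : trStat z g = (∑ a, G g a a) / n := rfl
        rw [this]; simp only [R]; field_simp; ring
      rw [e1, e2, integral_const_mul, hstep, ← integral_const_mul]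
    rw [integral_sub hz1 (integrable_const _), integral_add hsq hRi, integral_const_mul] at hstep'
    simp only [integral_const, probReal_univ, one_smul] at hstep'
    rw [trMean, hstep']; ring
  rw [hid2]
  refine (norm_integral_le_integral_norm _).trans ?_
  refine (integral_mono hRi.norm (integrable_const _) hR).trans (le_of_eq ?_)
  simp

/-- The Stieltjes transform of the semicircle law is the limit of the mean trace. -/
lemma trMean_near {y : ℂ} (hy1 : ‖y‖ < 1) (hy : y.im < 0) (hz : 0 < (y + y⁻¹).im) {e : ℝ} (he : 0 < e) :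
    ∃ N : ℕ, ∀ n ≥ N, ‖trMean n (y + y⁻¹) - y‖ ≤ e := by
  set z := y + y⁻¹ with hzdef
  set η := z.im
  have hy0 : y ≠ 0 := fun h => by simp [h] at hy
  have hq : 0 < (y⁻¹).im := by
    rw [Complex.inv_im]
    have : 0 < Complex.normSq y := Complex.normSq_pos.2 hy0
    exact div_pos (by linarith) this
  set q := (y⁻¹).im
  set e' := Real.sqrt (e * q / 3) / 2 with he'
  have he'0 : 0 < e' := by rw [he']; positivity
  have hlim : Filter.Tendsto (fun n : ℕ => 3 * (η⁻¹ * η⁻¹) / n
      + (2 * η⁻¹) ^ 2 * (4 * Real.exp (-(e' ^ 2 * η ^ 2 / 64) * n))) Filter.atTop (nhds (0 + 0)) := by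
    refine (tendsto_const_div_atTop_nhds_zero_nat _).add ?_
    have h1 : Filter.Tendsto (fun n : ℕ => Real.exp (-(e' ^ 2 * η ^ 2 / 64) * n)) Filter.atTop (nhds 0) := by
      refine Real.tendsto_exp_atBot.comp ?_
      exact Filter.Tendsto.const_mul_atTop_of_neg (by
        have : 0 < e' ^ 2 * η ^ 2 / 64 := by positivity
        linarith) tendsto_natCast_atTop_atTop
    simpa using (h1.const_mul 4).const_mul ((2 * η⁻¹) ^ 2)
  rw [add_zero] at hlim
  obtain ⟨N, hN⟩ := Filter.eventually_atTop.1 (hlim.eventually (eventually_lt_nhds (show (0:ℝ) < e * q / 3 by positivity)))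
  refine ⟨max N 1, fun n hn => ?_⟩
  have hNn := hN n (le_trans (le_max_left _ _) hn)
  have hn1 : 0 < n := lt_of_lt_of_le one_pos (le_trans (le_max_right _ _) hn)
  set μ := disorderLaw n
  set s := trMean n z
  have habs : |η| = η := abs_of_pos hz
  have hsb : ‖s‖ ≤ η⁻¹ := by
    refine (norm_integral_le_integral_norm _).trans ?_
    refine (integral_mono (integrable_trStat hz.ne').norm (integrable_const (η⁻¹))
      (fun g => by rw [← habs]; exact norm_trStat_le hz.ne' g)).trans (le_of_eq ?_)
    simp
  -- variance of the trace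
  set A : Set (Disorder n) := {g | 2 * e' ≤ ‖trStat z g - s‖}
  have hA : MeasurableSet A :=
    measurableSet_le measurable_const ((measurable_trStat hz.ne').sub_const s).norm
  have hdb : ∀ g : Disorder n, ‖trStat z g - s‖ ^ 2 ≤ (2 * η⁻¹) ^ 2 := fun g => by
    have h : ‖trStat z g - s‖ ≤ 2 * η⁻¹ := by
      have := norm_trStat_le hz.ne' g; rw [habs] at this
      have := norm_sub_le (trStat z g) s
      linarith
    exact pow_le_pow_left₀ (norm_nonneg _) h 2
  have hv : ∫ g, ‖trStat z g - s‖ ^ 2 ∂μ
      ≤ e * q / 3 + (2 * η⁻¹) ^ 2 * (4 * Real.exp (-(e' ^ 2 * η ^ 2 / 64) * n)) := by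
    have hpt : ∀ g, ‖trStat z g - s‖ ^ 2
        ≤ e * q / 3 + (2 * η⁻¹) ^ 2 * A.indicator (fun _ => (1:ℝ)) g := by
      intro g
      by_cases hg : g ∈ A
      · rw [Set.indicator_of_mem hg, mul_one]
        have : 0 ≤ e * q / 3 := by positivity
        linarith [hdb g]
      · rw [Set.indicator_of_notMem hg, mul_zero, add_zero]
        have h1 : ‖trStat z g - s‖ < 2 * e' := not_le.1 hg
        have h2 : (2 * e') ^ 2 = e * q / 3 := by
          rw [he']; field_simp; rw [Real.sq_sqrt (by positivity)]; ring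
        rw [← h2]; exact pow_le_pow_left₀ (norm_nonneg _) h1.le 2
    have hi : Integrable (fun g => ‖trStat z g - s‖ ^ 2) μ :=
      integrable_of_bdd (C := (2 * η⁻¹) ^ 2) (((measurable_trStat hz.ne').sub_const s).norm.pow_const 2).aestronglyMeasurable
        fun g => by rw [Real.norm_eq_abs, abs_of_nonneg (sq_nonneg _)]; exact hdb g
    refine (integral_mono hi ((integrable_const _).add (((integrable_const _).indicator hA).const_mul _)) hpt).trans ?_
    simp only [Pi.add_apply]
    rw [integral_add (integrable_const _) (((integrable_const _).indicator hA).const_mul _),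
      integral_const_mul, integral_indicator_const _ hA]
    simp only [integral_const, probReal_univ, one_smul, smul_eq_mul, mul_one]
    have h3 := trStat_conc (n := n) hz he'0.le
    have h4 : -(e' ^ 2 * η ^ 2 / 64) * n = -(e' ^ 2 * η ^ 2 * n / 64) := by ring
    rw [h4]
    have := mul_le_mul_of_nonneg_left h3 (sq_nonneg (2 * η⁻¹))
    linarith
  have hsq : ‖∫ g, trStat z g ^ 2 ∂μ - s ^ 2‖ ≤ ∫ g, ‖trStat z g - s‖ ^ 2 ∂μ := by
    have hs := integrable_trStat (n := n) hz.ne'
    have hs2 : Integrable (fun g => trStat z g ^ 2) μ :=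
      integrable_of_bdd ((measurable_trStat hz.ne').pow_const 2).aestronglyMeasurable
        fun g => by rw [norm_pow]; exact pow_le_pow_left₀ (norm_nonneg _) (norm_trStat_le hz.ne' g) 2
    have e1 : (fun g : Disorder n => (trStat z g - s) ^ 2) = fun g => trStat z g ^ 2 - 2 * s * trStat z g + s ^ 2 := by
      funext g; ring
    have h1 : ∫ g, (trStat z g - s) ^ 2 ∂μ = ∫ g, trStat z g ^ 2 ∂μ - s ^ 2 := by
      rw [e1, integral_add (by exact hs2.sub (hs.const_mul _)) (integrable_const _),
        integral_sub hs2 (hs.const_mul _), integral_const_mul]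
      simp only [integral_const, probReal_univ, one_smul, show ∫ g, trStat z g ∂μ = s from rfl]
      ring
    rw [← h1]
    refine (norm_integral_le_integral_norm _).trans (le_of_eq ?_)
    simp only [norm_pow]
  have heq := trMean_equation (n := n) hz.ne' hn1
  rw [habs] at heq
  have hpoly : ‖(s - y) * (s - y⁻¹)‖ ≤ e * q := by
    have e1 : (s - y) * (s - y⁻¹) = -((z * s - 1 - ∫ g, trStat z g ^ 2 ∂μ)
        + (∫ g, trStat z g ^ 2 ∂μ - s ^ 2)) := by
      rw [hzdef]; field_simp; ring
    rw [e1, norm_neg]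
    refine (norm_add_le _ _).trans ?_
    have : 0 ≤ e * q / 3 := by positivity
    linarith
  have hsim : s.im ≤ 0 := by
    have h := Complex.imCLM.integral_comp_comm (integrable_trStat (n := n) hz.ne')
    simp only [Complex.imCLM_apply] at h
    rw [show s.im = (∫ g, trStat z g ∂μ).im from rfl, ← h]
    exact integral_nonpos fun g => im_trStat_nonpos hz g
  have hlow : q ≤ ‖s - y⁻¹‖ := by
    refine le_trans ?_ (Complex.abs_im_le_norm _)
    rw [Complex.sub_im, abs_of_nonpos (by linarith)]
    linarith
  rw [norm_mul] at hpoly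
  nlinarith [norm_nonneg (s - y), mul_le_mul_of_nonneg_left hlow (norm_nonneg (s - y))]

/-- The quadratic statistic concentrates around the trace under sign averaging. -/
lemma sumStat_conc (hz : 0 < z.im) {e : ℝ} (he : 0 < e) (hez : e * z.im ≤ 1) :
    (disorderLaw n).real {g | 2 * e ≤ ‖sumStat z g - trStat z g‖}
      ≤ 4 * Real.exp (-(e ^ 2 * z.im ^ 2 * n / 32)) := by
  classical
  set μ := disorderLaw n
  set η := z.im
  have habs : |η| = η := abs_of_pos hz
  set S : Set (Disorder n) := {g | 2 * e ≤ ‖sumStat z g - trStat z g‖}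
  have hS : MeasurableSet S := measurableSet_le measurable_const
    ((measurable_sumStat hz.ne').sub (measurable_trStat hz.ne')).norm
  set ind : Disorder n → ℝ := S.indicator (fun _ => (1:ℝ))
  have hi : ∀ σ, Integrable (fun g => ind (gauge σ g)) μ := fun σ =>
    (measurePreserving_gauge σ).integrable_comp_of_integrable ((integrable_const _).indicator hS)
  have hinv : ∀ σ : Fin n → Bool, ∫ g, ind (gauge σ g) ∂μ = μ.real S := by
    intro σ
    have h := (measurePreserving_gauge σ)
    have : ∫ g, ind g ∂μ = μ.real S := by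
      simp only [ind]; rw [integral_indicator_const _ hS]; simp
    rw [← this]
    conv_rhs => rw [show μ = Measure.map (gauge σ) (disorderLaw n) from h.map_eq.symm]
    rw [integral_map h.measurable.aemeasurable (((measurable_const (a := (1:ℝ))).indicator hS).aestronglyMeasurable)]
  set X := Real.exp (-(e ^ 2 * η ^ 2 * n / 32))
  have hpt : ∀ g, ∑ σ, ind (gauge σ g) ≤ 2 ^ n * (4 * X) := by
    intro g
    set G := res z (coupling g)
    -- one real direction
    have key : ∀ L : ℂ →L[ℝ] ℝ, (∀ w, |L w| ≤ ‖w‖) →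
        ∑ σ : Fin n → Bool, (if e ≤ L (sumStat z (gauge σ g) - trStat z (gauge σ g)) then (1:ℝ) else 0)
          ≤ 2 ^ n * X := by
      intro L hL
      set A : Matrix (Fin n) (Fin n) ℝ := Matrix.of fun a b => L (G a b)
      have hA : A.IsSymm := Matrix.IsSymm.ext fun a b => by
        simp only [A, Matrix.of_apply, G, res_symm (coupling_isSymm g) a b]
      have hlin : ∀ x : Fin n → ℝ, qform A x = L (∑ a, ∑ b, (x a : ℂ) * G a b * (x b : ℂ)) := by
        intro x
        simp only [qform, A, Matrix.of_apply, map_sum]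
        refine Finset.sum_congr rfl fun a _ => Finset.sum_congr rfl fun b _ => ?_
        rw [show (x a : ℂ) * G a b * (x b : ℂ) = (x a * x b : ℝ) • G a b by
          rw [Complex.real_smul]; push_cast; ring, map_smul, smul_eq_mul]
        ring
      have hop : ∀ x : Fin n → ℝ, |qform A x| ≤ η⁻¹ * ∑ i, x i ^ 2 := by
        intro x
        rw [hlin]
        refine (hL _).trans ?_
        have h := bilin_bound (coupling_isSymm g) hz.ne' (fun a => (x a : ℂ)) (fun a => (x a : ℂ))
        rw [habs] at h
        simp only [mulVec, dotProduct, Finset.mul_sum, Complex.norm_real, Real.norm_eq_abs, sq_abs,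
          ← mul_assoc] at h
        refine h.trans (le_of_eq ?_)
        ring
      set γ := e * η ^ 2 / 16
      have hγ : |γ| * η⁻¹ ≤ 1 / 16 := by
        rw [abs_of_nonneg (by positivity)]
        simp only [γ]; field_simp; linarith
      have hch := chaos_bound A hA hop γ (by positivity) hγ
      have hpt2 : ∀ σ : Fin n → Bool,
          (if e ≤ L (sumStat z (gauge σ g) - trStat z (gauge σ g)) then (1:ℝ) else 0)
            ≤ Real.exp (γ * qform A (spins σ)) * Real.exp (-(γ * A.trace) - γ * (e * n)) := by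
        intro σ
        split_ifs with h
        · rw [← Real.exp_add]
          refine Real.one_le_exp ?_
          rcases Nat.eq_zero_or_pos n with hn | hn
          · subst hn; simp [qform, Matrix.trace]
          have hnR : (0:ℝ) < n := by exact_mod_cast hn
          rw [sumStat_gauge σ g hz.ne', trStat_gauge σ g hz.ne', trStat, ← sub_div] at h
          have hq : L ((∑ a, ∑ b, (spins σ a : ℂ) * G a b * (spins σ b : ℂ)) - trace G)
              = qform A (spins σ) - A.trace := by
            rw [map_sub, ← hlin]; simp [Matrix.trace, A, map_sum]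
          rw [show ((∑ a, ∑ b, (spins σ a : ℂ) * G a b * (spins σ b : ℂ)) - trace G) / (n:ℂ)
              = ((n:ℝ)⁻¹) • ((∑ a, ∑ b, (spins σ a : ℂ) * G a b * (spins σ b : ℂ)) - trace G) by
            rw [Complex.real_smul]; push_cast; rw [div_eq_mul_inv]; ring,
            map_smul, hq, smul_eq_mul, inv_mul_eq_div, le_div_iff₀ hnR] at h
          have : 0 ≤ γ := by positivity
          nlinarith
        · positivity
      refine (Finset.sum_le_sum fun σ _ => hpt2 σ).trans ?_
      rw [← Finset.sum_mul]
      refine (mul_le_mul_of_nonneg_right hch (Real.exp_pos _).le).trans (le_of_eq ?_)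
      rw [mul_assoc, ← Real.exp_add]
      congr 2
      simp only [γ]; field_simp; ring
    have hsum : ∀ σ, ind (gauge σ g)
        ≤ ((if e ≤ Complex.reCLM (sumStat z (gauge σ g) - trStat z (gauge σ g)) then (1:ℝ) else 0)
          + (if e ≤ (-Complex.reCLM) (sumStat z (gauge σ g) - trStat z (gauge σ g)) then (1:ℝ) else 0))
          + ((if e ≤ Complex.imCLM (sumStat z (gauge σ g) - trStat z (gauge σ g)) then (1:ℝ) else 0)
          + (if e ≤ (-Complex.imCLM) (sumStat z (gauge σ g) - trStat z (gauge σ g)) then (1:ℝ) else 0)) := by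
      intro σ
      simp only [ind]
      by_cases hg : gauge σ g ∈ S
      · rw [Set.indicator_of_mem hg]
        set w := sumStat z (gauge σ g) - trStat z (gauge σ g)
        have h1 := Complex.norm_le_abs_re_add_abs_im w
        have h2 : 2 * e ≤ ‖w‖ := hg
        have hnn : ∀ x : ℝ, (0:ℝ) ≤ if e ≤ x then 1 else 0 := fun x => by split_ifs <;> norm_num
        have := hnn (Complex.reCLM w); have := hnn ((-Complex.reCLM) w)
        have := hnn (Complex.imCLM w); have := hnn ((-Complex.imCLM) w)
        rcases le_total e |w.re| with h | h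
        · rcases le_abs.1 h with h' | h'
          · rw [if_pos (show e ≤ Complex.reCLM w from h')] at *; linarith
          · rw [if_pos (show e ≤ (-Complex.reCLM) w from h')] at *; linarith
        · have h3 : e ≤ |w.im| := by linarith
          rcases le_abs.1 h3 with h' | h'
          · rw [if_pos (show e ≤ Complex.imCLM w from h')] at *; linarith
          · rw [if_pos (show e ≤ (-Complex.imCLM) w from h')] at *; linarith
      · rw [Set.indicator_of_notMem hg]
        have hnn : ∀ x : ℝ, (0:ℝ) ≤ if e ≤ x then 1 else 0 := fun x => by split_ifs <;> norm_num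
        exact add_nonneg (add_nonneg (hnn _) (hnn _)) (add_nonneg (hnn _) (hnn _))
    refine (Finset.sum_le_sum fun σ _ => hsum σ).trans ?_
    simp only [Finset.sum_add_distrib]
    have c1 := key Complex.reCLM (fun w => Complex.abs_re_le_norm w)
    have c2 := key (-Complex.reCLM) (fun w => by simpa using Complex.abs_re_le_norm w)
    have c3 := key Complex.imCLM (fun w => Complex.abs_im_le_norm w)
    have c4 := key (-Complex.imCLM) (fun w => by simpa using Complex.abs_im_le_norm w)
    linarith
  have h := integral_mono (integrable_finset_sum _ fun σ _ => hi σ) (integrable_const _) hpt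
  rw [integral_finset_sum _ fun σ _ => hi σ, Finset.sum_congr rfl fun σ _ => hinv σ] at h
  simp only [Finset.sum_const, Finset.card_univ, Fintype.card_fun, Fintype.card_fin,
    Fintype.card_bool, nsmul_eq_mul, integral_const, probReal_univ, one_smul] at h
  push_cast at h
  exact le_of_mul_le_mul_left h (by positivity)

/-- Planting is a rank-one perturbation plus a shift of `z`. -/
lemma sumStat_plant (hz : z.im ≠ 0) (β : ℝ) (g : Disorder n) :
    sumStat z (plant (β / Real.sqrt n) g) - sumStat (z + (β / n : ℝ)) g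
      = β * (sumStat z (plant (β / Real.sqrt n) g) * sumStat (z + (β / n : ℝ)) g) := by
  rcases Nat.eq_zero_or_pos n with hn | hn
  · subst hn; simp [sumStat]
  set z1 := z + ((β / n : ℝ) : ℂ) with hz1
  have hz1' : z1.im ≠ 0 := by simpa [hz1] using hz
  set G' := res z (coupling (plant (β / Real.sqrt n) g))
  set G1 := res z1 (coupling g)
  have hdiff : shiftMat z1 (coupling g) - shiftMat z (coupling (plant (β / Real.sqrt n) g))
      = Matrix.of fun _ _ => ((β / n : ℝ) : ℂ) := by
    ext a b
    have hs : (Real.sqrt n)⁻¹ * (β / Real.sqrt n) = β / n := by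
      rw [mul_div_assoc', inv_mul_eq_div, div_div, Real.mul_self_sqrt (Nat.cast_nonneg n)]
    simp only [shiftMat, Matrix.sub_apply, Matrix.smul_apply, Matrix.map_apply, Matrix.of_apply,
      coupling, sym, plant, smul_eq_mul]
    rcases lt_trichotomy a b with h | h | h
    · simp only [Matrix.one_apply_ne h.ne, h, if_true, mul_add, hs]; push_cast; ring
    · subst h; simp [hz1]
    · simp only [Matrix.one_apply_ne h.ne', h, h.not_gt, if_true, if_false, mul_add, hs]; push_cast; ring
  have h := res_sub_res (coupling_isSymm (plant (β / Real.sqrt n) g)) (coupling_isSymm g) hz hz1'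
  rw [hdiff] at h
  have hsum : ∑ a, ∑ b, (G' a b - G1 a b)
      = ((β / n : ℝ) : ℂ) * ((∑ a, ∑ c, G' a c) * ∑ d, ∑ b, G1 d b) := by
    have e : ∀ a b, G' a b - G1 a b = ∑ d, (∑ c, G' a c * ((β / n : ℝ) : ℂ)) * G1 d b := by
      intro a b
      have := congrFun (congrFun h a) b
      simpa [mul_apply] using this
    simp only [e]
    calc _ = ∑ a, ∑ d, ∑ b, (∑ c, G' a c * ((β / n : ℝ) : ℂ)) * G1 d b :=
          Finset.sum_congr rfl fun a _ => Finset.sum_comm
      _ = _ := by simp only [← Finset.mul_sum, ← Finset.sum_mul]; ring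
  simp only [sumStat]
  have hsum' : (∑ a, ∑ b, G' a b) - ∑ a, ∑ b, G1 a b
      = ((β / n : ℝ) : ℂ) * ((∑ a, ∑ c, G' a c) * ∑ d, ∑ b, G1 d b) := by
    rw [← hsum]; simp only [Finset.sum_sub_distrib]
  rw [← sub_div]
  refine (congrArg (· / (n:ℂ)) hsum').trans ?_
  simp only [G', G1, z1]
  push_cast
  ring

lemma sumStat_shift (hz : z.im ≠ 0) (r : ℝ) (g : Disorder n) :
    ‖sumStat (z + r) g - sumStat z g‖ ≤ |r| * (|z.im|⁻¹ * |z.im|⁻¹) := by
  set η := |z.im|⁻¹ with hη
  have hz1 : (z + r).im ≠ 0 := by simpa using hz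
  have him : |(z + r).im| = |z.im| := by simp
  set G1 := res (z + r) (coupling g)
  set G := res z (coupling g)
  have h := resolvent_identity (coupling_isSymm g) hz1 hz
  have e : (∑ a, ∑ b, G1 a b) - ∑ a, ∑ b, G a b
      = -(r : ℂ) * ∑ a, (G1 *ᵥ fun _ => 1) a * (G *ᵥ fun _ => 1) a := by
    have e1 : ∀ a b, G1 a b - G a b = -(r:ℂ) * ∑ c, G1 a c * G c b := by
      intro a b
      have := congrFun (congrFun h a) b
      simpa [mul_apply] using this
    simp only [← Finset.sum_sub_distrib, e1, ← Finset.mul_sum]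
    congr 1
    simp only [mulVec, dotProduct, mul_one, Finset.sum_mul, Finset.mul_sum]
    rw [Finset.sum_comm_cycle]
    refine Finset.sum_congr rfl fun c _ => ?_
    rw [Finset.sum_comm]
    refine Finset.sum_congr rfl fun a _ => Finset.sum_congr rfl fun b _ => ?_
    rw [show G1 b c = G1 c b from res_symm (coupling_isSymm g) b c]
  simp only [sumStat, ← sub_div, norm_div, RCLike.norm_natCast]
  rw [show (∑ a, ∑ b, res (z + r) (coupling g) a b) - ∑ a, ∑ b, res z (coupling g) a b = _ from e,
    norm_mul, norm_neg, Complex.norm_real, Real.norm_eq_abs]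
  rw [mul_div_assoc]
  refine mul_le_mul_of_nonneg_left ?_ (abs_nonneg r)
  refine div_le_of_le_mul₀ (Nat.cast_nonneg n) (by positivity) ?_
  set u := G1 *ᵥ fun _ => (1:ℂ)
  set v := G *ᵥ fun _ => (1:ℂ)
  have hu : z.im ^ 2 * ∑ a, ‖u a‖ ^ 2 ≤ n := by
    have := res_mulVec_bound (coupling_isSymm g) hz1 (fun _ => 1)
    simpa [u, G1] using this
  have hv : z.im ^ 2 * ∑ a, ‖v a‖ ^ 2 ≤ n := by
    have := res_mulVec_bound (coupling_isSymm g) hz (fun _ => 1)
    simpa [v, G] using this
  have h2 : ∑ a, 2 * ‖u a * v a‖ ≤ ∑ a, (‖u a‖ ^ 2 + ‖v a‖ ^ 2) :=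
    Finset.sum_le_sum fun a _ => by rw [norm_mul]; nlinarith [sq_nonneg (‖u a‖ - ‖v a‖)]
  rw [← Finset.mul_sum, Finset.sum_add_distrib] at h2
  refine (norm_sum_le _ _).trans ?_
  have hp : 0 < z.im ^ 2 := by positivity
  rw [hη, ← mul_inv, abs_mul_abs_self, ← sq, inv_mul_eq_div, le_div_iff₀ hp]
  nlinarith

end Vale.Agent.P146
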