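import Vale.Agent.P146.Field

open MeasureTheory ProbabilityTheory Matrix Finset
open scoped ENNReal ComplexConjugate

namespace Vale.Agent.P146

/-! ### The spectral parameters -/

/-- Target value of the Stieltjes transform. -/
noncomputable def yOf (a : ℝ) : ℂ := ⟨1 - 2 * a, -a⟩

/-- Spectral parameter. -/
noncomputable def zOf (a : ℝ) : ℂ := yOf a + (yOf a)⁻¹

/-- Weight. -/
noncomputable def wOf (a : ℝ) : ℂ := (1 - yOf a) / yOf a ^ 2

section Params

variable {a : ℝ} (ha : 0 < a) (ha8 : a ≤ 1 / 8)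
include ha ha8

lemma normSq_yOf : 9 / 16 ≤ Complex.normSq (yOf a) ∧ Complex.normSq (yOf a) ≤ (1 - a) ^ 2 := by
  simp only [Complex.normSq_apply, yOf]
  constructor <;> nlinarith

lemma norm_yOf : 3 / 4 ≤ ‖yOf a‖ ∧ ‖yOf a‖ ≤ 1 - a := by
  obtain ⟨h1, h2⟩ := normSq_yOf ha ha8
  rw [Complex.normSq_eq_norm_sq] at h1 h2
  constructor
  · nlinarith [norm_nonneg (yOf a)]
  · exact le_of_pow_le_pow_left₀ two_ne_zero (by linarith) h2

lemma yOf_ne_zero : yOf a ≠ 0 := by
  intro h
  have := (norm_yOf ha ha8).1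
  rw [h, norm_zero] at this; linarith

lemma im_zOf : a ^ 2 ≤ (zOf a).im ∧ (zOf a).im ≤ 1 := by
  obtain ⟨h1, h2⟩ := normSq_yOf ha ha8
  have hpos : 0 < Complex.normSq (yOf a) := by linarith
  have e : (zOf a).im = a / Complex.normSq (yOf a) - a := by
    rw [zOf, Complex.add_im, Complex.inv_im]; simp [yOf]; ring
  rw [e]
  constructor
  · rw [le_sub_iff_add_le, le_div_iff₀ hpos]
    nlinarith [pow_pos ha 3]
  · rw [sub_le_iff_le_add, div_le_iff₀ hpos]
    nlinarith

lemma im_zOf_pos : 0 < (zOf a).im := lt_of_lt_of_le (by positivity) (im_zOf ha ha8).1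

lemma norm_one_sub_yOf : ‖1 - yOf a‖ ≤ 3 * a := by
  refine (Complex.norm_le_abs_re_add_abs_im _).trans ?_
  simp [yOf, abs_of_pos ha]; linarith

lemma norm_wOf : ‖wOf a‖ ≤ 6 * a := by
  have h1 := norm_one_sub_yOf ha ha8
  have h2 := (normSq_yOf ha ha8).1
  rw [Complex.normSq_eq_norm_sq] at h2
  rw [wOf, norm_div, norm_pow, div_le_iff₀ (by linarith)]
  nlinarith

lemma le_norm_one_sub_mul (β : ℝ) (hβ : 1 ≤ β) : a ≤ ‖1 - (β : ℂ) * yOf a‖ := by
  refine le_trans ?_ (Complex.abs_im_le_norm _)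
  simp [yOf, abs_mul, abs_of_pos ha, abs_of_pos (lt_of_lt_of_le one_pos hβ)]
  nlinarith

lemma wOf_mul : wOf a * (yOf a / (1 - yOf a) - yOf a) = 1 := by
  have h0 := yOf_ne_zero ha ha8
  have h1 : (1 : ℂ) - yOf a ≠ 0 := by
    intro h
    have := le_norm_one_sub_mul ha ha8 1 le_rfl
    rw [Complex.ofReal_one, one_mul, h, norm_zero] at this; linarith
  rw [wOf]; field_simp; ring

lemma target_continuity {β : ℝ} (hβ : 1 ≤ β) :
    ‖yOf a / (1 - (β : ℂ) * yOf a) - yOf a / (1 - yOf a)‖ ≤ (β - 1) / a ^ 2 := by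
  have h1 := le_norm_one_sub_mul ha ha8 β hβ
  have h2 := le_norm_one_sub_mul ha ha8 1 le_rfl
  rw [Complex.ofReal_one, one_mul] at h2
  have n1 : (1 : ℂ) - (β : ℂ) * yOf a ≠ 0 := by intro h; rw [h, norm_zero] at h1; linarith
  have n2 : (1 : ℂ) - yOf a ≠ 0 := by intro h; rw [h, norm_zero] at h2; linarith
  have e : yOf a / (1 - (β : ℂ) * yOf a) - yOf a / (1 - yOf a)
      = ((β - 1 : ℝ) : ℂ) * yOf a ^ 2 / ((1 - (β : ℂ) * yOf a) * (1 - yOf a)) := by
    rw [div_sub_div _ _ n1 n2]; push_cast; ring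
  rw [e, norm_div, norm_mul, norm_mul, norm_pow, Complex.norm_real, Real.norm_eq_abs,
    abs_of_nonneg (by linarith : (0:ℝ) ≤ β - 1), sq a]
  have hy : ‖yOf a‖ ^ 2 ≤ 1 := pow_le_one₀ (norm_nonneg _) (by linarith [(norm_yOf ha ha8).2])
  refine div_le_div₀ (by linarith) ?_ (by positivity) (mul_le_mul h1 h2 ha.le (norm_nonneg _))
  exact mul_le_of_le_one_right (by linarith) hy

/-- The trace is close to the target, with exponentially small exceptions. -/
lemma null_near {e : ℝ} (he : 0 < e) :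
    ∃ N : ℕ, ∀ n ≥ N, (disorderLaw n).real {g | 3 * e ≤ ‖trStat (zOf a) g - yOf a‖}
      ≤ 4 * Real.exp (-(e ^ 2 * (zOf a).im ^ 2 * n / 64)) := by
  obtain ⟨N, hN⟩ := trMean_near (y := yOf a) (by linarith [(norm_yOf ha ha8).2]) (by simp [yOf, ha])
    (im_zOf_pos ha ha8) he
  refine ⟨N, fun n hn => le_trans (measureReal_mono ?_) (trStat_conc (im_zOf_pos ha ha8) he.le)⟩
  intro g hg
  simp only [Set.mem_setOf_eq] at hg ⊢
  have h1 : ‖trMean n (zOf a) - yOf a‖ ≤ e := hN n hn
  have h2 := norm_sub_le_norm_sub_add_norm_sub (trStat (zOf a) g) (trMean n (zOf a)) (yOf a)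
  linarith

/-- Rate of the planted event. -/
lemma planted_near :
    ∃ N : ℕ, ∀ n ≥ N, ∀ β : ℝ, 1 ≤ β → β ≤ 2 →
      (disorderLaw n).real ((plant (β / Real.sqrt n)) ⁻¹'
          {g | 1 / 100 < ‖sumStat (zOf a) g - yOf a / (1 - (β : ℂ) * yOf a)‖})
        ≤ 8 * Real.exp (-(a ^ 8 / 92160000 * n)) := by
  obtain ⟨hz1, hz2⟩ := im_zOf ha ha8
  have hz := im_zOf_pos ha ha8
  set η := (zOf a).im
  set e := a ^ 2 / 1200 with he
  have he0 : 0 < e := by rw [he]; positivity
  obtain ⟨N, hN⟩ := null_near ha ha8 he0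
  obtain ⟨N', hN'⟩ := exists_nat_gt (2 * (η⁻¹ * η⁻¹) / e)
  refine ⟨max N N', fun n hn β hβ1 hβ2 => ?_⟩
  have hn1 : 2 * (η⁻¹ * η⁻¹) / e < n :=
    lt_of_lt_of_le hN' (by exact_mod_cast le_trans (le_max_right _ _) hn)
  have hnpos : (0:ℝ) < n := lt_trans (by positivity) hn1
  have hez : e * η ≤ 1 := by
    rw [he]; nlinarith
  -- exponents
  have hX : e ^ 2 * η ^ 2 * n / 64 ≥ a ^ 8 / 92160000 * n := by
    have hη2 : a ^ 4 ≤ η ^ 2 := by
      calc a ^ 4 = (a ^ 2) ^ 2 := by ring
        _ ≤ η ^ 2 := pow_le_pow_left₀ (sq_nonneg a) hz1 2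
    have : e ^ 2 * a ^ 4 * n / 64 ≤ e ^ 2 * η ^ 2 * n / 64 := by gcongr
    refine le_trans (le_of_eq ?_) this
    rw [he]; ring
  have hex1 : Real.exp (-(e ^ 2 * η ^ 2 * n / 64)) ≤ Real.exp (-(a ^ 8 / 92160000 * n)) :=
    Real.exp_le_exp.2 (by linarith)
  have hex2 : Real.exp (-(e ^ 2 * η ^ 2 * n / 32)) ≤ Real.exp (-(a ^ 8 / 92160000 * n)) := by
    refine Real.exp_le_exp.2 ?_
    have : 0 ≤ e ^ 2 * η ^ 2 * n / 64 := by positivity
    linarith
  have h0 := hN n (le_trans (le_max_left _ _) hn)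
  have h1 := sumStat_conc (n := n) hz he0 hez
  refine le_trans (measureReal_mono ?_) ((measureReal_union_le
    {g | 3 * e ≤ ‖trStat (zOf a) g - yOf a‖} {g | 2 * e ≤ ‖sumStat (zOf a) g - trStat (zOf a) g‖}).trans
    (by linarith))
  intro g hg
  simp only [Set.mem_preimage, Set.mem_setOf_eq, Set.mem_union] at hg ⊢
  by_contra hcon
  push_neg at hcon
  obtain ⟨c1, c2⟩ := hcon
  set X' := sumStat (zOf a) (plant (β / Real.sqrt n) g)
  set X1 := sumStat (zOf a + ((β / n : ℝ) : ℂ)) g
  have hpl : X' - X1 = (β : ℂ) * (X' * X1) := sumStat_plant hz.ne' β g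
  have hsh : ‖X1 - sumStat (zOf a) g‖ ≤ e := by
    refine (sumStat_shift hz.ne' (β / n) g).trans ?_
    rw [abs_of_pos hz, abs_of_nonneg (by positivity), div_mul_eq_mul_div, div_le_iff₀ hnpos]
    rw [div_lt_iff₀ he0] at hn1
    have : β * (η⁻¹ * η⁻¹) ≤ 2 * (η⁻¹ * η⁻¹) :=
      mul_le_mul_of_nonneg_right hβ2 (by positivity)
    linarith
  have hX1 : ‖X1 - yOf a‖ < 6 * e := by
    have t1 := norm_sub_le_norm_sub_add_norm_sub X1 (sumStat (zOf a) g) (yOf a)
    have t2 := norm_sub_le_norm_sub_add_norm_sub (sumStat (zOf a) g) (trStat (zOf a) g) (yOf a)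
    linarith
  have hy := le_norm_one_sub_mul ha ha8 β hβ1
  have hd : a / 2 ≤ ‖1 - (β : ℂ) * X1‖ := by
    have t := norm_sub_norm_le (1 - (β : ℂ) * yOf a) ((β : ℂ) * (X1 - yOf a))
    rw [show (1 : ℂ) - (β : ℂ) * yOf a - (β : ℂ) * (X1 - yOf a) = 1 - (β : ℂ) * X1 by ring, norm_mul,
      Complex.norm_real, Real.norm_eq_abs, abs_of_nonneg (by linarith : (0:ℝ) ≤ β)] at t
    have : β * ‖X1 - yOf a‖ ≤ 2 * (6 * e) := mul_le_mul hβ2 hX1.le (norm_nonneg _) (by norm_num)
    have : e ≤ a / 24 := by rw [he]; nlinarith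
    linarith
  have n1 : (1 : ℂ) - (β : ℂ) * X1 ≠ 0 := by intro h; rw [h, norm_zero] at hd; linarith
  have n2 : (1 : ℂ) - (β : ℂ) * yOf a ≠ 0 := by intro h; rw [h, norm_zero] at hy; linarith
  have e1 : X' - yOf a / (1 - (β : ℂ) * yOf a)
      = (X1 - yOf a) / ((1 - (β : ℂ) * X1) * (1 - (β : ℂ) * yOf a)) := by
    have hX' : X' = X1 / (1 - (β : ℂ) * X1) := by
      rw [eq_div_iff n1]; linear_combination hpl
    rw [hX', div_sub_div _ _ n1 n2]; congr 1; ring
  rw [e1, norm_div, norm_mul] at hg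
  have hden : a / 2 * a ≤ ‖1 - (β : ℂ) * X1‖ * ‖1 - (β : ℂ) * yOf a‖ :=
    mul_le_mul hd hy ha.le (norm_nonneg _)
  have : ‖X1 - yOf a‖ / (‖1 - (β : ℂ) * X1‖ * ‖1 - (β : ℂ) * yOf a‖) ≤ 6 * e / (a / 2 * a) :=
    div_le_div₀ (by positivity) hX1.le (by positivity) hden
  have e2 : 6 * e / (a / 2 * a) = 1 / 100 := by rw [he]; field_simp; ring
  linarith

end Params

/-! ### The transfer to the Gibbs measure -/

/-- Mean gauged Gibbs average of the statistic minus the trace. -/
noncomputable def meanStat (n : ℕ) (β : ℝ) (z : ℂ) : ℂ :=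
  ∫ g, ∑ σ, (gibbs n β g σ : ℂ) * (sumStat z (gauge σ g) - trStat z g) ∂disorderLaw n

lemma meanStat_near {a α ε : ℝ} (hα : 0 < α) (hαa : α ≤ a) (ha8 : a ≤ 1 / 8) (hε : 0 < ε)
    (hεα : ε ≤ α ^ 10 / 36864000000) :
    ∃ N : ℕ, ∀ n ≥ N, ∀ β : ℝ, 1 ≤ β → β ≤ 1 + ε →
      ‖wOf a * meanStat n β (zOf a) - 1‖ ≤ 1 / 20 := by
  have ha : 0 < a := lt_of_lt_of_le hα hαa
  have hz := im_zOf_pos ha ha8
  obtain ⟨hz1, -⟩ := im_zOf ha ha8
  set z := zOf a
  obtain ⟨N1, hN1⟩ := planted_near ha ha8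
  obtain ⟨N2, hN2⟩ := trMean_near (y := yOf a) (by linarith [(norm_yOf ha ha8).2])
    (by simp [yOf, ha]) hz (show (0:ℝ) < 1 / 100 by norm_num)
  have hα1 : α ≤ 1 / 8 := hαa.trans ha8
  have hp10 : α ^ 10 ≤ 1 := pow_le_one₀ hα.le (by linarith)
  have hε1 : ε < 1 / 2 := by linarith
  set b := 1 - ε with hb
  set r := Real.sqrt (1 - b ^ 2)
  have hr : 0 < r := Real.sqrt_pos.2 (by rw [hb]; nlinarith)
  set Cn : ℕ → ℝ := fun n => Real.log 9 + Real.log 2 + Real.sqrt (8 * n / r)
  have hlim : Filter.Tendsto (fun n : ℕ => Cn n / n) Filter.atTop (nhds 0) := by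
    have h1 := tendsto_const_div_atTop_nhds_zero_nat (Real.log 9 + Real.log 2)
    have h2 : Filter.Tendsto (fun n : ℕ => Real.sqrt (8 / r / n)) Filter.atTop (nhds 0) := by
      simpa using (tendsto_const_div_atTop_nhds_zero_nat (8 / r)).sqrt
    have h3 := h1.add h2
    rw [add_zero] at h3
    refine h3.congr' ?_
    filter_upwards [Filter.eventually_gt_atTop 0] with n hn
    have hn' : (0:ℝ) < n := by exact_mod_cast hn
    simp only [Cn, add_div]
    congr 1
    rw [← Real.sqrt_sq hn'.le, ← Real.sqrt_div (by positivity)]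
    congr 1
    rw [Real.sqrt_sq hn'.le]; field_simp
  obtain ⟨N3, hN3⟩ := Filter.eventually_atTop.1 (hlim.eventually (eventually_lt_nhds hε))
  refine ⟨max (max N1 N2) (max N3 1), fun n hn β hβ1 hβ2 => ?_⟩
  simp only [ge_iff_le, max_le_iff] at hn
  obtain ⟨⟨hnN1, hnN2⟩, hnN3, hn1⟩ := hn
  have hnpos : (0:ℝ) < n := by exact_mod_cast hn1
  set μ := disorderLaw n
  set t := yOf a / (1 - (β : ℂ) * yOf a)
  set B : Set (Disorder n) := {g | 1 / 100 < ‖sumStat z g - t‖}
  have hBm : MeasurableSet B :=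
    measurableSet_lt measurable_const ((measurable_sumStat hz.ne').sub_const t).norm
  set κ := α ^ 8 / 92160000 with hκ
  have hκ0 : 0 < κ := by positivity
  -- the probability of the bad event
  set P := ∫ g, ∑ σ, gibbs n β g σ * B.indicator (fun _ => (1:ℝ)) (gauge σ g) ∂μ
  have hP : P ≤ 2 * ε / κ := by
    have htr := transfer (n := n) β (c := κ * n) (by positivity) hBm
    have hfl : ∫ g, freeEnergy n b g ∂μ ≤ ∫ g, freeEnergy n β g ∂μ :=
      integral_mono (integrable_freeEnergy b) (integrable_freeEnergy β)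
        fun g => freeEnergy_mono (by rw [hb]; linarith) (by rw [hb]; linarith) g
    have hlow := freeEnergy_lower (n := n) (b := b) (by rw [hb]; linarith) (by rw [hb]; linarith)
    have hs : Real.sqrt (8 * n * b ^ 2 / r) ≤ Real.sqrt (8 * n / r) := by
      refine Real.sqrt_le_sqrt (div_le_div_of_nonneg_right ?_ hr.le)
      refine mul_le_of_le_one_right (by positivity) ?_
      rw [hb]; nlinarith
    have hpb := hN1 n hnN1 β hβ1 (by linarith)
    have hlog : Real.log (1 + Real.exp (κ * n) * μ.real ((plant (β / Real.sqrt n)) ⁻¹' B))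
        ≤ Real.log 9 := by
      refine Real.log_le_log ?_ ?_
      · have : 0 ≤ μ.real ((plant (β / Real.sqrt n)) ⁻¹' B) := measureReal_nonneg
        positivity
      have h2 := mul_le_mul_of_nonneg_left hpb (Real.exp_pos (κ * n)).le
      have h3 : Real.exp (κ * n) * (8 * Real.exp (-(a ^ 8 / 92160000 * n))) ≤ 8 := by
        rw [mul_left_comm, ← Real.exp_add]
        refine mul_le_of_le_one_right (by norm_num) (Real.exp_le_one_iff.2 ?_)
        have : κ ≤ a ^ 8 / 92160000 := by
          rw [hκ]; gcongr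
        nlinarith [mul_le_mul_of_nonneg_right this hnpos.le]
      linarith
    have hgap : numPairs n * β ^ 2 / (2 * n) - numPairs n * b ^ 2 / (2 * n) ≤ ε * n := by
      rw [← sub_div, div_le_iff₀ (by positivity)]
      have h2 := two_numPairs n
      have hd : β ^ 2 - b ^ 2 ≤ 4 * ε := by rw [hb]; nlinarith
      have hd0 : 0 ≤ β ^ 2 - b ^ 2 := by rw [hb]; nlinarith
      have hN : numPairs n ≤ (n:ℝ) ^ 2 / 2 := by linarith
      calc numPairs n * β ^ 2 - numPairs n * b ^ 2 = numPairs n * (β ^ 2 - b ^ 2) := by ring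
        _ ≤ (n:ℝ) ^ 2 / 2 * (4 * ε) := mul_le_mul hN hd hd0 (by positivity)
        _ = _ := by ring
    have hC := hN3 n hnN3
    simp only [Cn, div_lt_iff₀ hnpos] at hC
    have : κ * n * P ≤ 2 * ε * n := by linarith
    rw [le_div_iff₀ hκ0]
    exact le_of_mul_le_mul_right (by linarith) hnpos
  -- the mean of the statistic
  have hbound : ∀ g : Disorder n, ‖sumStat z g - t‖ ≤ 1 / 100 + 2 / α ^ 2 * B.indicator (fun _ => (1:ℝ)) g := by
    intro g
    by_cases hg : g ∈ B
    · rw [Set.indicator_of_mem hg, mul_one]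
      have h1 : ‖sumStat z g‖ ≤ 1 / α ^ 2 := by
        refine (norm_sumStat_le hz.ne' g).trans ?_
        rw [abs_of_pos hz, inv_eq_one_div]
        exact one_div_le_one_div_of_le (by positivity) ((pow_le_pow_left₀ hα.le hαa 2).trans hz1)
      have h2 : ‖t‖ ≤ 1 / α ^ 2 := by
        rw [norm_div]
        refine div_le_div₀ zero_le_one (by linarith [(norm_yOf ha ha8).2]) (by positivity) ?_
        refine le_trans ?_ (le_norm_one_sub_mul ha ha8 β hβ1)
        nlinarith
      have := norm_sub_le (sumStat z g) t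
      rw [show 2 / α ^ 2 = 1 / α ^ 2 + 1 / α ^ 2 by ring]
      linarith
    · rw [Set.indicator_of_notMem hg, mul_zero, add_zero]
      exact not_lt.1 hg
  set S : Disorder n → ℂ := fun g => ∑ σ, (gibbs n β g σ : ℂ) * (sumStat z (gauge σ g) - t)
  have hSm : Measurable S := Finset.measurable_sum _ fun σ _ =>
    (measurable_gibbs β σ).complex_ofReal.mul
      (((measurable_sumStat hz.ne').comp (measurePreserving_gauge σ).measurable).sub_const t)
  have hSb : ∀ g, ‖S g‖ ≤ 1 / 100
      + 2 / α ^ 2 * ∑ σ, gibbs n β g σ * B.indicator (fun _ => (1:ℝ)) (gauge σ g) := by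
    intro g
    refine (norm_sum_le _ _).trans ?_
    calc ∑ σ, ‖(gibbs n β g σ : ℂ) * (sumStat z (gauge σ g) - t)‖
        ≤ ∑ σ, gibbs n β g σ * (1 / 100 + 2 / α ^ 2 * B.indicator (fun _ => (1:ℝ)) (gauge σ g)) := by
          refine Finset.sum_le_sum fun σ _ => ?_
          rw [norm_mul, Complex.norm_real, Real.norm_eq_abs, abs_of_nonneg (gibbs_nonneg β g σ)]
          exact mul_le_mul_of_nonneg_left (hbound _) (gibbs_nonneg β g σ)
      _ = _ := by
          simp only [mul_add, Finset.sum_add_distrib, ← Finset.sum_mul, sum_gibbs, one_mul]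
          rw [Finset.mul_sum]; congr 1
          exact Finset.sum_congr rfl fun σ _ => by ring
  have hIi : Integrable (fun g => ∑ σ, gibbs n β g σ * B.indicator (fun _ => (1:ℝ)) (gauge σ g)) μ := by
    refine integrable_finset_sum _ fun σ _ => integrable_of_bdd (C := 1)
      ((measurable_gibbs β σ).mul
        ((measurable_const.indicator hBm).comp (measurePreserving_gauge σ).measurable)).aestronglyMeasurable
      fun g => ?_
    rw [Real.norm_eq_abs, abs_mul, abs_of_nonneg (gibbs_nonneg β g σ)]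
    refine mul_le_one₀ (gibbs_le_one β g σ) (abs_nonneg _) ?_
    by_cases hg : gauge σ g ∈ B <;> simp [hg]
  have hSi : Integrable S μ :=
    ((integrable_const (1/100:ℝ)).add (hIi.const_mul (2 / α ^ 2))).mono' hSm.aestronglyMeasurable
      (ae_of_all _ hSb)
  have hS : ‖∫ g, S g ∂μ‖ ≤ 1 / 50 := by
    refine (norm_integral_le_integral_norm _).trans
      ((integral_mono hSi.norm ((integrable_const _).add (hIi.const_mul _)) hSb).trans ?_)
    simp only [Pi.add_apply]
    rw [integral_add (integrable_const _) (hIi.const_mul _), integral_const_mul]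
    simp only [integral_const, probReal_univ, one_smul]
    have h1 : 2 / α ^ 2 * P ≤ 2 / α ^ 2 * (2 * ε / κ) := mul_le_mul_of_nonneg_left hP (by positivity)
    have h2 : 2 / α ^ 2 * (2 * ε / κ) ≤ 1 / 100 := by
      have e : 2 / α ^ 2 * (2 * ε / κ) = 368640000 * ε / α ^ 10 := by rw [hκ]; field_simp; ring
      rw [e, div_le_iff₀ (by positivity)]; linarith
    linarith
  have htr : Integrable (fun g => trStat z g) μ := integrable_trStat hz.ne'
  have hmean : meanStat n β z = ∫ g, S g ∂μ + (t - trMean n z) := by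
    have e : ∀ g, ∑ σ, (gibbs n β g σ : ℂ) * (sumStat z (gauge σ g) - trStat z g)
        = S g + (t - trStat z g) := by
      intro g
      have h1 : ∑ σ, (gibbs n β g σ : ℂ) = 1 := by rw [← Complex.ofReal_sum, sum_gibbs, Complex.ofReal_one]
      calc _ = ∑ σ, ((gibbs n β g σ : ℂ) * (sumStat z (gauge σ g) - t)
            + (gibbs n β g σ : ℂ) * (t - trStat z g)) := Finset.sum_congr rfl fun σ _ => by ring
        _ = _ := by rw [Finset.sum_add_distrib, ← Finset.sum_mul, h1, one_mul]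
    rw [meanStat, integral_congr_ae (ae_of_all _ e),
      integral_add hSi (by exact (integrable_const t).sub htr), integral_sub (integrable_const t) htr]
    simp only [integral_const, probReal_univ, one_smul]; rfl
  have hw := norm_wOf ha ha8
  have h2 : ‖trMean n z - yOf a‖ ≤ 1 / 100 := hN2 n hnN2
  have h3 : ‖t - yOf a / (1 - yOf a)‖ ≤ 1 / 100 := by
    refine (target_continuity ha ha8 hβ1).trans ?_
    rw [div_le_iff₀ (by positivity)]
    have hle : α ^ 10 ≤ a ^ 2 :=
      (pow_le_pow_of_le_one hα.le (by linarith) (by norm_num : 2 ≤ 10)).trans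
        (pow_le_pow_left₀ hα.le hαa 2)
    linarith [sq_nonneg a]
  have e : wOf a * meanStat n β z - 1 = wOf a * ((∫ g, S g ∂μ) + (t - yOf a / (1 - yOf a))
      - (trMean n z - yOf a)) := by
    conv_lhs => rw [← wOf_mul ha ha8, hmean]
    ring
  rw [e, norm_mul]
  have h5 : ‖(∫ g, S g ∂μ) + (t - yOf a / (1 - yOf a)) - (trMean n z - yOf a)‖ ≤ 1 / 20 := by
    have t1 := norm_sub_le ((∫ g, S g ∂μ) + (t - yOf a / (1 - yOf a))) (trMean n z - yOf a)
    have t2 := norm_add_le (∫ g, S g ∂μ) (t - yOf a / (1 - yOf a))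
    linarith
  calc ‖wOf a‖ * _ ≤ 1 * (1 / 20) := mul_le_mul (by linarith) h5 (norm_nonneg _) zero_le_one
    _ = _ := one_mul _

/-! ### The energy of the test field -/

/-- The Gram kernel of two parameters. -/
noncomputable def gram (n : ℕ) (a b : ℝ) (g : Disorder n) : ℝ :=
  4 * ‖pairSum (zOf a) (zOf b) (coupling g) / n‖
    + 16 * ‖pairSum (zOf a) (zOf b) (coupling g) / n‖ ^ 2

lemma gram_mean {a b α : ℝ} (hα : 0 < α) (ha : α ≤ a) (hb : α ≤ b) (ha8 : a ≤ 1 / 8) (hb8 : b ≤ 1 / 8) :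
    ∃ N : ℕ, ∀ n ≥ N, Integrable (gram n a b) (disorderLaw n) ∧
      ∫ g, gram n a b g ∂disorderLaw n ≤ 157 / (a + b) ^ 2 := by
  have ha0 : 0 < a := hα.trans_le ha
  have hb0 : 0 < b := hα.trans_le hb
  have hza := im_zOf_pos ha0 ha8
  have hzb := im_zOf_pos hb0 hb8
  have hα2 : α ≤ 1 / 8 := ha.trans ha8
  set e := α ^ 2 / 6 with he
  have he0 : 0 < e := by rw [he]; positivity
  obtain ⟨Na, hNa⟩ := null_near ha0 ha8 he0
  obtain ⟨Nb, hNb⟩ := null_near hb0 hb8 he0
  set q := e ^ 2 * α ^ 4 / 64 with hq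
  have hq0 : 0 < q := by positivity
  set Q := 1 / α ^ 4
  have hlim : Filter.Tendsto (fun n : ℕ => (4 * Q + 16 * Q ^ 2) * (8 * Real.exp (-q * n)))
      Filter.atTop (nhds 0) := by
    have h1 : Filter.Tendsto (fun n : ℕ => Real.exp (-q * n)) Filter.atTop (nhds 0) :=
      Real.tendsto_exp_atBot.comp
        (Filter.Tendsto.const_mul_atTop_of_neg (by linarith) tendsto_natCast_atTop_atTop)
    simpa using (h1.const_mul 8).const_mul (4 * Q + 16 * Q ^ 2)
  obtain ⟨N', hN'⟩ := Filter.eventually_atTop.1 (hlim.eventually (eventually_lt_nhds one_pos))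
  refine ⟨max (max Na Nb) (max N' 1), fun n hn => ?_⟩
  simp only [ge_iff_le, max_le_iff] at hn
  obtain ⟨⟨hna, hnb⟩, hn', hn1⟩ := hn
  set μ := disorderLaw n
  set Bd : Set (Disorder n) := {g | 3 * e ≤ ‖trStat (zOf a) g - yOf a‖}
    ∪ {g | 3 * e ≤ ‖trStat (zOf b) g - yOf b‖}
  have hBd : MeasurableSet Bd :=
    (measurableSet_le measurable_const ((measurable_trStat hza.ne').sub_const _).norm).union
      (measurableSet_le measurable_const ((measurable_trStat hzb.ne').sub_const _).norm)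
  set r : Disorder n → ℝ := fun g => ‖pairSum (zOf a) (zOf b) (coupling g) / n‖
  -- the denominator
  set d := conj (zOf b) - zOf a
  have hd : 2 * α ^ 2 ≤ ‖d‖ := by
    refine le_trans ?_ (Complex.abs_im_le_norm _)
    have h1 := (im_zOf ha0 ha8).1
    have h2 := (im_zOf hb0 hb8).1
    have h3 := pow_le_pow_left₀ hα.le ha 2
    have h4 := pow_le_pow_left₀ hα.le hb 2
    rw [Complex.sub_im, Complex.conj_im, abs_of_nonpos (by linarith)]
    linarith
  have hd0 : 0 < ‖d‖ := lt_of_lt_of_le (by positivity) hd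
  have hid : ∀ g, r g * ‖d‖ = ‖trStat (zOf a) g - conj (trStat (zOf b) g)‖ := by
    intro g
    have h := pairSum_eq (coupling_isSymm g) hza.ne' hzb.ne'
    simp only [r, trStat, map_div₀, map_natCast, ← sub_div, ← h, norm_div, norm_mul]
    ring
  have hcrude : ∀ g, r g ≤ Q := by
    intro g
    have h1 : ∀ c : ℝ, α ≤ c → c ≤ 1 / 8 → ‖trStat (zOf c) g‖ ≤ 1 / α ^ 2 := by
      intro c hc hc8
      refine (norm_trStat_le (im_zOf_pos (hα.trans_le hc) hc8).ne' g).trans ?_
      rw [abs_of_pos (im_zOf_pos (hα.trans_le hc) hc8), inv_eq_one_div]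
      exact one_div_le_one_div_of_le (by positivity)
        ((pow_le_pow_left₀ hα.le hc 2).trans (im_zOf (hα.trans_le hc) hc8).1)
    have h2 : ‖trStat (zOf a) g - conj (trStat (zOf b) g)‖ ≤ 2 / α ^ 2 := by
      refine (norm_sub_le _ _).trans ?_
      rw [Complex.norm_conj, show 2 / α ^ 2 = 1 / α ^ 2 + 1 / α ^ 2 by ring]
      exact add_le_add (h1 a ha ha8) (h1 b hb hb8)
    have h3 : r g * (2 * α ^ 2) ≤ 2 / α ^ 2 := by
      refine le_trans (mul_le_mul_of_nonneg_left hd (norm_nonneg _)) ?_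
      rw [hid]; exact h2
    calc r g = r g * (2 * α ^ 2) / (2 * α ^ 2) := by field_simp
      _ ≤ 2 / α ^ 2 / (2 * α ^ 2) := div_le_div_of_nonneg_right h3 (by positivity)
      _ = Q := by simp only [Q]; field_simp
  have hgood : ∀ g, g ∉ Bd → r g ≤ 3 / (a + b) := by
    intro g hg
    simp only [Bd, Set.mem_union, Set.mem_setOf_eq, not_or, not_le] at hg
    set yb := conj (yOf b)
    have hnum : ‖trStat (zOf a) g - conj (trStat (zOf b) g)‖ ≤ ‖yOf a - yb‖ + α ^ 2 := by
      have h1 : trStat (zOf a) g - conj (trStat (zOf b) g)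
          = (trStat (zOf a) g - yOf a) + (yOf a - yb) - conj (trStat (zOf b) g - yOf b) := by
        simp only [yb, map_sub]; ring
      rw [h1]
      refine (norm_sub_le _ _).trans ?_
      rw [Complex.norm_conj]
      have h2 := norm_add_le (trStat (zOf a) g - yOf a) (yOf a - yb)
      rw [he] at hg; linarith
    set p := yOf a * yb with hp
    have hpn : ‖p‖ ≤ (1 - a) * (1 - b) := by
      rw [hp, norm_mul, Complex.norm_conj]
      exact mul_le_mul (norm_yOf ha0 ha8).2 (norm_yOf hb0 hb8).2 (norm_nonneg _) (by linarith)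
    have hp1 : (a + b) / 2 ≤ ‖1 - p‖ := by
      have := norm_sub_norm_le (1:ℂ) p
      rw [norm_one] at this
      nlinarith
    have hya : yOf a ≠ 0 := yOf_ne_zero ha0 ha8
    have hyb : yb ≠ 0 := by simpa [yb] using yOf_ne_zero hb0 hb8
    have hdp : d * p = (yOf a - yb) * (1 - p) := by
      simp only [d, zOf, map_add, map_inv₀, hp]
      rw [show conj (yOf b) = yb from rfl]
      field_simp
      ring
    have hdp' : ‖yOf a - yb‖ * ((a + b) / 2) ≤ ‖d‖ := by
      have h := congrArg (‖·‖) hdp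
      simp only [norm_mul] at h
      have hp' : ‖p‖ ≤ 1 := hpn.trans (by nlinarith)
      calc ‖yOf a - yb‖ * ((a + b) / 2) ≤ ‖yOf a - yb‖ * ‖1 - p‖ :=
            mul_le_mul_of_nonneg_left hp1 (norm_nonneg _)
        _ = ‖d‖ * ‖p‖ := h.symm
        _ ≤ ‖d‖ := mul_le_of_le_one_right (norm_nonneg _) hp'
    have hab : a + b ≤ 1 := by linarith
    have h4 : r g * ‖d‖ * (a + b) ≤ 3 * ‖d‖ := by
      rw [hid]
      refine (mul_le_mul_of_nonneg_right hnum (by linarith)).trans ?_
      have : α ^ 2 * (a + b) ≤ α ^ 2 := mul_le_of_le_one_right (sq_nonneg _) hab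
      linarith
    rw [le_div_iff₀ (by linarith)]
    refine le_of_mul_le_mul_right ?_ hd0
    linarith
  have hrm : Measurable r := by
    refine (Measurable.div_const ?_ _).norm
    simp only [pairSum]
    exact Finset.measurable_sum _ fun c _ => Finset.measurable_sum _ fun c' _ =>
      (measurable_res hza.ne' c c').mul (Complex.continuous_conj.measurable.comp (measurable_res hzb.ne' c c'))
  have hgi : Integrable (gram n a b) μ := by
    refine integrable_of_bdd (C := 4 * Q + 16 * Q ^ 2)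
      ((hrm.const_mul 4).add ((hrm.pow_const 2).const_mul 16)).aestronglyMeasurable fun g => ?_
    have hr0 : 0 ≤ r g := norm_nonneg _
    show |4 * r g + 16 * r g ^ 2| ≤ _
    rw [abs_of_nonneg (by positivity)]
    have := hcrude g
    have := pow_le_pow_left₀ hr0 this 2
    linarith
  refine ⟨hgi, ?_⟩
  have hab : 0 < a + b := by linarith
  have hab1 : a + b ≤ 1 := by linarith
  have hpt : ∀ g, gram n a b g ≤ (4 * (3 / (a + b)) + 16 * (3 / (a + b)) ^ 2)
      + (4 * Q + 16 * Q ^ 2) * Bd.indicator (fun _ => (1:ℝ)) g := by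
    intro g
    have hr0 : 0 ≤ r g := norm_nonneg _
    show 4 * r g + 16 * r g ^ 2 ≤ _
    by_cases hg : g ∈ Bd
    · rw [Set.indicator_of_mem hg, mul_one]
      have := hcrude g
      have := pow_le_pow_left₀ hr0 this 2
      have : 0 ≤ 4 * (3 / (a + b)) + 16 * (3 / (a + b)) ^ 2 := by positivity
      linarith
    · rw [Set.indicator_of_notMem hg, mul_zero, add_zero]
      have := hgood g hg
      have := pow_le_pow_left₀ hr0 this 2
      linarith
  refine (integral_mono hgi ((integrable_const _).add (((integrable_const _).indicator hBd).const_mul _)) hpt).trans ?_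
  simp only [Pi.add_apply]
  rw [integral_add (integrable_const _) (((integrable_const _).indicator hBd).const_mul _),
    integral_const_mul, integral_indicator_const _ hBd]
  simp only [integral_const, probReal_univ, one_smul, smul_eq_mul, mul_one]
  have hBp : μ.real Bd ≤ 8 * Real.exp (-q * n) := by
    refine (measureReal_union_le _ _).trans ?_
    have h1 := hNa n hna
    have h2 := hNb n hnb
    have hcmp : ∀ c : ℝ, α ≤ c → c ≤ 1 / 8 →
        Real.exp (-(e ^ 2 * (zOf c).im ^ 2 * n / 64)) ≤ Real.exp (-q * n) := by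
      intro c hc hc8
      rw [Real.exp_le_exp]
      have h4 : α ^ 4 ≤ (zOf c).im ^ 2 := by
        calc α ^ 4 = (α ^ 2) ^ 2 := by ring
          _ ≤ _ := pow_le_pow_left₀ (sq_nonneg α)
            ((pow_le_pow_left₀ hα.le hc 2).trans (im_zOf (hα.trans_le hc) hc8).1) 2
      have h5 : e ^ 2 * α ^ 4 * n / 64 ≤ e ^ 2 * (zOf c).im ^ 2 * n / 64 := by gcongr
      have h6 : q * n = e ^ 2 * α ^ 4 * n / 64 := by rw [hq]; ring
      linarith
    linarith [hcmp a ha ha8, hcmp b hb hb8]
  have h7 : (4 * Q + 16 * Q ^ 2) * μ.real Bd ≤ 1 :=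
    (mul_le_mul_of_nonneg_left hBp (by positivity)).trans (hN' n hn').le
  have e2 : 157 / (a + b) ^ 2 = 12 / (a + b) ^ 2 + 144 / (a + b) ^ 2 + 1 / (a + b) ^ 2 := by ring
  have e3 : 4 * (3 / (a + b)) + 16 * (3 / (a + b)) ^ 2 = 12 / (a + b) + 144 / (a + b) ^ 2 := by
    rw [div_pow]; ring
  have h8 : 12 / (a + b) ≤ 12 / (a + b) ^ 2 :=
    div_le_div_of_nonneg_left (by norm_num) (by positivity) (by nlinarith)
  have h9 : 1 ≤ 1 / (a + b) ^ 2 := by
    rw [le_div_iff₀ (by positivity)]; nlinarith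
  linarith

/-! ### Assembly -/

/-- The geometric scales. -/
noncomputable def scale (m : ℕ) : ℝ := (1 / 2 : ℝ) ^ (m + 3)

lemma scale_pos (m : ℕ) : 0 < scale m := pow_pos (by norm_num) _

lemma scale_le (m : ℕ) : scale m ≤ 1 / 8 := by
  have : (1 / 2 : ℝ) ^ (m + 3) ≤ (1 / 2) ^ 3 :=
    pow_le_pow_of_le_one (by norm_num) (by norm_num) (by omega)
  norm_num [scale] at this ⊢; linarith

lemma scale_ge {m K : ℕ} (h : m < K) : (1 / 2 : ℝ) ^ (K + 2) ≤ scale m :=
  pow_le_pow_of_le_one (by norm_num) (by norm_num) (by omega)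

lemma geometric_row (m K : ℕ) :
    (K ≤ m + 1 → ∑ l ∈ range K, scale m * scale l / (scale m + scale l) ^ 2 ≤ 2 * (1/2:ℝ) ^ (m + 1 - K)) ∧
    (m + 1 ≤ K → ∑ l ∈ range K, scale m * scale l / (scale m + scale l) ^ 2 ≤ 3 - (1/2:ℝ) ^ (K - (m + 1))) := by
  have hkey : ∀ p q : ℕ, p ≤ q →
      scale p * scale q / (scale p + scale q) ^ 2 ≤ (1/2:ℝ) ^ (q - p) := by
    intro p q hpq
    have hq : scale q = scale p * (1/2:ℝ) ^ (q - p) := by
      rw [scale, scale, ← pow_add]; congr 1; omega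
    have hp := scale_pos p
    set x := (1/2:ℝ) ^ (q - p)
    have hx : 0 < x := pow_pos (by norm_num) _
    rw [hq, div_le_iff₀ (by positivity)]
    have : scale p * (scale p * x) = x * scale p ^ 2 := by ring
    rw [this]
    refine mul_le_mul_of_nonneg_left ?_ hx.le
    exact pow_le_pow_left₀ hp.le (le_add_of_nonneg_right (by positivity)) 2
  have hsym : ∀ p q : ℕ, scale p * scale q / (scale p + scale q) ^ 2
      = scale q * scale p / (scale q + scale p) ^ 2 := fun p q => by rw [mul_comm, add_comm]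
  induction K with
  | zero => exact ⟨fun _ => by simp, fun h => absurd h (by omega)⟩
  | succ K ih =>
    rw [Finset.sum_range_succ]
    constructor
    · intro h
      have h1 := ih.1 (by omega)
      have h2 : scale m * scale K / (scale m + scale K) ^ 2 ≤ (1/2:ℝ) ^ (m - K) := by
        rw [hsym]; exact hkey K m (by omega)
      have e1 : m + 1 - K = (m - K) + 1 := by omega
      have e2 : m + 1 - (K + 1) = m - K := by omega
      rw [e1, pow_succ (1/2:ℝ)] at h1
      rw [e2]; linarith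
    · intro h
      rcases Nat.eq_or_lt_of_le h with h' | h'
      · have hK : K = m := by omega
        subst hK
        have h1 := ih.1 (by omega)
        have h2 := hkey K K le_rfl
        simp at h1 h2 ⊢
        linarith
      · have h1 := ih.2 (by omega)
        have h2 := hkey m K (by omega)
        have e1 : K - m = (K - (m + 1)) + 1 := by omega
        have e2 : K + 1 - (m + 1) = (K - (m + 1)) + 1 := by omega
        rw [e1, pow_succ (1/2:ℝ)] at h2
        rw [e2, pow_succ (1/2:ℝ)]; linarith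

/-- Lower bound with `K` scales. -/
lemma variance_scales (K : ℕ) {ε : ℝ} (hε : 0 < ε)
    (hεK : ε ≤ ((1 / 2 : ℝ) ^ (K + 2)) ^ 10 / 36864000000) :
    ∃ N : ℕ, ∀ n ≥ N, ∀ β : ℝ, 1 ≤ β → β ≤ 1 + ε →
      (K : ℝ) / 67824 ≤ variance (freeEnergy n β) (disorderLaw n) := by
  rcases Nat.eq_zero_or_pos K with hK0 | hK0
  · subst hK0
    exact ⟨0, fun n _ β _ _ => by simpa using variance_nonneg _ _⟩
  set α := (1 / 2 : ℝ) ^ (K + 2)
  have hα : 0 < α := pow_pos (by norm_num) _
  choose Ns hNs using fun m : Fin K =>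
    meanStat_near (a := scale m) hα (scale_ge m.2) (scale_le m) hε hεK
  choose Ng hNg using fun p : Fin K × Fin K =>
    gram_mean (a := scale p.1) (b := scale p.2) hα (scale_ge p.1.2) (scale_ge p.2.2) (scale_le p.1) (scale_le p.2)
  refine ⟨(Finset.univ.sup Ns ⊔ Finset.univ.sup Ng) + 1, fun n hn β hβ1 hβ2 => ?_⟩
  have hn0 : 0 < n := by omega
  have hns : ∀ m, Ns m ≤ n := fun m => le_trans (Finset.le_sup (Finset.mem_univ m))
    (le_trans le_sup_left (by omega : Finset.univ.sup Ns ⊔ Finset.univ.sup Ng ≤ n))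
  have hng : ∀ p, Ng p ≤ n := fun p => le_trans (Finset.le_sup (Finset.mem_univ p))
    (le_trans le_sup_right (by omega : Finset.univ.sup Ns ⊔ Finset.univ.sup Ng ≤ n))
  set z : Fin K → ℂ := fun m => zOf (scale m)
  set w : Fin K → ℂ := fun m => wOf (scale m)
  have hz : ∀ m, (z m).im ≠ 0 := fun m => (im_zOf_pos (scale_pos m) (scale_le m)).ne'
  set T := resField n z w hz
  set μ := disorderLaw n
  have hE : ∫ g, ((∑ e, ‖T.V e g‖ ^ 2) + ∑ e, ∑ f, ‖T.D e f g‖ ^ 2) ∂μ ≤ 16956 * (K:ℝ) := by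
    have hgi : ∀ m l : Fin K, Integrable
        (fun g => ‖w m‖ * ‖w l‖ * gram n (scale m) (scale l) g) μ := fun m l =>
      (hNg (m, l) n (hng _)).1.const_mul _
    have hR : Integrable (fun g => ∑ m, ∑ l, ‖w m‖ * ‖w l‖ * gram n (scale m) (scale l) g) μ :=
      integrable_finset_sum _ fun m _ => integrable_finset_sum _ fun l _ => hgi m l
    refine (integral_mono_of_nonneg (ae_of_all _ fun g => by positivity) hR
      (ae_of_all _ fun g => field_energy hn0 z w hz g)).trans ?_
    rw [integral_finset_sum _ fun m _ => integrable_finset_sum _ fun l _ => hgi m l,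
      Finset.sum_congr rfl fun m _ => integral_finset_sum _ fun l _ => hgi m l]
    simp only [integral_const_mul]
    have hterm : ∀ m l : Fin K, ‖w m‖ * ‖w l‖ * ∫ g, gram n (scale m) (scale l) g ∂μ
        ≤ 5652 * (scale m * scale l / (scale m + scale l) ^ 2) := by
      intro m l
      have h1 := norm_wOf (scale_pos m) (scale_le m)
      have h2 := norm_wOf (scale_pos l) (scale_le l)
      have h3 := (hNg (m, l) n (hng _)).2
      have hp1 := scale_pos m
      have hp2 := scale_pos l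
      calc ‖w m‖ * ‖w l‖ * ∫ g, gram n (scale m) (scale l) g ∂μ
          ≤ ‖w m‖ * ‖w l‖ * (157 / (scale m + scale l) ^ 2) :=
            mul_le_mul_of_nonneg_left h3 (by positivity)
        _ ≤ (6 * scale m) * (6 * scale l) * (157 / (scale m + scale l) ^ 2) := by
            refine mul_le_mul_of_nonneg_right (mul_le_mul h1 h2 (norm_nonneg _) (by positivity)) (by positivity)
        _ = _ := by ring
    refine (Finset.sum_le_sum fun m _ => Finset.sum_le_sum fun l _ => hterm m l).trans ?_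
    have hrow : ∀ m : Fin K, ∑ l : Fin K, scale m * scale l / (scale m + scale l) ^ 2 ≤ 3 := by
      intro m
      rw [Fin.sum_univ_eq_sum_range fun l => scale m * scale l / (scale m + scale l) ^ 2]
      have := (geometric_row m K).2 (by omega)
      have : (0:ℝ) ≤ (1/2:ℝ) ^ (K - ((m:ℕ) + 1)) := by positivity
      linarith
    refine (Finset.sum_le_sum fun m _ => le_of_eq (Finset.mul_sum ..).symm).trans ?_
    refine (Finset.sum_le_sum fun m _ => mul_le_mul_of_nonneg_left (hrow m) (by norm_num)).trans ?_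
    simp; linarith
  have hV := T.variance_ge (F := freeEnergy n β) (F' := gradFree β)
    (freeEnergy_hasDerivAt β) (memLp_freeEnergy β) (memLp_gradFree β) hE
  have hint : ∫ g, ∑ e, (gradFree β e g : ℂ) * T.V e g ∂μ
      = (β : ℂ) * ∑ m, w m * meanStat n β (z m) := by
    have hi : ∀ m, Integrable (fun g => ∑ σ, (gibbs n β g σ : ℂ)
        * (sumStat (z m) (gauge σ g) - trStat (z m) g)) μ := by
      intro m
      refine integrable_finset_sum _ fun σ _ => integrable_of_bdd (C := 2 * |(z m).im|⁻¹)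
        ((measurable_gibbs β σ).complex_ofReal.mul
          (((measurable_sumStat (hz m)).comp (measurePreserving_gauge σ).measurable).sub
            (measurable_trStat (hz m)))).aestronglyMeasurable fun g => ?_
      rw [norm_mul, Complex.norm_real, Real.norm_eq_abs, abs_of_nonneg (gibbs_nonneg β g σ)]
      calc gibbs n β g σ * ‖sumStat (z m) (gauge σ g) - trStat (z m) g‖
          ≤ 1 * (|(z m).im|⁻¹ + |(z m).im|⁻¹) :=
            mul_le_mul (gibbs_le_one β g σ) ((norm_sub_le _ _).trans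
              (add_le_add (norm_sumStat_le (hz m) _) (norm_trStat_le (hz m) _))) (norm_nonneg _) zero_le_one
        _ = _ := by ring
    rw [integral_congr_ae (ae_of_all _ fun g => pairing_eq z w hz β g), integral_const_mul,
      integral_finset_sum _ fun m _ => (hi m).const_mul _]
    simp only [integral_const_mul]; rfl
  rw [hint] at hV
  have hsum : ‖(∑ m, w m * meanStat n β (z m)) - (K : ℂ)‖ ≤ (K:ℝ) / 20 := by
    have e : (∑ m, w m * meanStat n β (z m)) - (K : ℂ) = ∑ m, (w m * meanStat n β (z m) - 1) := by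
      simp [Finset.sum_sub_distrib]
    rw [e]
    refine (norm_sum_le _ _).trans
      ((Finset.sum_le_sum fun m _ => hNs m n (hns m) β hβ1 hβ2).trans (le_of_eq ?_))
    simp; ring
  have hlow : (K:ℝ) / 2 ≤ ‖(β : ℂ) * ∑ m, w m * meanStat n β (z m)‖ := by
    rw [norm_mul, Complex.norm_real, Real.norm_eq_abs, abs_of_pos (by linarith)]
    have := norm_sub_norm_le (K : ℂ) ((K : ℂ) - ∑ m, w m * meanStat n β (z m))
    rw [sub_sub_cancel, RCLike.norm_natCast, norm_sub_rev] at this
    have hS0 := norm_nonneg (∑ m, w m * meanStat n β (z m))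
    have : ‖∑ m, w m * meanStat n β (z m)‖ ≤ β * ‖∑ m, w m * meanStat n β (z m)‖ :=
      le_mul_of_one_le_left hS0 hβ1
    have : (0:ℝ) ≤ K := Nat.cast_nonneg K
    linarith
  have hKR : (0:ℝ) < K := by exact_mod_cast hK0
  have h5 : ((K:ℝ) / 2) ^ 2 ≤ variance (freeEnergy n β) μ * (16956 * K) :=
    (pow_le_pow_left₀ (by positivity) hlow 2).trans hV
  refine le_of_mul_le_mul_right (le_trans (le_of_eq ?_) h5) (by positivity : (0:ℝ) < 16956 * K)
  ring

/-- Main theorem. -/
theorem variance_log_divergence :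
    ∃ c > (0:ℝ), ∃ ε₀ > (0:ℝ), ∀ ε : ℝ, 0 < ε → ε ≤ ε₀ →
      ∃ N : ℕ, ∀ n ≥ N, ∀ β : ℝ, 1 ≤ β → β ≤ 1 + ε →
        c * Real.log (1 / ε) ≤ variance (freeEnergy n β) (disorderLaw n) := by
  set l := Real.log 1024
  have hl : 0 < l := Real.log_pos (by norm_num)
  set L0 := 2 * (Real.log 36864000000 + 2 * l) with hL0
  have hl36 : 0 ≤ Real.log 36864000000 := Real.log_nonneg (by norm_num)
  refine ⟨1 / (67824 * (4 * l)), by positivity, Real.exp (-L0), Real.exp_pos _, fun ε hε hε0 => ?_⟩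
  set L := Real.log (1 / ε)
  have hLd : L = -Real.log ε := by simp [L]
  have hL : L0 ≤ L := by
    have := Real.log_le_log hε hε0
    rw [Real.log_exp] at this
    linarith
  set x := L / (2 * l) with hx
  have hx1 : 1 ≤ x := by
    rw [hx, le_div_iff₀ (by positivity)]; linarith
  set K := ⌊x⌋₊
  have hKx : (K:ℝ) ≤ x := Nat.floor_le (by linarith)
  have hK1 : 1 ≤ K := Nat.one_le_floor_iff x |>.2 hx1
  have hKh : x / 2 ≤ K := by
    have := Nat.lt_floor_add_one x
    have : (1:ℝ) ≤ K := by exact_mod_cast hK1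
    linarith
  have hcond : ε ≤ ((1 / 2 : ℝ) ^ (K + 2)) ^ 10 / 36864000000 := by
    have hKl : 2 * ((K:ℝ) * l) ≤ L := by
      have := mul_le_mul_of_nonneg_right hKx (by positivity : (0:ℝ) ≤ 2 * l)
      rw [hx, div_mul_cancel₀ _ (by positivity)] at this; linarith
    have hrw : ((1 / 2 : ℝ) ^ (K + 2)) ^ 10 = (1 / 1024) ^ (K + 2) := by
      rw [← pow_mul, mul_comm, pow_mul]; norm_num
    rw [hrw, ← Real.log_le_log_iff hε (by positivity),
      Real.log_div (by positivity) (by norm_num), Real.log_pow, one_div, Real.log_inv]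
    push_cast
    linarith
  obtain ⟨N, hN⟩ := variance_scales K hε hcond
  refine ⟨N, fun n hn β hβ1 hβ2 => le_trans ?_ (hN n hn β hβ1 hβ2)⟩
  calc 1 / (67824 * (4 * l)) * L = x / 2 / 67824 := by rw [hx]; field_simp; ring
    _ ≤ _ := div_le_div_of_nonneg_right hKh (by norm_num)

end Vale.Agent.P146
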