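import Vale.Agent.P146.Tools

open MeasureTheory ProbabilityTheory Function
open scoped ENNReal NNReal

namespace Vale.Agent.P146

lemma setEntry_apply {n : ℕ} (e : Fin n × Fin n) (g : Disorder n) (t : ℝ) (k l : Fin n) :
    setEntry e g t k l = if (k, l) = e then t else g k l := by
  obtain ⟨i, j⟩ := e
  simp only [setEntry, Function.update_apply]
  by_cases hk : k = i <;> by_cases hl : l = j <;> simp_all [Prod.ext_iff]

lemma setEntry_same {n : ℕ} (e : Fin n × Fin n) (g : Disorder n) :
    setEntry e g (g e.1 e.2) = g := by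
  funext k l; rw [setEntry_apply]; split
  · next h => subst h; rfl
  · rfl

lemma measurable_entry {n : ℕ} (i j : Fin n) : Measurable fun g : Disorder n => g i j :=
  Measurable.comp (g := fun r : Fin n → ℝ => r j) (measurable_pi_apply j) (measurable_pi_apply i)

lemma hasDerivAt_pdf (t : ℝ) :
    HasDerivAt (gaussianPDFReal 0 1) (-t * gaussianPDFReal 0 1 t) t := by
  have h : HasDerivAt (fun x : ℝ => (Real.sqrt (2 * Real.pi * ((1 : ℝ≥0) : ℝ)))⁻¹ *
      Real.exp (-(x - 0) ^ 2 / (2 * ((1 : ℝ≥0) : ℝ)))) (-t * gaussianPDFReal 0 1 t) t := by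
    have h1 : HasDerivAt (fun x : ℝ => -(x - 0) ^ 2 / (2 * ((1 : ℝ≥0) : ℝ))) (-t) t := by
      have := ((((hasDerivAt_id t).sub_const 0).pow 2).neg).div_const (2 * ((1 : ℝ≥0) : ℝ))
      refine this.congr_deriv ?_
      simp; ring
    refine (h1.exp.const_mul _).congr_deriv ?_
    rw [gaussianPDFReal_def]; ring
  rwa [← gaussianPDFReal_def] at h

lemma integrable_gaussian_iff {E : Type*} [NormedAddCommGroup E] [NormedSpace ℝ E] {f : ℝ → E} :
    Integrable f (gaussianReal 0 1) ↔ Integrable fun x => gaussianPDFReal 0 1 x • f x := by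
  rw [gaussianReal_of_var_ne_zero 0 one_ne_zero, integrable_withDensity_iff_integrable_smul'
    (measurable_gaussianPDF 0 1) (ae_of_all _ fun _ => gaussianPDF_lt_top)]
  simp [toReal_gaussianPDF]

/-- One-dimensional Gaussian integration by parts. -/
lemma gaussian_ibp {φ φ' : ℝ → ℂ} (hd : ∀ t, HasDerivAt φ (φ' t) t)
    (h0 : Integrable φ (gaussianReal 0 1))
    (h1 : Integrable (fun t : ℝ => (t : ℂ) * φ t) (gaussianReal 0 1))
    (h2 : Integrable φ' (gaussianReal 0 1)) :
    ∫ t, (t : ℂ) * φ t ∂gaussianReal 0 1 = ∫ t, φ' t ∂gaussianReal 0 1 := by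
  rw [integrable_gaussian_iff] at h0 h1 h2
  rw [integral_gaussianReal_eq_integral_smul one_ne_zero,
    integral_gaussianReal_eq_integral_smul one_ne_zero]
  set p := gaussianPDFReal 0 1
  have hv : ∀ t, HasDerivAt (fun x => (p x : ℂ)) ((-t * p t : ℝ) : ℂ) t := fun t =>
    (hasDerivAt_pdf t).ofReal_comp
  have huv' : Integrable (φ * fun t => ((-t * p t : ℝ) : ℂ)) := by
    refine h1.neg.congr (ae_of_all _ fun t => ?_)
    simp [Complex.real_smul]; ring
  have hu'v : Integrable (φ' * fun x => (p x : ℂ)) := by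
    refine h2.congr (ae_of_all _ fun t => ?_)
    simp [Complex.real_smul]; ring
  have huv : Integrable (φ * fun x => (p x : ℂ)) := by
    refine h0.congr (ae_of_all _ fun t => ?_)
    simp [Complex.real_smul]; ring
  have H := integral_mul_deriv_eq_deriv_mul_of_integrable
    (fun x _ => hd x) (fun x _ => hv x) huv' hu'v huv
  have e1 : (fun x : ℝ => p x • ((x : ℂ) * φ x)) = fun x => -(φ x * ((-x * p x : ℝ) : ℂ)) := by
    funext x; simp [Complex.real_smul]; ring
  have e2 : (fun x : ℝ => p x • φ' x) = fun x => φ' x * (p x : ℂ) := by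
    funext x; simp [Complex.real_smul]; ring
  rw [e1, e2, integral_neg, H, neg_neg]

variable {n : ℕ}

/-- Integration by parts in one entry of the disorder. -/
lemma ibp (e : Fin n × Fin n) (f f' : Disorder n → ℂ)
    (hd : ∀ g, HasDerivAt (fun t => f (setEntry e g t)) (f' g) (g e.1 e.2))
    (h0 : Integrable f (disorderLaw n))
    (h1 : Integrable (fun g => (g e.1 e.2 : ℂ) * f g) (disorderLaw n))
    (h2 : Integrable f' (disorderLaw n)) :
    ∫ g, (g e.1 e.2 : ℂ) * f g ∂disorderLaw n = ∫ g, f' g ∂disorderLaw n := by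
  have hU := updates_entry n
  rw [hU.integral_eq e h1, hU.integral_eq e h2]
  have s0 := ((hU.mp e).integrable_comp_of_integrable h0).prod_right_ae
  have s1 := ((hU.mp e).integrable_comp_of_integrable h1).prod_right_ae
  have s2 := ((hU.mp e).integrable_comp_of_integrable h2).prod_right_ae
  refine integral_congr_ae ?_
  filter_upwards [s0, s1, s2] with g a0 a1 a2
  have hself : ∀ t, setEntry e g t e.1 e.2 = t := fun t => by simp [setEntry_apply]
  simp only [Function.comp, hself] at a0 a1 a2 ⊢
  refine gaussian_ibp (fun t => ?_) a0 a1 a2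
  have := hd (setEntry e g t)
  simpa [hU.absorb, hself] using this

lemma lintegral_entry (e : Fin n × Fin n) {F : Disorder n → ℝ≥0∞} (hF : Measurable F) :
    ∫⁻ g, F g ∂disorderLaw n
      = ∫⁻ g, (∫⁻ t, F (setEntry e g t) ∂gaussianReal 0 1) ∂disorderLaw n := by
  have h := (updates_entry n).mp e
  conv_lhs => rw [← h.map_eq]
  rw [lintegral_map hF h.measurable]
  exact lintegral_prod _ (hF.comp h.measurable).aemeasurable

lemma lintegral_gaussian_shift (m : ℝ) {φ : ℝ → ℝ≥0∞} (hφ : Measurable φ) :
    ∫⁻ t, ENNReal.ofReal (Real.exp (m * t - m ^ 2 / 2)) * φ t ∂gaussianReal 0 1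
      = ∫⁻ t, φ (t + m) ∂gaussianReal 0 1 := by
  have hw : Measurable fun t : ℝ => ENNReal.ofReal (Real.exp (m * t - m ^ 2 / 2)) := by fun_prop
  have hp := measurable_gaussianPDF 0 1
  rw [gaussianReal_of_var_ne_zero 0 one_ne_zero,
    lintegral_withDensity_eq_lintegral_mul _ hp
      (g := fun t => ENNReal.ofReal (Real.exp (m * t - m ^ 2 / 2)) * φ t) (by fun_prop),
    lintegral_withDensity_eq_lintegral_mul _ hp (g := fun t => φ (t + m)) (by fun_prop)]
  conv_rhs => rw [← lintegral_add_right_eq_self _ (-m)]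
  refine lintegral_congr fun t => ?_
  have key : gaussianPDFReal 0 1 t * Real.exp (m * t - m ^ 2 / 2)
      = gaussianPDFReal 0 1 (t + -m) := by
    simp only [gaussianPDFReal_def]
    rw [mul_assoc, ← Real.exp_add]
    congr 2
    push_cast; ring
  simp only [Pi.mul_apply]
  rw [← mul_assoc, gaussianPDF_def, ← ENNReal.ofReal_mul (gaussianPDFReal_nonneg 0 1 t), key]
  simp

/-- Shifting the disorder by a deterministic array. -/
lemma lintegral_shift (m : Fin n → Fin n → ℝ) {Φ : Disorder n → ℝ≥0∞} (hΦ : Measurable Φ) :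
    ∫⁻ g, ENNReal.ofReal (Real.exp (∑ i, ∑ j, (m i j * g i j - m i j ^ 2 / 2))) * Φ g
        ∂disorderLaw n
      = ∫⁻ g, Φ (fun i j => g i j + m i j) ∂disorderLaw n := by
  classical
  set w : Fin n × Fin n → Disorder n → ℝ :=
    fun e g => m e.1 e.2 * g e.1 e.2 - m e.1 e.2 ^ 2 / 2 with hw
  suffices H : ∀ s : Finset (Fin n × Fin n),
      ∫⁻ g, ENNReal.ofReal (Real.exp (∑ e ∈ s, w e g)) *
          Φ (fun i j => g i j + if (i, j) ∈ s then 0 else m i j) ∂disorderLaw n
        = ∫⁻ g, Φ (fun i j => g i j + m i j) ∂disorderLaw n by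
    have := H Finset.univ
    simpa [hw, Fintype.sum_prod_type] using this
  intro s
  induction s using Finset.induction_on with
  | empty => simp
  | @insert e s he ih =>
    rw [← ih]
    have mw : ∀ e', Measurable (w e') := fun e' =>
      ((measurable_entry e'.1 e'.2).const_mul _).sub_const _
    have m1 : ∀ u : Finset (Fin n × Fin n), Measurable fun g : Disorder n =>
        ENNReal.ofReal (Real.exp (∑ e ∈ u, w e g)) *
          Φ (fun i j => g i j + if (i, j) ∈ u then 0 else m i j) := fun u => by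
      refine Measurable.mul ?_ (hΦ.comp ?_)
      · exact ((Finset.measurable_sum u fun e _ => mw e).exp).ennreal_ofReal
      · exact measurable_pi_iff.2 fun i => measurable_pi_iff.2 fun j => (measurable_entry i j).add_const _
    rw [lintegral_entry e (m1 _), lintegral_entry e (m1 s)]
    refine lintegral_congr fun g => ?_
    have hs : ∀ t, ∑ e' ∈ s, w e' (setEntry e g t) = ∑ e' ∈ s, w e' g := by
      intro t
      refine Finset.sum_congr rfl fun e' he' => ?_
      have : e' ≠ e := fun h => he (h ▸ he')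
      simp [hw, setEntry_apply, this]
    have hwe : ∀ t, w e (setEntry e g t) = m e.1 e.2 * t - m e.1 e.2 ^ 2 / 2 := fun t => by
      simp [hw, setEntry_apply]
    set ψ : ℝ → ℝ≥0∞ := fun t => Φ (fun i j => setEntry e g t i j + if (i, j) ∈ insert e s then 0 else m i j)
      with hψ
    have hψm : Measurable ψ := by
      refine hΦ.comp (measurable_pi_iff.2 fun i => measurable_pi_iff.2 fun j => ?_)
      simp only [setEntry_apply]
      by_cases h : (i, j) = e
      · simp only [h, if_true]; exact measurable_id.add_const _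
      · simp only [h, if_false]; exact measurable_const
    have hsh : ∀ t, ψ (t + m e.1 e.2)
        = Φ (fun i j => setEntry e g t i j + if (i, j) ∈ s then 0 else m i j) := by
      intro t
      simp only [hψ]
      congr 1; funext i j
      simp only [setEntry_apply, Finset.mem_insert]
      by_cases h : (i, j) = e
      · subst h; simp [he]
      · simp [h]
    simp only [Finset.sum_insert he, hs, hwe, Real.exp_add,
      ENNReal.ofReal_mul (Real.exp_pos _).le]
    have e0 : ∀ t : ℝ, ENNReal.ofReal (Real.exp (m e.1 e.2 * t - m e.1 e.2 ^ 2 / 2)) *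
        ENNReal.ofReal (Real.exp (∑ e' ∈ s, w e' g)) * ψ t
        = ENNReal.ofReal (Real.exp (∑ e' ∈ s, w e' g)) *
          (ENNReal.ofReal (Real.exp (m e.1 e.2 * t - m e.1 e.2 ^ 2 / 2)) * ψ t) := fun t => by ring
    calc _ = ∫⁻ t, ENNReal.ofReal (Real.exp (∑ e' ∈ s, w e' g)) *
          (ENNReal.ofReal (Real.exp (m e.1 e.2 * t - m e.1 e.2 ^ 2 / 2)) * ψ t) ∂gaussianReal 0 1 :=
        lintegral_congr fun t => by rw [← e0]
      _ = ENNReal.ofReal (Real.exp (∑ e' ∈ s, w e' g)) *
          ∫⁻ t, ψ (t + m e.1 e.2) ∂gaussianReal 0 1 := by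
        rw [lintegral_const_mul' _ _ ENNReal.ofReal_ne_top, lintegral_gaussian_shift _ hψm]
      _ = _ := by
        rw [← lintegral_const_mul' _ _ ENNReal.ofReal_ne_top]
        exact lintegral_congr fun t => by rw [hsh]

/-- Sign changes of the entries. -/
lemma measurePreserving_signs (ε : Fin n → Fin n → Bool) :
    MeasurePreserving (fun (g : Disorder n) i j => spin (ε i j) * g i j)
      (disorderLaw n) (disorderLaw n) := by
  refine measurePreserving_pi _ _ (f := fun i (r : Fin n → ℝ) j => spin (ε i j) * r j) fun i =>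
    measurePreserving_pi _ _ (f := fun j (x : ℝ) => spin (ε i j) * x) fun j => ⟨by fun_prop, ?_⟩
  rw [gaussianReal_map_const_mul]
  congr 1
  · simp
  · cases ε i j <;> · ext; simp [spin]

end Vale.Agent.P146
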