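import Vale.Agent.P146.Defs

open MeasureTheory ProbabilityTheory Function
open scoped ENNReal

namespace Vale.Agent.P146

/-! ### Resampling of coordinates -/

section Coord

variable {κ Ω α : Type*} [MeasurableSpace Ω] [MeasurableSpace α]

/-- A family of commuting coordinate updates preserving a probability measure. -/
structure Updates (μ : Measure Ω) (ν : Measure α) (T : κ → Ω → α → Ω) : Prop where
  mp : ∀ e, MeasurePreserving (fun p : Ω × α => T e p.1 p.2) (μ.prod ν) μ
  absorb : ∀ e x a b, T e (T e x a) b = T e x b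
  comm : ∀ e e' x a b, e ≠ e' → T e (T e' x a) b = T e' (T e x b) a

/-- Averaging out one coordinate. -/
noncomputable def avgAt (ν : Measure α) (T : κ → Ω → α → Ω) (e : κ) (f : Ω → ℝ) : Ω → ℝ :=
  fun x => ∫ a, f (T e x a) ∂ν

variable {μ : Measure Ω} {ν : Measure α} {T : κ → Ω → α → Ω}
  [IsProbabilityMeasure μ] [IsProbabilityMeasure ν]

lemma Updates.meas (h : Updates μ ν T) (e : κ) :
    Measurable (fun p : Ω × α => T e p.1 p.2) := (h.mp e).measurable

lemma Updates.integral_eq {E : Type*} [NormedAddCommGroup E] [NormedSpace ℝ E]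
    (h : Updates μ ν T) (e : κ) {f : Ω → E}
    (hf : Integrable f μ) : ∫ x, f x ∂μ = ∫ x, ∫ a, f (T e x a) ∂ν ∂μ := by
  have hm := h.mp e
  have hi : Integrable (fun p : Ω × α => f (T e p.1 p.2)) (μ.prod ν) :=
    hm.integrable_comp_of_integrable hf
  rw [← integral_prod _ hi]
  conv_lhs => rw [← hm.map_eq]
  rw [integral_map hm.measurable.aemeasurable]
  rw [hm.map_eq]; exact hf.aestronglyMeasurable

lemma integrable_of_bdd {X E : Type*} [MeasurableSpace X] [NormedAddCommGroup E]
    {m : Measure X} [IsFiniteMeasure m]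
    {f : X → E} {C : ℝ} (hf : AEStronglyMeasurable f m) (hb : ∀ x, ‖f x‖ ≤ C) : Integrable f m :=
  Integrable.of_bound hf C (ae_of_all _ hb)

lemma Updates.avg_meas (h : Updates μ ν T) (e : κ) {f : Ω → ℝ} (hf : Measurable f) :
    Measurable (avgAt ν T e f) := by
  have : StronglyMeasurable (fun p : Ω × α => f (T e p.1 p.2)) :=
    (hf.comp (h.meas e)).stronglyMeasurable
  exact (this.integral_prod_right' (ν := ν)).measurable

lemma avgAt_bdd (e : κ) {f : Ω → ℝ} {C : ℝ} (hb : ∀ x, |f x| ≤ C) (x : Ω) :
    |avgAt ν T e f x| ≤ C := by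
  have h : ∀ᵐ a ∂ν, ‖f (T e x a)‖ ≤ C := ae_of_all _ fun a => hb _
  simpa [avgAt] using norm_integral_le_of_norm_le_const h

lemma Updates.int_section (h : Updates μ ν T) (e : κ) {f : Ω → ℝ} {C : ℝ} (hf : Measurable f)
    (hb : ∀ x, |f x| ≤ C) (x : Ω) : Integrable (fun a => f (T e x a)) ν :=
  integrable_of_bdd (hf.comp ((h.meas e).comp measurable_prodMk_left)).aestronglyMeasurable
    (fun a => hb _)

/-- Difference bounds are preserved by averaging. -/
lemma Updates.avg_diff (h : Updates μ ν T) (e : κ) {f : Ω → ℝ} {C : ℝ} (hf : Measurable f)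
    (hb : ∀ x, |f x| ≤ C) (d : κ → α → α → ℝ) (hd0 : ∀ e a b, 0 ≤ d e a b)
    (hd : ∀ e' x a b, |f (T e' x a) - f (T e' x b)| ≤ d e' a b) :
    ∀ e' x a b, |avgAt ν T e f (T e' x a) - avgAt ν T e f (T e' x b)| ≤ d e' a b := by
  intro e' x a b
  by_cases he : e = e'
  · subst he
    simp [avgAt, h.absorb, hd0]
  · unfold avgAt
    rw [← integral_sub (h.int_section e hf hb _) (h.int_section e hf hb _)]
    have hh : ∀ᵐ c ∂ν, ‖f (T e (T e' x a) c) - f (T e (T e' x b) c)‖ ≤ d e' a b := by
      refine ae_of_all _ fun c => ?_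
      rw [h.comm e e' x a c he, h.comm e e' x b c he]
      exact hd e' _ a b
    simpa using norm_integral_le_of_norm_le_const hh

/-- Averaging creates and preserves independence of coordinates. -/
lemma Updates.avg_indep (h : Updates μ ν T) (e : κ) (f : Ω → ℝ) (s : Set κ)
    (hs : ∀ e' ∈ s, ∀ x a, f (T e' x a) = f x) :
    ∀ e', (e' = e ∨ e' ∈ s) → ∀ x a, avgAt ν T e f (T e' x a) = avgAt ν T e f x := by
  intro e' he' x a
  unfold avgAt
  by_cases he : e = e'
  · subst he; simp [h.absorb]
  · rcases he' with r | r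
    · exact absurd r.symm he
    · congr 1; funext c
      rw [h.comm e e' x a c he]; exact hs e' r _ _

/-- One averaging step for the variance. -/
lemma Updates.var_step (h : Updates μ ν T) (e : κ) {f : Ω → ℝ} {C : ℝ} (hf : Measurable f)
    (hb : ∀ x, |f x| ≤ C) (d : α → α → ℝ) (hd : ∀ x a b, |f (T e x a) - f (T e x b)| ≤ d a b)
    (hdi : Integrable (fun p : α × α => d p.1 p.2 ^ 2) (ν.prod ν)) (c : ℝ) :
    ∫ x, (f x - c) ^ 2 ∂μ
      ≤ ∫ x, (avgAt ν T e f x - c) ^ 2 ∂μ + ∫ p : α × α, d p.1 p.2 ^ 2 ∂(ν.prod ν) := by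
  have hq : ∀ {g : Ω → ℝ}, Measurable g → (∀ x, |g x| ≤ C) →
      Integrable (fun x => (g x - c) ^ 2) μ := by
    intro g hg hgb
    refine integrable_of_bdd (C := (C + |c|) ^ 2) ((hg.sub_const c).pow_const 2).aestronglyMeasurable
      fun x => ?_
    rw [Real.norm_eq_abs, abs_pow]
    exact pow_le_pow_left₀ (abs_nonneg _) ((abs_sub _ _).trans (by linarith [hgb x])) 2
  rw [h.integral_eq e (hq hf hb)]
  set D := ∫ p : α × α, d p.1 p.2 ^ 2 ∂(ν.prod ν)
  have key : ∀ x, ∫ a, (f (T e x a) - c) ^ 2 ∂ν ≤ (avgAt ν T e f x - c) ^ 2 + D := by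
    intro x
    set u : α → ℝ := fun a => f (T e x a) with hu
    have hum : Measurable u := hf.comp ((h.meas e).comp measurable_prodMk_left)
    have hi : Integrable u ν := h.int_section e hf hb x
    have hi2 : Integrable (fun a => u a ^ 2) ν := by
      refine integrable_of_bdd (C := C ^ 2) (hum.pow_const 2).aestronglyMeasurable fun a => ?_
      rw [Real.norm_eq_abs, abs_pow]
      exact pow_le_pow_left₀ (abs_nonneg _) (hb _) 2
    have i1 : Integrable (fun p : α × α => u p.1 ^ 2) (ν.prod ν) := by
      simpa using hi2.mul_prod (integrable_const (1 : ℝ) (μ := ν))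
    have i2 : Integrable (fun p : α × α => u p.2 ^ 2) (ν.prod ν) := by
      simpa using (integrable_const (1 : ℝ) (μ := ν)).mul_prod hi2
    have i3 : Integrable (fun p : α × α => u p.1 * u p.2) (ν.prod ν) := hi.mul_prod hi
    have e1 : ∫ p : α × α, (u p.1 - u p.2) ^ 2 ∂(ν.prod ν)
        = 2 * ∫ a, u a ^ 2 ∂ν - 2 * (∫ a, u a ∂ν) ^ 2 := by
      have hpt : (fun p : α × α => (u p.1 - u p.2) ^ 2)
          = fun p => u p.1 ^ 2 + u p.2 ^ 2 - 2 * (u p.1 * u p.2) := by funext p; ring
      rw [hpt, integral_sub (by exact i1.add i2) (i3.const_mul 2), integral_add i1 i2,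
        integral_const_mul, integral_prod_mul]
      have a1 := integral_fun_fst (μ := ν) (ν := ν) (fun a => u a ^ 2)
      have a2 := integral_fun_snd (μ := ν) (ν := ν) (fun a => u a ^ 2)
      simp only [probReal_univ, one_smul] at a1 a2
      rw [a1, a2]; ring
    have e2 : ∫ p : α × α, (u p.1 - u p.2) ^ 2 ∂(ν.prod ν) ≤ D := by
      refine integral_mono ?_ hdi fun p => ?_
      · exact ((i1.add i2).sub (i3.const_mul 2)).congr (ae_of_all _ fun p => by simp; ring)
      · simp only
        nlinarith [hd x p.1 p.2, abs_nonneg (u p.1 - u p.2), sq_abs (u p.1 - u p.2)]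
    have e3 : ∫ a, (u a - c) ^ 2 ∂ν = ∫ a, u a ^ 2 ∂ν - 2 * c * ∫ a, u a ∂ν + c ^ 2 := by
      have hpt : (fun a => (u a - c) ^ 2) = fun a => u a ^ 2 - 2 * c * u a + c ^ 2 := by
        funext a; ring
      rw [hpt, integral_add (by exact hi2.sub (hi.const_mul _)) (integrable_const _),
        integral_sub hi2 (hi.const_mul _), integral_const_mul]
      simp
    have e4 : avgAt ν T e f x = ∫ a, u a ∂ν := rfl
    have e5 : 0 ≤ ∫ p : α × α, (u p.1 - u p.2) ^ 2 ∂(ν.prod ν) :=
      integral_nonneg fun p => sq_nonneg _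
    rw [show (fun a => (f (T e x a) - c) ^ 2) = fun a => (u a - c) ^ 2 from rfl, e3, e4]
    nlinarith
  have hA := hq (h.avg_meas e hf) (avgAt_bdd e hb)
  have hL : Integrable (fun x => ∫ a, (f (T e x a) - c) ^ 2 ∂ν) μ :=
    ((h.mp e).integrable_comp_of_integrable (hq hf hb)).integral_prod_left
  calc ∫ x, ∫ a, (f (T e x a) - c) ^ 2 ∂ν ∂μ
      ≤ ∫ x, ((avgAt ν T e f x - c) ^ 2 + D) ∂μ := integral_mono hL (hA.add (integrable_const D)) key
    _ = _ := by rw [integral_add hA (integrable_const D)]; simp

/-- One averaging step for exponential moments. -/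
lemma Updates.exp_step (h : Updates μ ν T) (e : κ) {f : Ω → ℝ} {C L : ℝ} (hf : Measurable f)
    (hb : ∀ x, |f x| ≤ C) (hd : ∀ x a b, |f (T e x a) - f (T e x b)| ≤ L) (t : ℝ) :
    ∫ x, Real.exp (t * f x) ∂μ
      ≤ Real.exp (t ^ 2 * L ^ 2) * ∫ x, Real.exp (t * avgAt ν T e f x) ∂μ := by
  have hq : ∀ {g : Ω → ℝ}, Measurable g → (∀ x, |g x| ≤ C) →
      Integrable (fun x => Real.exp (t * g x)) μ := by
    intro g hg hgb
    refine integrable_of_bdd (C := Real.exp (|t| * C))
      (hg.const_mul t).exp.aestronglyMeasurable fun x => ?_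
    rw [Real.norm_eq_abs, Real.abs_exp, Real.exp_le_exp]
    calc t * g x ≤ |t * g x| := le_abs_self _
      _ ≤ |t| * C := by rw [abs_mul]; exact mul_le_mul_of_nonneg_left (hgb x) (abs_nonneg t)
  rw [h.integral_eq e (hq hf hb), ← integral_const_mul]
  refine integral_mono ((h.mp e).integrable_comp_of_integrable (hq hf hb)).integral_prod_left
    ((hq (h.avg_meas e hf) (avgAt_bdd e hb)).const_mul _) fun x => ?_
  set u : α → ℝ := fun a => f (T e x a) with hu
  set m := ∫ a, u a ∂ν with hm
  have hi : Integrable u ν := h.int_section e hf hb x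
  have hum : Measurable u := hf.comp ((h.meas e).comp measurable_prodMk_left)
  have hL0 : 0 ≤ L ∨ ¬ Nonempty α := by
    by_cases hne : Nonempty α
    · obtain ⟨a⟩ := hne
      exact Or.inl ((abs_nonneg _).trans (hd x a a))
    · exact Or.inr hne
  -- deviations from the mean are bounded by `L`
  have hdev : ∀ a, |u a - m| ≤ L := by
    intro a
    have : u a - m = ∫ b, (u a - u b) ∂ν := by
      rw [integral_sub (integrable_const _) hi]; simp [hm]
    rw [this]
    have hh : ∀ᵐ b ∂ν, ‖u a - u b‖ ≤ L := ae_of_all _ fun b => hd x a b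
    simpa using norm_integral_le_of_norm_le_const hh
  -- Hoeffding's bound through `exp z ≤ z + exp (z ^ 2)`
  have hpt : ∀ a, Real.exp (t * (u a - m)) ≤ t * (u a - m) + Real.exp (t ^ 2 * L ^ 2) := by
    intro a
    set z := t * (u a - m) with hz
    have hz2 : z ^ 2 ≤ t ^ 2 * L ^ 2 := by
      rw [hz, mul_pow]
      refine mul_le_mul_of_nonneg_left ?_ (sq_nonneg _)
      rw [← sq_abs (u a - m)]
      exact pow_le_pow_left₀ (abs_nonneg _) (hdev a) 2
    have := Real.exp_le_exp.2 hz2
    rcases le_or_gt |z| 1 with h1 | h1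
    · have := Real.abs_exp_sub_one_sub_id_le h1
      have := abs_le.1 this
      have := Real.add_one_le_exp (z ^ 2)
      linarith
    · rcases le_or_gt 0 z with h0 | h0
      · have : 1 < z := by rwa [abs_of_nonneg h0] at h1
        have : Real.exp z ≤ Real.exp (z ^ 2) := Real.exp_le_exp.2 (by nlinarith)
        linarith
      · have : z < -1 := by rw [abs_of_neg h0] at h1; linarith
        have := Real.add_one_le_exp (z ^ 2)
        have : Real.exp z ≤ 1 := Real.exp_le_one_iff.2 h0.le
        nlinarith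
  have i1 : Integrable (fun a => t * (u a - m) + Real.exp (t ^ 2 * L ^ 2)) ν :=
    ((hi.sub (integrable_const m)).const_mul t).add (integrable_const _)
  have i0 : Integrable (fun a => Real.exp (t * (u a - m))) ν := by
    refine i1.mono' ((hum.sub_const m).const_mul t).exp.aestronglyMeasurable (ae_of_all _ fun a => ?_)
    rw [Real.norm_eq_abs, Real.abs_exp]; exact hpt a
  have hle : ∫ a, Real.exp (t * (u a - m)) ∂ν ≤ Real.exp (t ^ 2 * L ^ 2) := by
    refine (integral_mono i0 i1 hpt).trans ?_
    have hs1 : Integrable (fun a => t * (u a - m)) ν := (hi.sub (integrable_const m)).const_mul t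
    rw [integral_add hs1 (integrable_const _),
      integral_const_mul, integral_sub hi (integrable_const m)]
    simp [hm]
  have e0 : (fun a => Real.exp (t * f (T e x a)))
      = fun a => Real.exp (t * m) * Real.exp (t * (u a - m)) := by
    funext a; rw [← Real.exp_add]; congr 1; simp [hu]; ring
  show ∫ a, Real.exp (t * f (T e x a)) ∂ν ≤ Real.exp (t ^ 2 * L ^ 2) * Real.exp (t * m)
  rw [e0, integral_const_mul, mul_comm (Real.exp (t ^ 2 * L ^ 2))]
  exact mul_le_mul_of_nonneg_left hle (Real.exp_pos _).le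

variable [Fintype κ]

lemma Updates.avg_all (h : Updates μ ν T) {f : Ω → ℝ} {C : ℝ} (hf : Measurable f)
    (hb : ∀ x, |f x| ≤ C)
    (conn : ∀ g : Ω → ℝ, (∀ e x a, g (T e x a) = g x) → ∀ x y, g x = g y)
    (d : κ → α → α → ℝ) (hd0 : ∀ e a b, 0 ≤ d e a b)
    (hd : ∀ e x a b, |f (T e x a) - f (T e x b)| ≤ d e a b)
    (Φ : (Ω → ℝ) → Prop) (w : κ → ℝ)
    (P : (Ω → ℝ) → ℝ → Prop)
    (base : P (fun _ => ∫ x, f x ∂μ) 0)
    (step : ∀ e g s, Measurable g → (∀ x, |g x| ≤ C) →
      (∀ x a b, |g (T e x a) - g (T e x b)| ≤ d e a b) →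
      P (avgAt ν T e g) s → P g (s + w e)) :
    P f (∑ e, w e) := by
  classical
  suffices H : ∀ s : Finset κ, ∀ g : Ω → ℝ, Measurable g → (∀ x, |g x| ≤ C) →
      (∀ e x a b, |g (T e x a) - g (T e x b)| ≤ d e a b) →
      (∫ x, g x ∂μ = ∫ x, f x ∂μ) → (∀ e, e ∉ s → ∀ x a, g (T e x a) = g x) →
      P g (∑ e ∈ s, w e) from
    H Finset.univ f hf hb hd rfl (fun e he => absurd (Finset.mem_univ e) he)
  intro s
  induction s using Finset.induction_on with
  | empty =>
    intro g hg _ _ hint hind
    have hc : ∀ x y, g x = g y := conn g fun e => hind e (Finset.notMem_empty e)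
    have : g = fun _ => ∫ x, f x ∂μ := by
      funext y
      rw [← hint, show g = fun _ => g y from funext fun x => hc x y]
      simp
    rw [this]; simpa using base
  | @insert e s he ih =>
    intro g hg hgb hgd hint hind
    have hgi : Integrable g μ := integrable_of_bdd hg.aestronglyMeasurable hgb
    have := ih (avgAt ν T e g) (h.avg_meas e hg) (avgAt_bdd e hgb) (h.avg_diff e hg hgb d hd0 hgd)
      ((h.integral_eq e hgi).symm.trans hint)
      (fun e' he' => h.avg_indep e g {e'' | e'' ∉ insert e s} (fun e'' h'' => hind e'' h'') e'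
        (by
          by_cases h' : e' = e
          · exact Or.inl h'
          · exact Or.inr (by simp [h', he'])))
    have := step e g _ hg hgb (hgd e) this
    rw [Finset.sum_insert he, add_comm]
    exact this

/-- Efron–Stein inequality. -/
lemma Updates.efron_stein (h : Updates μ ν T) {f : Ω → ℝ} {C : ℝ} (hf : Measurable f)
    (hb : ∀ x, |f x| ≤ C)
    (conn : ∀ g : Ω → ℝ, (∀ e x a, g (T e x a) = g x) → ∀ x y, g x = g y)
    (d : κ → α → α → ℝ) (hd0 : ∀ e a b, 0 ≤ d e a b)
    (hd : ∀ e x a b, |f (T e x a) - f (T e x b)| ≤ d e a b)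
    (hdi : ∀ e, Integrable (fun p : α × α => d e p.1 p.2 ^ 2) (ν.prod ν)) :
    ∫ x, (f x - ∫ y, f y ∂μ) ^ 2 ∂μ ≤ ∑ e, ∫ p : α × α, d e p.1 p.2 ^ 2 ∂(ν.prod ν) :=
  h.avg_all hf hb conn d hd0 hd (fun _ => True) _
    (fun g s => ∫ x, (g x - ∫ y, f y ∂μ) ^ 2 ∂μ ≤ s) (by simp)
    (fun e g s hg hgb hgd hs => by
      have := h.var_step e hg hgb (d e) hgd (hdi e) (∫ y, f y ∂μ)
      linarith)

/-- McDiarmid's inequality, exponential moment form. -/
lemma Updates.mcdiarmid (h : Updates μ ν T) {f : Ω → ℝ} {C L : ℝ} (hf : Measurable f)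
    (hb : ∀ x, |f x| ≤ C)
    (conn : ∀ g : Ω → ℝ, (∀ e x a, g (T e x a) = g x) → ∀ x y, g x = g y)
    (hL : 0 ≤ L) (hd : ∀ e x a b, |f (T e x a) - f (T e x b)| ≤ L) (t : ℝ) :
    ∫ x, Real.exp (t * (f x - ∫ y, f y ∂μ)) ∂μ
      ≤ Real.exp (Fintype.card κ * (t ^ 2 * L ^ 2)) := by
  have H : ∫ x, Real.exp (t * f x) ∂μ
      ≤ Real.exp ((t * ∫ y, f y ∂μ) + ∑ _e : κ, t ^ 2 * L ^ 2) :=
    h.avg_all hf hb conn (fun _ _ _ => L) (fun _ _ _ => hL) hd (fun _ => True) _
      (fun g s => ∫ x, Real.exp (t * g x) ∂μ ≤ Real.exp ((t * ∫ y, f y ∂μ) + s)) (by simp)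
      (fun e g s hg hgb hgd hs => by
        refine (h.exp_step e hg hgb hgd t).trans ?_
        refine (mul_le_mul_of_nonneg_left hs (Real.exp_pos _).le).trans (le_of_eq ?_)
        rw [← Real.exp_add]; congr 1; ring)
  have e0 : (fun x => Real.exp (t * (f x - ∫ y, f y ∂μ)))
      = fun x => Real.exp (-(t * ∫ y, f y ∂μ)) * Real.exp (t * f x) := by
    funext x; rw [← Real.exp_add]; congr 1; ring
  rw [e0, integral_const_mul]
  refine (mul_le_mul_of_nonneg_left H (Real.exp_pos _).le).trans (le_of_eq ?_)
  rw [← Real.exp_add]; congr 1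
  simp

end Coord

/-! ### The updates of the disorder -/

variable {n : ℕ}

/-- Replace row `i`. -/
def setRow (i : Fin n) (g : Disorder n) (a : Fin n → ℝ) : Disorder n := Function.update g i a

/-- Replace one entry. -/
def setEntry (e : Fin n × Fin n) (g : Disorder n) (t : ℝ) : Disorder n :=
  Function.update g e.1 (Function.update (g e.1) e.2 t)

lemma measurePreserving_update {ι α : Type*} [Fintype ι] [DecidableEq ι] [MeasurableSpace α]
    (ν : ι → Measure α) [∀ i, IsProbabilityMeasure (ν i)] (i : ι) :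
    MeasurePreserving (fun p : (ι → α) × α => Function.update p.1 i p.2)
      ((Measure.pi ν).prod (ν i)) (Measure.pi ν) := by
  have hm : Measurable (fun p : (ι → α) × α => Function.update p.1 i p.2) := by
    refine measurable_pi_iff.2 fun j => ?_
    by_cases hj : j = i
    · subst hj; simpa using measurable_snd
    · simpa [Function.update_of_ne hj] using (measurable_pi_apply j).comp' measurable_fst
  refine ⟨hm, (Measure.pi_eq fun s hs => ?_).symm⟩
  rw [Measure.map_apply hm (MeasurableSet.univ_pi hs)]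
  have hpre : (fun p : (ι → α) × α => Function.update p.1 i p.2) ⁻¹' Set.univ.pi s
      = Set.univ.pi (Function.update s i Set.univ) ×ˢ s i := by
    ext ⟨x, a⟩
    simp only [Set.mem_preimage, Set.mem_univ_pi, Set.mem_prod]
    constructor
    · intro H
      refine ⟨fun j => ?_, by simpa using H i⟩
      by_cases hj : j = i
      · subst hj; simp
      · simpa [Function.update_of_ne hj] using H j
    · rintro ⟨H, ha⟩ j
      by_cases hj : j = i
      · subst hj; simpa using ha
      · simpa [Function.update_of_ne hj] using H j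
  rw [hpre, Measure.prod_prod, Measure.pi_pi]
  conv_rhs => rw [← Finset.mul_prod_erase _ _ (Finset.mem_univ i)]
  conv_lhs => rw [← Finset.mul_prod_erase _ _ (Finset.mem_univ i)]
  rw [Function.update_self, measure_univ, one_mul, mul_comm]
  congr 1
  refine Finset.prod_congr rfl fun j hj => ?_
  rw [Function.update_of_ne (Finset.ne_of_mem_erase hj)]

lemma updates_row (n : ℕ) :
    Updates (disorderLaw n) (Measure.pi fun _ : Fin n => gaussianReal 0 1) (setRow (n := n)) := by
  refine ⟨fun i => measurePreserving_update _ i, fun i g a b => ?_, fun i j g a b h => ?_⟩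
  · simp [setRow]
  · simp only [setRow]; exact Function.update_comm (Ne.symm h) a b g

lemma updates_entry (n : ℕ) :
    Updates (disorderLaw n) (gaussianReal 0 1) (setEntry (n := n)) := by
  refine ⟨fun e => ?_, fun e g a b => ?_, fun e e' g a b h => ?_⟩
  · obtain ⟨i, j⟩ := e
    have h1 := measurePreserving_update (fun _ : Fin n => Measure.pi fun _ : Fin n => gaussianReal 0 1) i
    have h2 := measurePreserving_update (fun _ : Fin n => gaussianReal 0 1) j
    set μ := disorderLaw n
    set N := gaussianReal 0 1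
    set νr := Measure.pi fun _ : Fin n => N
    have hm : Measurable (fun p : Disorder n × ℝ => setEntry (i, j) p.1 p.2) := by
      have a1 : Measurable (fun p : Disorder n × ℝ => (p.1 i, p.2)) :=
        ((measurable_pi_apply i).comp measurable_fst).prodMk measurable_snd
      have a2 : Measurable (fun p : Disorder n × ℝ => Function.update (p.1 i) j p.2) :=
        Measurable.comp (g := fun q : (Fin n → ℝ) × ℝ => Function.update q.1 j q.2) h2.measurable a1
      exact Measurable.comp (g := fun q : Disorder n × (Fin n → ℝ) => Function.update q.1 i q.2)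
        h1.measurable (measurable_fst.prodMk a2)
    refine ⟨hm, ?_⟩
    ext s hs
    rw [Measure.map_apply hm hs]
    -- express both sides by resampling the whole row first
    have hA : ∀ F : Disorder n × ℝ → ℝ≥0∞, Measurable F →
        ∫⁻ p, F p ∂(μ.prod N) = ∫⁻ g, (∫⁻ a, (∫⁻ t, F (Function.update g i a, t) ∂N) ∂νr) ∂μ := by
      intro F hF
      have hG : Measurable fun g => ∫⁻ t, F (g, t) ∂N := hF.lintegral_prod_right'
      rw [lintegral_prod _ hF.aemeasurable]
      conv_lhs => rw [show μ = Measure.pi fun _ : Fin n => νr from rfl, ← h1.map_eq]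
      rw [lintegral_map hG h1.measurable]
      exact lintegral_prod _ (hG.comp h1.measurable).aemeasurable
    have hB : ∀ F : Disorder n → ℝ≥0∞, Measurable F →
        ∫⁻ g, F g ∂μ = ∫⁻ g, (∫⁻ a, F (Function.update g i a) ∂νr) ∂μ := by
      intro F hF
      conv_lhs => rw [show μ = Measure.pi fun _ : Fin n => νr from rfl, ← h1.map_eq]
      rw [lintegral_map hF h1.measurable]
      exact lintegral_prod _ (hF.comp h1.measurable).aemeasurable
    rw [← lintegral_indicator_one (hm hs), ← lintegral_indicator_one hs,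
      hA _ (measurable_one.indicator (hm hs)), hB _ (measurable_one.indicator hs)]
    refine lintegral_congr fun g => ?_
    set K : (Fin n → ℝ) → ℝ≥0∞ := fun a => s.indicator 1 (Function.update g i a) with hK
    have hKm : Measurable K := (measurable_one.indicator hs).comp (measurable_update g)
    show _ = ∫⁻ a, K a ∂νr
    conv_rhs => rw [← h2.map_eq]
    rw [lintegral_map hKm h2.measurable]
    refine Eq.trans ?_ (lintegral_prod _ (hKm.comp h2.measurable).aemeasurable).symm
    refine lintegral_congr fun a => lintegral_congr fun t => ?_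
    simp only [hK, Function.comp]
    by_cases hmem : setEntry (i, j) (Function.update g i a) t ∈ s
    · rw [Set.indicator_of_mem (by exact hmem)]
      have : Function.update g i (Function.update a j t) ∈ s := by simpa [setEntry] using hmem
      rw [Set.indicator_of_mem this]; rfl
    · rw [Set.indicator_of_notMem (by exact hmem)]
      have : Function.update g i (Function.update a j t) ∉ s := by simpa [setEntry] using hmem
      rw [Set.indicator_of_notMem this]
  · simp [setEntry]
  · obtain ⟨i, j⟩ := e; obtain ⟨i', j'⟩ := e'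
    funext k l
    simp only [setEntry, Function.update_apply]
    by_cases hk : k = i <;> by_cases hk' : k = i' <;> by_cases hl : l = j <;> by_cases hl' : l = j'
      <;> simp_all

lemma conn_row (g : Disorder n → ℝ) (h : ∀ i x a, g (setRow i x a) = g x) (x y : Disorder n) :
    g x = g y := by
  classical
  suffices H : ∀ s : Finset (Fin n), g (fun k => if k ∈ s then y k else x k) = g x by
    simpa using (H Finset.univ).symm
  intro s
  induction s using Finset.induction_on with
  | empty => simp
  | @insert i s hi ih =>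
    rw [← ih, ← h i (fun k => if k ∈ s then y k else x k) (y i)]
    congr 1; funext k
    by_cases hk : k = i
    · subst hk; simp [setRow]
    · simp [setRow, hk]

lemma conn_entry (g : Disorder n → ℝ) (h : ∀ e x a, g (setEntry e x a) = g x) (x y : Disorder n) :
    g x = g y := by
  classical
  suffices H : ∀ s : Finset (Fin n × Fin n),
      g (fun k l => if (k, l) ∈ s then y k l else x k l) = g x by
    simpa using (H Finset.univ).symm
  intro s
  induction s using Finset.induction_on with
  | empty => simp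
  | @insert e s he ih =>
    rw [← ih, ← h e (fun k l => if (k, l) ∈ s then y k l else x k l) (y e.1 e.2)]
    congr 1; funext k l
    simp only [setEntry, Function.update_apply, Finset.mem_insert]
    obtain ⟨i, j⟩ := e
    by_cases hk : k = i <;> by_cases hl : l = j <;> simp_all [Prod.ext_iff]

end Vale.Agent.P146
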